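import Crest.Agent.X212.Sw.ZlC
import Crest.Agent.X212.Wal14.Defs

/-!
# Row 212, ZL (helper91): the `L²` estimates on the cylinder at a wall of positive scalar curvature
-/

set_option autoImplicit false
set_option linter.unusedSectionVars false
set_option maxHeartbeats 400000
noncomputable section
open scoped Manifold ContDiff Topology InnerProductSpace
open MeasureTheory Function Filter Finset Real

namespace Crest.Agent.X212.Sw.Zl
open An An.Pre Wz78 Sob92 Cyf70 Rf65 Map77 Op78 Nd18 Wal14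
open Inv14 (hv ct inner_hv bo g_bo cν_inv)
open Rdc90 (Bs PS)
open Gj67 (rho cd_rho)
open Gl67 (ka ka_deriv)
open Iz83 (bm bm_cd bm_zero)

theorem d_rho : deriv rho = fun t => smoothTransition t - smoothTransition (-t) := funext fun t =>
  (HasDerivAt.deriv (f := rho) (((ka_deriv t).add ((ka_deriv (-t)).comp t (hasDerivAt_neg t))).add_const
    (1 - ka 1))).trans (by ring)

theorem pk_rho : ∃ M, Pk rho bm M := by
  have c := (contDiff_infty_iff_deriv.1 (contDiff_infty_iff_deriv.1 cd_rho).2).2.continuous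
  have e : ∀ t, 1 < |t| → deriv rho =ᶠ[𝓝 t] fun _ => if 0 < t then 1 else -1 := fun t ht => by
    rw [d_rho]
    rcases lt_abs.1 ht with h | h
    · filter_upwards [Ioi_mem_nhds h] with s hs
      rw [smoothTransition.one_of_one_le (le_of_lt hs), smoothTransition.zero_of_nonpos
        (by linarith [Set.mem_Ioi.1 hs]), if_pos (by linarith), sub_zero]
    · filter_upwards [Iio_mem_nhds (lt_neg.1 h)] with s hs
      rw [smoothTransition.one_of_one_le (x := -s) (by linarith [Set.mem_Iio.1 hs]),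
        smoothTransition.zero_of_nonpos (by linarith [Set.mem_Iio.1 hs]), if_neg (by linarith), zero_sub]
  have z : ∀ t, 1 < |t| → deriv (deriv rho) t = 0 := fun t ht => by rw [(e t ht).deriv_eq]; simp
  obtain ⟨M, hM⟩ := c.bounded_above_of_compact_support (.intro (isCompact_Icc (a := -1) (b := 1))
    fun t ht => z t (not_le.1 fun k => ht (abs_le.1 k)))
  have k : ∀ t, 0 ≤ t → t ≤ 1 → |ka t + ka (-t) + (1 - ka 1)| ≤ 1 := fun t h0 h1 => by
    have := Gl67.ka_mono h1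
    have := Gl67.ka_lip h1
    rw [Gl67.ka_zero (neg_nonpos.2 h0), abs_le]
    constructor <;> linarith
  refine ⟨M, cd_rho.of_le two_le, fun t => ?_, fun t ht => ?_, hM, z, fun t ht => ?_,
    bm_cd.continuous, fun t => ContDiffBump.nonneg_normed _ t, fun t ht => bm_zero.2 ht.le,
    ContDiffBump.integral_normed _⟩
  · rw [d_rho, abs_le]
    constructor <;> linarith [smoothTransition.nonneg t, smoothTransition.nonneg (-t),
      smoothTransition.le_one t, smoothTransition.le_one (-t)]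
  · rw [(e t ht).eq_of_nhds]; split_ifs <;> norm_num
  · rcases le_total 0 t with h | h
    · exact k t h (abs_le.1 ht).2
    · simpa only [rho, neg_neg, add_comm (ka (-t))] using k (-t) (neg_nonneg.2 h) (neg_le.1 (abs_le.1 ht).1)

variable {E : Type} [NormedAddCommGroup E] [NormedSpace ℝ E] [FiniteDimensional ℝ E]
  [MeasurableSpace E] [BorelSpace E]
  {HM : Type} [TopologicalSpace HM] {I : ModelWithCorners ℝ E HM} [I.Boundaryless]
  {Y : Type} [TopologicalSpace Y] [ChartedSpace HM Y] [IsManifold I ∞ Y] [T2Space Y]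
  [MeasurableSpace Y] [BorelSpace Y] [SecondCountableTopology Y] [CompactSpace Y]
  {κ η lam : Type} [Fintype κ] [DecidableEq κ] [Fintype η] [DecidableEq η] [Fintype lam]
  {D : YD I Y κ lam} {β : YC Y κ lam} {O' : Set (Y × ℝ)} {ν : η → κ → Y → ℝ} {r c δ : ℝ}
  {ξ : Y → β.m.A}

theorem ZZ.F_exp {K : Type} [Fintype K] [DecidableEq K] {F : Fr I Y κ} {d : Bd (Y × ℝ) (Option κ) K}
    {W : Option κ → Y → En K} (h : ZZ F d W ν r c) {ψ : ℝ → ℝ} (hψ : ContDiff ℝ ∞ ψ)
    {w : Y × ℝ → Cf (Option κ) K} (hw : w ∈ Sec (IC I) d.pC) (e : ℝ) :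
    Fz F d W ν e (fun t => -deriv ψ t) (fun x => exp (ψ x.2) • w x) = fun x => exp (ψ x.2) •
      (Az F d W w x + (e + deriv ψ x.2) • i1 _ _ (fa (w x) none)) := _root_.funext fun x => by
  have := h.σ_P ((ZZ.smul_mem hψ.exp hw).2.2 x)
  simp only [Fz, Pi.add_apply, h.A_smul hψ.exp hw.1 (hw.2.2 x), sg, hz, cz, this, map_smul,
    PiLp.smul_apply, ((hψ.differentiable (by simp) x.2).hasDerivAt.exp).deriv]
  module

theorem zz (H : Bs D β) (hO : IsClopen O') (S : Psc D.F ν r) (hc : PS D c) :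
    ZZ D.F (bo D β O') β.W ν r c := by
  have A := H.adm.adm
  refine ⟨(cp_bz H.ok H.adm).ind isClopen_univ hO, riem_of_vol H.ok.G.vol, S, H.adm.tmp,
    fun a b x ξ h => ?_, fun x v h => ?_, fun x => ?_, H.dim.le.trans (by norm_num)⟩
  · refine (adc_curv_g H.ok.B H.ok.G A.ok A.conn a b (pg_of_mem ((g_bo x.1 x.2).1 h))).trans ?_
    rw [show (Nd18.cy β).m.Fg D.G.F (Nd18.cy β).W x = 0 from H.flat x]
    simp [adc_apply]
    rfl
  · by_cases hx : x ∈ O'
    · rw [show (bo D β O').sp x = _ from Set.indicator_of_mem hx _] at h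
      exact Inv14.wK_ge H.ok.B H.ok.G A.ok A.conn h (H.flat x) (hc x)
    · rw [← h, show (bo D β O').sp x = 0 from Set.indicator_of_notMem hx _]; simp
  · rw [show (bo D β O').g = (bz D β).g from Set.indicator_univ _]; rfl

theorem zw [Subsingleton η] (H : Bs D β) (hO : IsClopen O') (S : Psc D.F ν r) (hc : PS D c)
    (hz : dz D β = 1) (hξ : ParY D β ξ) (h0 : ξ ≠ 0) (hδ : 0 < δ) (h4 : 4 * δ ^ 2 ≤ min r c) :
    ∃ e₀ > 0, ∀ e ∈ Set.Ioc 0 e₀, ∀ (ψ γ : ℝ → ℝ) R L, ContDiff ℝ ∞ ψ → Antitone (deriv ψ) →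
      (∀ t, |deriv ψ t| ≤ δ) → (∀ t, γ t = e + deriv ψ t) → (∀ w, 0 ≤ R w) → 0 ≤ L →
      (∀ w ∈ Sec (IC I) (bo D β O').pC, ∀ i (c : ℝ → ℝ), ContDiff ℝ ∞ c → HasCompactSupport c →
        (∀ t, c t = exp (ψ t) * ∫ y, ⟪Rf65.kk ν (some i) ξ (y, t), w (y, t)⟫_ℝ ∂D.F.μ) →
        ∫ t, c t ^ 2 ≤ L * ((∫ t, (deriv c t + -deriv ψ t * c t) ^ 2) + R w ^ 2)) →
      ZW D β O' 0 0 ψ γ R := by
  have h := zz H hO S hc
  have p : Pl D.F (sA (adw β.W)) (fun y => (bo D β O').g (y, 0)) ξ :=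
    ⟨hξ.sm, fun y => (g_bo y 0).2 (hξ.mem y), hξ.par⟩
  have := openPos D.F.toPre
  have n : 0 < ∫ y, ⟪ξ y, ξ y⟫_ℝ ∂D.F.μ := by
    obtain ⟨y, hy⟩ := Function.ne_iff.1 h0
    exact (hξ.sm.continuous.inner hξ.sm.continuous).integral_pos_of_hasCompactSupport_nonneg_nonzero
      (x := y) (.of_compactSpace _) (fun _ => real_inner_self_nonneg) (inner_self_ne_zero.2 hy)
  obtain ⟨e₀, e0, hm⟩ := h.main p n (fun ζ hζ => by
    obtain ⟨s, hs⟩ := (finrank_eq_one_iff_of_nonzero' (⟨ξ, Submodule.subset_span hξ⟩ : Submodule.span ℝ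
      {ξ | ParY D β ξ}) fun e => h0 (congrArg Subtype.val e)).1 hz
      ⟨ζ, Submodule.subset_span ⟨hζ.sm, fun y => (g_bo y 0).1 (hζ.mem y), hζ.par⟩⟩
    exact ⟨s, congrArg Subtype.val hs⟩) hδ h4
  refine ⟨e₀, e0, fun e he ψ γ R L hψ m hb hγ R0 L0 hR => ?_⟩
  obtain ⟨C, C0, hC⟩ := hm e he
  obtain ⟨N, hN⟩ : ∃ N, N = ∫ y, ⟪ξ y, ξ y⟫_ℝ ∂D.F.μ := ⟨_, rfl⟩
  rw [← hN] at n
  refine ⟨C * (1 + Fintype.card η * √(L * (N + 1))), by positivity, fun w hw => ?_⟩
  have hμ : ContDiff ℝ ∞ fun t => -deriv ψ t := (contDiff_infty_iff_deriv.1 hψ).2.neg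
  have hu := ZZ.smul_mem hψ.exp hw
  have b := hC _ _ hμ (fun t => Monotone.deriv_nonneg m.neg) (fun t => (abs_neg _).trans_le (hb t)) hu
  have e1 : Dec35.nw D.Z.toPre 0 (fun x => ψ x.2) w = ‖em D.F (sg D.F (bo D β O') β.W (fun _ => 1)
      fun x => exp (ψ x.2) • w x)‖ := by
    rw [← Real.sqrt_sq (norm_nonneg _), h.sq_sg hu]
    simp only [← real_inner_self_eq_norm_sq]
    rfl
  have e2 : Dec35.nw D.Z.toPre 0 (fun x => ψ x.2) (Tz D β O' γ w) = ‖em D.F (Fz D.F (bo D β O') β.W ν e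
      (fun t => -deriv ψ t) fun x => exp (ψ x.2) • w x)‖ := by
    rw [norm_em (h.F_mem hμ hu), h.F_exp hψ hw]
    simp only [Dec35.nw, Tz, hγ]
  rw [e1, e2]
  have s : ∀ i, √(∫ t, co D.F ν ξ (some i) (fun x => exp (ψ x.2) • w x) t ^ 2) ≤ √(L * (N + 1)) *
      (‖em D.F (Fz D.F (bo D β O') β.W ν e (fun t => -deriv ψ t) fun x => exp (ψ x.2) • w x)‖ + R w) :=
    fun i => by
      obtain ⟨c1, c2, c3⟩ := h.co_le p (e := e) hμ hu (some i)
      have := R0 w
      refine Real.sqrt_le_iff.2 ⟨by positivity, (hR w hw i _ c1 c2 fun t => ?_).trans ?_⟩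
      · simp only [co, cz, ← inner_hv, real_inner_smul_right, integral_const_mul, Rf65.kk_t _ t 0]
        rfl
      rw [mul_pow, Real.sq_sqrt (by positivity), mul_assoc]
      refine mul_le_mul_of_nonneg_left ((add_le_add_left (hN ▸ c3) _).trans ?_) L0
      generalize em D.F (Fz D.F (bo D β O') β.W ν e _ _) = f
      nlinarith [sq_nonneg ‖f‖, mul_nonneg n.le (sq_nonneg (R w)), mul_nonneg (norm_nonneg f) this,
        mul_nonneg n.le (mul_nonneg (norm_nonneg f) this)]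
  have := sum_le_sum fun i (_ : i ∈ univ) => s i
  rw [sum_const, card_univ, nsmul_eq_mul] at this
  rw [mul_assoc]
  exact b.trans (mul_le_mul_of_nonneg_left (by linarith [R0 w]) C0)

/-- **LEAF ZL** -/
theorem zl (κ lam : Type) [Fintype κ] [Fintype lam] : ZlStmt κ lam := by
  intro ρ hρ c hc
  refine ⟨min 1 (√(min ρ c) / 2), by positivity, fun δ hδ Y _ D V _ _ _ ν β ξ S hP H hz hξ h0 => ?_⟩
  classical
  have d0 := hδ.1
  have h4 : 4 * δ ^ 2 ≤ min ρ c := by
    nlinarith [Real.sq_sqrt (lt_min hρ hc).le, (le_min_iff.1 hδ.2).2]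
  have k : ∀ O', IsClopen O' → ∃ e₀ > 0, ∀ e ∈ Set.Ioc 0 e₀, ZE D β O' 0 0 δ e := fun O' hO => by
    obtain ⟨e₀, p, h⟩ := zw H hO S hP hz hξ h0 d0 h4
    refine ⟨e₀, p, fun e he s hs => ?_⟩
    have a : deriv (fun t : ℝ => δ * (s * t)) = fun _ => δ * s := funext fun t => by simp
    have s2 : s ^ 2 = 1 := by rcases hs with rfl | rfl <;> norm_num
    refine h e he _ _ 0 (1 / δ ^ 2) (by fun_prop) (a ▸ antitone_const) (fun t => ?_)
      (fun t => by rw [a, mul_comm]) (fun _ => le_rfl) (by positivity) fun w _ i c c1 c2 _ => ?_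
    · rw [a]; rcases hs with rfl | rfl <;> simp [abs_of_pos d0]
    have := ode0 c1 c2 (-(δ * s))
    rw [neg_sq, mul_pow, s2, mul_one] at this
    simpa [a, le_inv_mul_iff₀ (pow_pos d0 2)] using this
  obtain ⟨e₁, p1, h1⟩ := zw H isClopen_univ S hP hz hξ h0 d0 h4
  obtain ⟨e₂, p2, h2⟩ := k _ isClopen_univ
  obtain ⟨e₃, p3, h3⟩ := k _ isClopen_empty
  refine ⟨min e₁ (min e₂ e₃), by positivity, fun e he => ⟨fun O' hO => ?_, ?_⟩⟩
  · have := le_min_iff.1 (le_min_iff.1 he.2).2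
    rcases hO with rfl | rfl
    exacts [h2 e ⟨he.1, this.1⟩, h3 e ⟨he.1, this.2⟩]
  obtain ⟨M, pk⟩ := pk_rho
  have a : deriv (fun t => -δ * rho t) = fun t => -δ * deriv rho t := funext fun t =>
    ((cd_rho.differentiable (by simp) t).hasDerivAt.const_mul _).deriv
  refine h1 e ⟨he.1, he.2.trans (min_le_left _ _)⟩ _ _ _ (cPk 0 δ M) (contDiff_const.mul cd_rho)
    (fun s t k => ?_) (fun t => ?_) (fun t => by rw [a]; ring) (fun _ => norm_nonneg _)
    (by unfold cPk; positivity) fun w hw i c c1 c2 e => ?_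
  · simp only [a, d_rho]
    nlinarith [smoothTransition.monotone k, smoothTransition.monotone (neg_le_neg k)]
  · rw [a, abs_mul, abs_neg, abs_of_pos d0]
    exact mul_le_of_le_one_right d0.le (pk.le t)
  have := peak_curve pk (P := ContinuousLinearMap.id ℝ ℝ) (by simp) (V := 0) (C := 0)
    (fun t => (c1.differentiable (by simp) t).hasDerivAt) (c1.continuous_deriv (by simp))
    continuous_const c2 c2.deriv .zero (by simp) (by simp) (by simp) d0 (le_min_iff.1 hδ.2).1 (by simp)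
  have z := zz H isClopen_univ S hP
  have k := (z.sm_hz (i := some i) (sm_fst hξ.sm)).continuous.inner (𝕜 := ℝ) hw.1.continuous
  have f : ∫ t, bm t • exp (δ * rho t) • c t = ∫ x, bm x.2 * ⟪Rf65.kk ν (some i) ξ x, w x⟫_ℝ ∂D.Z.μ := by
    refine Eq.trans ?_ (integral_cyl D.F.toPre (u := fun x => bm x.2 * ⟪Rf65.kk ν (some i) ξ x, w x⟫_ℝ)
      ((bm_cd.continuous.comp continuous_snd).mul (by simpa only [Zl.hz, hv, cν_inv, Rf65.kk] using k))
      (Rf65.hcs_inner _ hw.2.1).mul_left).symm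
    simp [e, integral_const_mul, ← mul_assoc, ← exp_add]
  simp only [Real.norm_eq_abs, sq_abs, Pi.zero_apply, add_zero, ContinuousLinearMap.id_apply, f,
    smul_eq_mul (δ * _)] at this
  rw [a]
  simp only [neg_mul, neg_neg]
  refine this.trans (mul_le_mul_of_nonneg_left (add_le_add_right ?_ _) (by unfold cPk; positivity))
  rw [← sq_abs]
  exact pow_le_pow_left₀ (abs_nonneg _) (norm_le_pi_norm (fun i => ∫ x, bm x.2 *
    ⟪Rf65.kk ν (some i) ξ x, w x⟫_ℝ ∂D.Z.μ) i) 2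

end Crest.Agent.X212.Sw.Zl
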