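import Crest.Agent.X212.Sw.Brk

/-!
# Row 212, layer AN-S (helper91): leaves on cells (Banach model, compactness, gluing, naturality)
-/

set_option autoImplicit false
set_option linter.unusedSectionVars false
noncomputable section
open scoped Manifold ContDiff Topology InnerProductSpace
open MeasureTheory Set Function Filter

namespace Crest.Agent.X212.Sw
open An Cyf70 Prm93 En3
open Nd18 (Jv)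
open M (Mf)

variable {κ lam ν : Type} [Fintype κ] [Fintype lam] [Fintype ν] [DecidableEq ν]

section model
variable (d : Dt κ lam ν) {N : Type} [Fintype N] (ty : N → d.𝓔) (X : Mf 4) (nc nr : ℕ)
  (T : Type) [NormedAddCommGroup T] [NormedSpace ℝ T] [FiniteDimensional ℝ T]

/-- SW-PT: smooth points -/
def PtStmt : Prop := ∀ (s : Pz X 0 fun i => d.e (ty i)) (σ : Cel s nc nr T), σ.toFam.OK → s.Cr σ.β →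
  (∀ t ∈ σ.Q, (σ.P t).As σ.β (σ.bs t) ∧ (∀ c, (σ.P t).As σ.β c ↔ s.As σ.β
      ⟨fun a x => σ.al t c x a, c.Φ⟩ ∧ ∀ i x, ∑ j, s.bg.B.P i j x * c.a j x = c.a i x) ∧
    ∀ u, (σ.P t).Al u ↔ s.Al u) ∧
  ∀ k, 4 ≤ k → closure (range (σ.pt k)) ⊇ σ.U k ∧ Injective (σ.pt k) ∧
    (∀ y x, s.bg.F.val _ _ (σ.pt k y).1 x =
      σ.al y.1.1 y.1.2 x - WithLp.toLp 2 fun a => (s.base σ.β).a a x) ∧
    (∀ y, s.bg.F.val _ _ (σ.pt k y).2.1 = y.1.2.Φ - (s.base σ.β).Φ) ∧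
    (∀ y y', ‖σ.pt k y - σ.pt k y'‖ ≤ σ.dk (k + 1) y y') ∧
    ∀ t ∈ σ.Q, ∀ α ∈ Mod61.Hs s.bg.F.toPre s.bg.p1, ∀ φ ∈ Mod61.Hs s.bg.F.toPre s.bg.pp,
      ∃ y, σ.pt k y = (Mod61.ofV _ _ _ α, Mod61.ofV _ _ _ φ, t)

/-- SW-MAP: all terms are smooth maps; the non-local ones gain a derivative -/
structure MapStmt : Prop where
  /-- MAP-L: the local part -/
  loc : ∀ (s : Pz X 0 fun i => d.e (ty i)) (σ : Cel s nc nr T), σ.toFam.OK → s.Cr σ.β →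
    ∀ k, 7 ≤ k → ∃ f : σ.C k → σ.Y k, σ.Rep (fun t c =>
      ((σ.P t).bg.eD c - (σ.P t).bg.eD (σ.bs t), (σ.P t).bg.eC c - (σ.P t).bg.eC (σ.bs t), 0, 0)) f
  /-- MAP-R: radial mass, holonomy term, the error of the base configuration -/
  rad : ∀ (s : Pz X 0 fun i => d.e (ty i)) (σ : Cel s nc nr T), σ.toFam.OK → s.Cr σ.β →
    ∀ k, 7 ≤ k → ∃ f : σ.C k → σ.Y (k + 1), σ.Rep (fun t c =>
      ((σ.P t).bg.eD (σ.bs t) - (σ.P t).p0.D c, (σ.P t).bg.eC (σ.bs t) - (σ.P t).p0.C c, 0, 0)) f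
  /-- MAP-S: levels -/
  ms : ∀ (s : Pz X 0 fun i => d.e (ty i)) (σ : Cel s nc nr T), σ.toFam.OK → s.Gd σ.β →
    ∀ w k, 7 ≤ k → ∃ f : σ.C k → σ.Y (k + 1), σ.Rep (fun t c => (0, (σ.P t).tm w c, 0, 0)) f
  mo : ∀ (s : Pz X 0 fun i => d.e (ty i)) (σ : Cel s nc nr T), σ.toFam.OK → s.Gd σ.β →
    (∀ i b, s.Inf i b → σ.Fn fun _ c => s.mo σ.β i b c) ∧
    (∀ i, s.nk i = none → ContDiffOn ℝ ∞ (fun t => (σ.P t).len i) σ.Q) ∧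
    ∀ g : T → ℝ, ContDiffOn ℝ ∞ g σ.Q → σ.Fn fun t _ => g t
  /-- MAP-C: cuts -/
  cut : ∀ (s : Pz X 0 fun i => d.e (ty i)) (σ : Cel s nc nr T), σ.toFam.OK → s.Cr σ.β →
    ∀ η : T → Fin nc → R4 → Eu ν, (∀ j, JC σ.Q fun t => η t j) → ∀ k, 7 ≤ k →
      ∃ f : σ.C k → Fin nc → ℂ, ContDiffOn ℝ ∞ f (σ.U k) ∧
        ∀ y j, f (σ.pt k y) j = (σ.P y.1.1).bg.lη j (η y.1.1 j) y.1.2

/-- SW-REP: the maps of the problem (from PT, MAP) -/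
def RepStmt : Prop := ∀ (s : Pz X 0 fun i => d.e (ty i)) (σ : Cel s nc nr T), σ.OK → ∀ k, 7 ≤ k →
  σ.Rep σ.e0 (σ.rp k σ.e0) ∧ (∀ w, σ.Rep (σ.eτ w) (σ.rp k (σ.eτ w))) ∧
    (∀ q y, σ.Sol q y ↔ (∃ x, y.1.2.Φ x ≠ 0) ∧ σ.F k q (σ.pt k y) = 0) ∧
    ∀ ι (l : Filter ι) y y₀, σ.Cvg l y y₀ → ∀ O ∈ 𝓝 (σ.pt k y₀), ∀ᶠ i in l,
      ∃ y', σ.pt k y' ∈ O ∧ σ.Eqv (y i) y'

/-- SW-FRED: the Fredholm property -/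
def FredStmt : Prop := ∀ (s : Pz X 0 fun i => d.e (ty i)) (σ : Cel s nc nr T), σ.OK → ∃ n, σ.Ind n

/-- SW-AX: gauge group, slices, regularity -/
def AxStmt : Prop := ∀ (s : Pz X 0 fun i => d.e (ty i)) (σ : Cel s nc nr T), σ.OK → ∀ n, σ.Ind n →
  ∀ k, 7 ≤ k → ∃ Γ : σ.GD k, (σ.prob Γ n).Ax (fun _ => True) ∧ Equivalence σ.Eqv

/-- SW-DENS-P: transversality on pieces -/
def DensStmt : Prop := ∀ (s : Pz X 0 fun i => d.e (ty i)) (σ : Cel s nc 0 T), σ.OK → ∀ n, σ.Ind n →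
  ∀ k, 7 ≤ k → ∀ q y, (σ.P y.1.1).Rich → σ.Sol q y → σ.Onto k q y

/-- SW-FACET: hyperplane sections -/
def FacStmt : Prop := ∀ (s : Pz X 0 fun i => d.e (ty i)) (σ : Cel s nc nr T), σ.OK →
  ∀ (T' : Type) [NormedAddCommGroup T'] [NormedSpace ℝ T'] [FiniteDimensional ℝ T']
    (j : T' →ᴬ[ℝ] T) (g : T →ᴬ[ℝ] ℝ), Injective j → range j = g ⁻¹' {0} → g.contLinear ≠ 0 →
    IsPreconnected (j ⁻¹' σ.Q) → (j ⁻¹' σ.Q).Nonempty → (σ.res j).OK ∧ (∀ n, σ.Ind n → (σ.res j).Ind (n - 1)) ∧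
    ∀ k, 7 ≤ k → ∀ q y, (σ.res j).Reg k q y → Surjective
      ((fderiv ℝ (σ.F k q) (σ.pt k (σ.inc j y))).prod
        (fderiv ℝ (σ.rr k fun t _ => g t) (σ.pt k (σ.inc j y))))

/-- SW-LOC: local compactness -/
def LocStmt : Prop := ∀ (s : Pz X 0 fun i => d.e (ty i)) (𝓕 : Fam s nc T), 𝓕.OK →
  ∀ (ι : Type) (𝒰 : Ultrafilter ι) (t : ι → T) (q : ι → d.W →₀ ℝ) (c : ι → Cfg X.M κ ν) t₀ q₀ (C : ℝ),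
    t₀ ∈ 𝓕.Q → Tendsto t 𝒰 (𝓝 t₀) → St.Cv (𝒰 : Filter ι) q q₀ →
    (∀ᶠ i in (𝒰 : Filter ι), (𝓕.P (t i)).bg.Adm (c i) ∧ (∀ x, ‖(c i).Φ x‖ ≤ C) ∧
      ∀ j, (𝓕.P (t i)).bg.l j (c i) = ((𝓕.P (t i)).pt (q i)).S (c i) j) →
    (∀ r, ∃ B : ℝ, ∀ᶠ i in (𝒰 : Filter ι),
      (𝓕.P (t i)).bg.EqOn ((𝓕.P (t i)).pt (q i)) (c i) (s.core r) ∧
      ∫⁻ x in s.core r, ‖(𝓕.P (t i)).bg.fc (c i) x‖ₑ ^ 2 ∂s.bg.F.μ ≤ ENNReal.ofReal B) →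
    ∃ c₀, (𝓕.P t₀).bg.Sol ((𝓕.P t₀).pt q₀) c₀ ∧ ∀ (r : ℝ) (k : ℕ), ∀ η > 0,
      ∀ᶠ i in (𝒰 : Filter ι), ∃ u, Gau X.I u ∧ ∀ w : List (Option κ), w.length ≤ k → ∀ x ∈ s.core r,
        ‖s.bg.F.Dw w (𝓕.al (t i) ((𝓕.P (t i)).bg.act u (c i)) - 𝓕.al t₀ c₀) x‖ ≤ η ∧
        ‖s.bg.F.Dw w (((𝓕.P (t i)).bg.act u (c i)).Φ - c₀.Φ) x‖ ≤ η

end model

variable (κ lam ν) in
/-- SW-DRIFT: the holonomy does not drift -/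
def DriftStmt : Prop := ∀ (e : En3 κ lam ν) (V : Set e.YC), e.OK → 0 < e.w → Rs V → ∀ C η : ℝ, 0 < η →
  ∃ C' : ℝ, ∀ (c : e.ZC) p p', e.cyl.AdmOn c (univ ×ˢ Jv p p') →
    (∀ x ∈ univ ×ˢ Jv p p', ‖e.cyl.eC c x‖ ≤ C) → Sup c (Jv p p') C →
    en c (Jv p p') ≤ ENNReal.ofReal C → (∀ t ∈ Jv p p', η ≤ nm (sl c t)) →
    ∀ t ∈ Jv p p', ∀ t' ∈ Jv p p', |hol (sl c t) - hol (sl c t')| ≤ C'

section slots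
variable (d : Dt κ lam ν) [Fintype d.𝓔] (Sl : Type) [Fintype Sl]

/-- generators and literal representatives on all ends -/
structure Ctx : Type 1 where
  g : ∀ ε, (d.e ε).Gen
  ok : ∀ ε, (g ε).OK
  V : ∀ ε, Set (d.e ε).YC
  rs : ∀ ε, Rs (V ε)

variable {d Sl} in
/-- small perturbations of a cell -/
def Cel.Sm {X : Mf 4} {nc nr : ℕ} {T : Type} {s : StS d Sl X} (σ : Cel s nc nr T) (η : ℝ)
    (q : d.W →₀ ℝ) : Prop := ∀ t ∈ σ.Q, (σ.P t).Small 6 η q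

/-- SW-DENS-Z: transversality on cylinders -/
def DensZStmt : Prop := ∀ (_ : Ctx d) (C : ℝ), ∃ η > 0, ∀ (i : d.𝓔 × Sl) (T : Type)
  [NormedAddCommGroup T] [NormedSpace ℝ T] [FiniteDimensional ℝ T] [Subsingleton T] (nr : ℕ) β,
  (d.cc Prod.fst i T nr β).OK → (∀ T' : (d.e i.1).YT, ∃ w, d.yt w i.1 = some T') →
  (nr = 0 ∨ nr = 1 ∧ L (β i true) < L (β i false)) → ∀ n, (d.cc Prod.fst i T nr β).Ind n →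
  ∀ k, 7 ≤ k → ∀ q y, (d.cc Prod.fst i T nr β).Sm η q → (∀ x, ‖y.1.2.Φ x‖ ≤ C) →
    (d.cc Prod.fst i T nr β).Sol q y →
    (d.cc Prod.fst i T nr β).Reg k q y ∨ (d.cc Prod.fst i T nr β).Onto k q y

variable (X : Mf 4) (nc nr : ℕ) (T : Type) [NormedAddCommGroup T] [NormedSpace ℝ T]
  [FiniteDimensional ℝ T]

/-- SW-BRK: convergence or long windows, for perturbations of size `η` -/
structure Brk (Γ : Ctx d) (C η₀ η : ℝ) : Prop where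
  /-- CONV -/
  conv : ∀ (s : StS d Sl X) (σ : Cel s nc nr T), σ.OK → ∀ (ι : Type) (𝒰 : Ultrafilter ι) q y ρ q₀ t₀,
    σ.PS 𝒰 q y ρ → St.Cv (𝒰 : Filter ι) q q₀ → (∀ᶠ i in (𝒰 : Filter ι), σ.Sm η (q i) ∧ σ.Bnd C η₀ (y i)) →
    t₀ ∈ σ.Q → Tendsto (fun i => (y i).1.1) 𝒰 (𝓝 t₀) →
    (∀ j b, s.Inf j b → ∃ r, ∀ᶠ i in (𝒰 : Filter ι), s.mo σ.β j b (y i).1.2 ≤ r) →
    ∃ y₀ : σ.Pnt, (σ.P y₀.1.1).bg.Sol ((σ.P y₀.1.1).pt q₀) y₀.1.2 ∧ σ.R y₀.1.1 y₀.1.2 = 0 ∧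
      σ.Cvg 𝒰 y y₀
  /-- BRK-E -/
  fre : ∀ (s : StS d Sl X) (σ : Cel s nc nr T), σ.OK → ∃ C', ∀ (ι : Type) (𝒰 : Ultrafilter ι) q y ρ q₀,
    σ.PS 𝒰 q y ρ → St.Cv (𝒰 : Filter ι) q q₀ → (∀ᶠ i in (𝒰 : Filter ι), σ.Sm η (q i) ∧ σ.Bnd C η₀ (y i)) →
    ∀ j b, s.Inf j b → Tendsto (fun i => s.mo σ.β j b (y i).1.2) 𝒰 atTop →
    ∃ v ∈ Γ.V j.1, ∃ y' τ, |hol v| ≤ C' ∧ (∀ᶠ i in (𝒰 : Filter ι), σ.Eqv (y i) (y' i)) ∧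
      σ.PS 𝒰 q y' ρ ∧ σ.Win 𝒰 y' ρ j v τ ∧ 0 < M.pm b * (L v - L (σ.β j b)) ∧
      (σ.Cen j → L (σ.β j true) < L v ∧ L v < L (σ.β j false)) ∧
      (¬σ.Cen j → Tendsto (fun i => M.pm b * τ i) 𝒰 atTop)
  /-- BRK-N -/
  nec : ∀ (s : StS d Sl X) (σ : Cel s nc nr T), σ.OK → ∀ j B, s.nk j = none → σ.HolB j B →
    (∀ w, ∃ r, ∀ t ∈ σ.Q, ∀ K ∈ (σ.P t).nk j, ∀ x ∈ univ ×ˢ K.deep r, (σ.P t).fo w (K.ψ x) = 0) →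
    ∃ C', ∀ (ι : Type) (𝒰 : Ultrafilter ι) q y ρ q₀,
    σ.PS 𝒰 q y ρ → St.Cv (𝒰 : Filter ι) q q₀ → (∀ᶠ i in (𝒰 : Filter ι), σ.Sm η (q i) ∧ σ.Bnd C η₀ (y i)) →
    Tendsto (fun i => (σ.P (y i).1.1).len j) 𝒰 atTop →
    ∃ v ∈ Γ.V j.1, ∃ y' τ, |hol v| ≤ C' ∧ (∀ᶠ i in (𝒰 : Filter ι), σ.Eqv (y i) (y' i)) ∧
      σ.PS 𝒰 q y' ρ ∧ σ.Win 𝒰 y' ρ j v τ

end slots

variable (κ lam ν) in
/-- SW-BRK -/
def BrkStmt : Prop := ∀ (d : Dt κ lam ν) [Fintype d.𝓔] (Sl : Type) [Fintype Sl] (Γ : Ctx d) (C η₀ : ℝ),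
  0 < η₀ → ∃ η > 0, ∀ (X : Mf 4) (nc nr : ℕ) (T : Type) [NormedAddCommGroup T] [NormedSpace ℝ T]
    [FiniteDimensional ℝ T], Brk d Sl X nc nr T Γ C η₀ η

section split
variable (d : Dt κ lam ν) [Fintype d.𝓔] (Sl : Type) [Fintype Sl] (X XL XR : Mf 4)
  (nc nr ncL nrL ncR nrR : ℕ) (T TL TR : Type)
  [NormedAddCommGroup T] [NormedSpace ℝ T] [FiniteDimensional ℝ T]
  [NormedAddCommGroup TL] [NormedSpace ℝ TL] [FiniteDimensional ℝ TL]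
  [NormedAddCommGroup TR] [NormedSpace ℝ TR] [FiniteDimensional ℝ TR]

/-- SW-CUT for perturbations of size `η` -/
def CutAt (C η : ℝ) : Prop := ∀ (s : StS d Sl X) (sL : StS d Sl XL) (sR : StS d Sl XR)
  (σ : Cel s nc nr T) (σL : Cel sL ncL nrL TL) (σR : Cel sR ncR nrR TR)
  (p : Spl X XL XR nc ncL ncR d Sl T TL TR), p.OK σ σL σR →
  ∀ (ι : Type) (𝒰 : Ultrafilter ι) q y ρ q₀ τ C₀ η₀, C₀ ≤ C → σ.PS 𝒰 q y ρ → St.Cv (𝒰 : Filter ι) q q₀ →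
    (∀ᶠ i in (𝒰 : Filter ι), σ.Sm η (q i) ∧ σ.Bnd C₀ η₀ (y i)) →
    σ.Win 𝒰 y ρ (p.ε, p.a) (σL.β (p.ε, p.aL) true) τ →
    (∀ b, p.o = some b → nr = 0 → Tendsto (fun i => M.pm b * τ i) 𝒰 atTop) →
    ∃ (x : ι → σL.Pnt) (z : ι → σR.Pnt) (δ : ι → ℝ × ℝ), ∃ ρL ρR, σL.PS 𝒰 q x ρL ∧ σR.PS 𝒰 q z ρR ∧
      (∀ᶠ i in (𝒰 : Filter ι), p.Agr (y i) (x i) (z i) (δ i) (τ i) ∧
        ρL i (p.ε, p.aL) true = some (τ i - (δ i).1) ∧ ρR i (p.ε, p.aR) false = some ((δ i).2 - τ i)) ∧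
      (∀ C' > C₀, ∀ η' < η₀, ∀ᶠ i in (𝒰 : Filter ι), σL.Bnd C' η' (x i) ∧ σR.Bnd C' η' (z i)) ∧
      ∀ E E' : ENNReal, E < E' → (∀ᶠ i in (𝒰 : Filter ι), (σ.P (y i).1.1).ean (y i).1.2 ≤ E) →
        ∀ᶠ i in (𝒰 : Filter ι), (σL.P (x i).1.1).ean (x i).1.2 ≤ E' ∧ (σR.P (z i).1.1).ean (z i).1.2 ≤ E'

/-- SW-DEG: properties of degeneration -/
structure DegStmt : Prop where
  /-- convergence of both parts -/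
  mk' : ∀ (s : StS d Sl X) (sL : StS d Sl XL) (sR : StS d Sl XR) (σ : Cel s nc nr T)
    (σL : Cel sL ncL nrL TL) (σR : Cel sR ncR nrR TR) (p : Spl X XL XR nc ncL ncR d Sl T TL TR),
    p.OK σ σL σR → ∀ (ι : Type) (𝒰 : Ultrafilter ι) q (y : ι → σ.Pnt) x z (δ : ι → ℝ × ℝ) (τ : ι → ℝ)
    ρL ρR x₀ z₀, (∀ᶠ i in (𝒰 : Filter ι), σ.R (y i).1.1 (y i).1.2 = 0) →
    σL.PS 𝒰 q x ρL → σR.PS 𝒰 q z ρR → (∀ᶠ i in (𝒰 : Filter ι), p.Agr (y i) (x i) (z i) (δ i) (τ i) ∧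
      ρL i (p.ε, p.aL) true = some (τ i - (δ i).1) ∧ ρR i (p.ε, p.aR) false = some ((δ i).2 - τ i)) →
    σL.Cvg 𝒰 x x₀ → σR.Cvg 𝒰 z z₀ → p.Deg 𝒰 y x₀ z₀
  /-- the walls, the parameter -/
  wall : ∀ (s : StS d Sl X) (sL : StS d Sl XL) (sR : StS d Sl XR) (σ : Cel s nc nr T)
    (σL : Cel sL ncL nrL TL) (σR : Cel sR ncR nrR TR) (p : Spl X XL XR nc ncL ncR d Sl T TL TR),
    (∀ ε, ∃ g : (d.e ε).Gen, g.OK) → p.OK σ σL σR → ∀ (ι : Type) (l : Filter ι) (y : ι → σ.Pnt)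
    (x : σL.Pnt) (z : σR.Pnt), p.Deg l y x z →
    Tendsto (fun i => σ.wf p.wl (y i).1.1 (y i).1.2) l (𝓝 1) ∧
      ∀ a : (d.𝓔 × Sl) × Option Bool, a ≠ p.wl → nr = 0 → a.2.elim (s.nk a.1 = none) (s.Inf a.1) →
        ∃ c < 1, ∀ᶠ i in l, σ.wf a (y i).1.1 (y i).1.2 ≤ c
  eqv : ∀ (s : StS d Sl X) (sL : StS d Sl XL) (sR : StS d Sl XR) (σ : Cel s nc nr T)
    (σL : Cel sL ncL nrL TL) (σR : Cel sR ncR nrR TR) (p : Spl X XL XR nc ncL ncR d Sl T TL TR),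
    p.OK σ σL σR → ∀ (ι : Type) (l : Filter ι) (y : ι → σ.Pnt) (x x' : σL.Pnt) (z z' : σR.Pnt),
    σL.Eqv x x' → σR.Eqv z z' → p.Deg l y x z → p.Deg l y x' z'
  /-- uniqueness of the limit, also among different middle points -/
  uniq : ∀ (s : StS d Sl X) (sL : StS d Sl XL) (sR : StS d Sl XR) (σ : Cel s nc nr T)
    (σL : Cel sL ncL nrL TL) (σR : Cel sR ncR nrR TR) (p : Spl X XL XR nc ncL ncR d Sl T TL TR)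
    (V : Set (d.e p.ε).YC), Rs V → (∃ g : (d.e p.ε).Gen, g.OK) → (p.o = none → σ.Nul (p.ε, p.a)) →
    ∀ βL (RL : TL → _ → Fin nrL → ℝ) βR (RR : TR → _ → Fin nrR → ℝ), p.OK σ σL σR → p.OK σ ⟨σL.toFam, βL, RL⟩ ⟨σR.toFam, βR, RR⟩ →
    σL.β (p.ε, p.aL) true ∈ V → βL (p.ε, p.aL) true ∈ V →
    ∀ (ι : Type) (𝒰 : Ultrafilter ι) (y : ι → σ.Pnt) (x : σL.Pnt) (z : σR.Pnt)
      (x' : Cel.Pnt ⟨σL.toFam, βL, RL⟩) (z' : Cel.Pnt ⟨σR.toFam, βR, RR⟩) q,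
      σL.Sol q x → σR.Sol q z → Cel.Sol _ q x' → Cel.Sol _ q z' →
      p.Deg 𝒰 y x z → p.Deg 𝒰 y x' z' →
      σL.β (p.ε, p.aL) true = βL (p.ε, p.aL) true ∧ x.1.1 = x'.1.1 ∧ z.1.1 = z'.1.1 ∧
        (σL.P x.1.1).Eqv x.1.2 x'.1.2 ∧ (σR.P z.1.1).Eqv z.1.2 z'.1.2

/-- SW-ADD: additivity of the index -/
def AddStmt : Prop := ∀ (s : StS d Sl X) (sL : StS d Sl XL) (sR : StS d Sl XR) (σ : Cel s nc nr T)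
  (σL : Cel sL ncL nrL TL) (σR : Cel sR ncR nrR TR) (p : Spl X XL XR nc ncL ncR d Sl T TL TR),
  p.OK σ σL σR → σL.Q.Nonempty → σR.Q.Nonempty → ∀ nL nR, σL.Ind nL → σR.Ind nR →
    σ.Ind (nL + nR + 1)

/-- SW-GL: gluing of regular solutions of index zero -/
def GlStmt : Prop := ∀ (s : StS d Sl X) (sL : StS d Sl XL) (sR : StS d Sl XR) (σ : Cel s nc nr T)
  (σL : Cel sL ncL nrL TL) (σR : Cel sR ncR nrR TR) (p : Spl X XL XR nc ncL ncR d Sl T TL TR),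
  (∀ ε, ∃ g : (d.e ε).Gen, g.OK) → p.OK σ σL σR → σL.Ind 0 → σR.Ind 0 → σ.Ind 1 → ∀ k, 7 ≤ k →
  ∀ q₀ (x : σL.Pnt) (z : σR.Pnt), σL.Sol q₀ x → σR.Sol q₀ z → σL.Reg k q₀ x → σR.Reg k q₀ z →
    (∀ (ι : Type) (𝒰 : Ultrafilter ι) q y, St.Cv (𝒰 : Filter ι) q q₀ →
      (∀ᶠ i in (𝒰 : Filter ι), σ.Sol (q i) (y i)) → p.Deg 𝒰 y x z → ∀ᶠ i in (𝒰 : Filter ι), Surjective
        ((fderiv ℝ (σ.F k (q i)) (σ.pt k (y i))).prod (fderiv ℝ (σ.rr k (σ.wf p.wl)) (σ.pt k (y i))))) ∧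
    ∀ 𝒰 : Ultrafilter ℝ, (𝒰 : Filter ℝ) ≤ 𝓝[<] 1 →
      (∃ y : ℝ → σ.Pnt, (∀ᶠ τ in (𝒰 : Filter ℝ), σ.Sol q₀ (y τ) ∧ σ.wf p.wl (y τ).1.1 (y τ).1.2 = τ) ∧
        p.Deg 𝒰 y x z) ∧
      ∀ y y' : ℝ → σ.Pnt, (∀ᶠ τ in (𝒰 : Filter ℝ), σ.Sol q₀ (y τ) ∧ σ.wf p.wl (y τ).1.1 (y τ).1.2 = τ) →
        (∀ᶠ τ in (𝒰 : Filter ℝ), σ.Sol q₀ (y' τ) ∧ σ.wf p.wl (y' τ).1.1 (y' τ).1.2 = τ) →
        p.Deg 𝒰 y x z → p.Deg 𝒰 y' x z → ∀ᶠ τ in (𝒰 : Filter ℝ), σ.Eqv (y τ) (y' τ)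

end split

variable (κ lam ν) in
/-- SW-CUT -/
def CutStmt : Prop := ∀ (d : Dt κ lam ν) [Fintype d.𝓔] (Sl : Type) [Fintype Sl] (_ : Ctx d) (C : ℝ),
  ∃ η > 0, ∀ (X XL XR : Mf 4) (nc nr ncL nrL ncR nrR : ℕ) (T TL TR : Type)
    [NormedAddCommGroup T] [NormedSpace ℝ T] [FiniteDimensional ℝ T]
    [NormedAddCommGroup TL] [NormedSpace ℝ TL] [FiniteDimensional ℝ TL]
    [NormedAddCommGroup TR] [NormedSpace ℝ TR] [FiniteDimensional ℝ TR],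
    CutAt d Sl X XL XR nc nr ncL nrL ncR nrR T TL TR C η

end Crest.Agent.X212.Sw
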