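import Crest.Agent.X212.Cmp73.Lv0
import Crest.Agent.X212.Pat85.Fj

/-!
# Row 212, CT-CORE (helper91): the moving cores are the core of the limit
-/

set_option autoImplicit false
set_option linter.unusedSectionVars false
open Set Filter Topology Function

noncomputable section
namespace Crest.Agent.X212.Sw.Core
open An An.Job M Nd18 Cht98 Cmp73
open Fin37 (core)
open Nka63 (Dq mem_Dq)

/-- the heights of depth `> R` -/
def Hd (t : ℝ) (b : Bool) (R : ℝ) : Set ℝ := {r | r ∈ Hs t b ∧ len t b r ∈ Dq (np t b) (nq t b) R}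

theorem Hd_fin {t R r : ℝ} (ht : t < 1) (h : nl t ≤ 2 * R) : r ∉ Hd t false R := fun k => by
  have k := mem_Dq.1 k.2
  linarith [k.1 0 rfl, k.2 _ (nq_false ht)]

theorem Hd_brk {R : ℝ} (hR : 0 < R) : ∃ δ > 0, ∀ t, 1 / 2 ≤ t ∧ (1 - t) / 2 ≤ δ → t < 1 → ∀ r,
    (∀ b, r ∈ Hd 1 b R → r ∈ Hd t false R) ∧ (r ∈ Hd t false R → r ≠ 0 → ∃ b, r ∈ Hd 1 b R) := by
  obtain ⟨δ, h1, h2⟩ := (bijOn_len le_rfl true).surjOn (show -R ∈ Jv _ _ by simpa [Jv, np, nq])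
  have d0 : 0 < δ := h1.2.resolve_left (lt_irrefl _)
  have h3 : len 1 false (-δ) = R := (len_neg 1 true δ).trans (by rw [h2, neg_neg])
  have h4 : -δ ∈ dom 1 false := .inr (by simpa using d0)
  refine ⟨δ, d0, fun t ht h r => ?_⟩
  have m : ∀ s, s ∈ dom t false := fun _ => .inl h
  have a1 : len t false (-δ) = R := (len_eq_len_one ht.1 (by simpa [pm] using ht.2)).trans h3
  have a2 : len t false δ = nl t - R := by
    rw [len_false h, len_eq_len_one ht.1 (by simpa [pm] using ht.2), h2]; ring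
  have e : r ∈ Hd t false R ↔ r ∈ Ioo (-1) 1 ∧ -δ < r ∧ r < δ := by
    simp only [Hd, Hs, mem_ofPred_eq, mem_inter_iff, m, and_true, mem_Dq, np_false, nq_false h,
      Option.mem_def, Option.some.injEq, forall_eq', zero_add, ← a2]
    rw [← a1, (strictMonoOn_len t false).lt_iff_lt (m _) (m _),
      (strictMonoOn_len t false).lt_iff_lt (m _) (m _)]
  have e1 : r ∈ Hd 1 true R ↔ r ∈ Hs 1 true ∧ r < δ := and_congr_right fun k => by
    rw [← (strictMonoOn_len 1 true).lt_iff_lt k.2 h1.2, h2]; simp [mem_Dq, np, nq]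
  have e2 : r ∈ Hd 1 false R ↔ r ∈ Hs 1 false ∧ -δ < r := and_congr_right fun k => by
    rw [← (strictMonoOn_len 1 false).lt_iff_lt h4 k.2, h3]; simp [mem_Dq, np, nq]
  rw [e]
  refine ⟨fun b k => ?_, fun k k0 => k0.lt_or_gt.elim (fun j => ⟨_, e2.2 ⟨⟨k.1, .inr j⟩, k.2.1⟩⟩)
    fun j => ⟨_, e1.2 ⟨⟨k.1, .inr j⟩, k.2.2⟩⟩⟩
  have := pm_pos k.1
  cases b <;> simp only [pm, if_true, Bool.false_eq_true, if_false] at this
  · exact ⟨k.1.1, (e2.1 k).2, by linarith⟩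
  · exact ⟨k.1.1, by linarith, (e1.1 k).2⟩

variable {Wi : Type} {X : Mf 4} {A κ lam : Type} [Fintype A] [Fintype κ] [Fintype lam]
  [DecidableEq lam] {M : Mark X A κ} {W : World M} {N : ML M lam}
  {Λ : Lns W N} {A' h : Type} [Fintype A'] [DecidableEq A'] [Fintype h] {r n : ℕ}
  {J : Job Wi Λ A' h r n} {Adm : (Wi →₀ ℝ) → Prop} (hJ : J.OK)
include hJ

theorem not_core {c : M.Cl} {s : A' → ℝ} {R : ℝ} (hR : 0 ≤ R) {z : (W.Z c).M} :
    z ∉ core J c s R ↔ ∃ a b y t, Act J.m c a b (J.Θ s) ∧ t ∈ Hd ((J.Θ s).2 a) (b.getD false) R ∧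
      (M.bn a).j (J.g a y, t) ∉ M.sys.cores c.1 ∧ W.φ c ((M.bn a).j (J.g a y, t)) = z := by
  simp only [core, mem_ofPred_eq, not_forall, not_not]
  refine ⟨fun ⟨⟨⟨a, b⟩, ha⟩, k⟩ => ?_, fun ⟨a, b, y, t, ha, ht, _, e⟩ => ⟨⟨(a, b), ha⟩, ?_⟩⟩ <;>
    have H := (hJ.nk c a b _ ha).hn ha
  · obtain ⟨y, t, ht, rfl⟩ := H.of_tgt (Nka63.O_sub _ hR k)
    rw [Nka63.O, mem_preimage, Nk.tm_ψ _ _ (H.src y ht), H.p, H.q] at k
    exact ⟨a, b, y, t, ha, ⟨ht, k⟩, H.off _ t ht, (H.ψ y t ht).symm⟩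
  · exact ((H.ψ y t ht.1).trans e) ▸ Nka63.ψ_mem_O _ hR (H.p.symm ▸ H.q.symm ▸ ht.2)

variable (Adm) in
/-- **CT-CORE** -/
theorem core : CORE J Adm := by
  intro α c c₀ F hF S hS
  have b₀ := (Pat85.pm_par hJ ⟨F.σ, hF.mem, hF.cell, hF.inf⟩).2
  have b := fun i => (Pat85.pm_par hJ ⟨F.σ, hF.mem, (hF.sol i).cell, (hF.sol i).inf⟩).2
  have tp : ∀ a, Tendsto (fun i => (F.p i).2 a) F.l (𝓝 (F.p₀.2 a)) := fun a =>
    (((continuous_apply a).comp (continuous_snd.comp hJ.sm.continuous)).tendsto _).comp hF.s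
  filter_upwards [eventually_gt_atTop 0, eventually_all.2 fun a =>
    eventually_gt_atTop (nl (F.p₀.2 a))] with R R0 hR
  obtain ⟨δ, δ0, hδ⟩ := Hd_brk R0
  filter_upwards [eventually_all.2 fun a => (eventually_imp_distrib_left.2 fun k : F.p₀.2 a < 1 =>
    ((continuousAt_len k false 1).tendsto.comp (tp a)).eventually (ge_mem_nhds (hR a))).and
      (eventually_imp_distrib_left.2 fun k : F.p₀.2 a = 1 => ev_len (k ▸ tp a) δ0)] with i hi z hz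
  rw [← not_iff_not, not_core hJ R0.le, not_core hJ R0.le]
  refine ⟨fun ⟨a, e, y, t, ha, ht, h1, h2⟩ => ?_, fun ⟨a, e, y, t, ha, ht, h1, h2⟩ => ?_⟩
  · obtain ⟨h3, h4⟩ := hS.jf.of z hz _ h1 h2
    rcases e with _ | e
    · have lt := ha.2.2.1 a ha.2.2.2.2.1
      rcases (b₀.1.1.1 a).2.lt_or_eq with k | k
      · exact (Hd_fin lt (((hi a).1 k).trans (by linarith)) ht).elim
      · have m : a ∈ c₀.1 := hF.inf.le k
        obtain ⟨e, he⟩ := (hδ _ ((hi a).2 k) lt t).2 ht fun j => h3 ((Cyl58.j_mem_cores m).2 j)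
        exact ⟨a, some e, y, t, ⟨ha.1, b₀.1, b₀.2, m⟩, k.symm ▸ he, h3, h4⟩
    · have m := hF.sub ha.2.2.2
      exact ⟨a, some e, y, t, ⟨ha.1, b₀.1, b₀.2, m⟩,
        ((b i).1.2 ha.2.2.2).trans (b₀.1.2 m).symm ▸ ht, h3, h4⟩
  · have h3 := Mark.cores_mono hF.sub h1
    have h4 := (hS.jf.e _ h1).1.symm.trans (congrArg (S.j ∘ S.f) h2)
    rcases e with _ | e
    · exact (Hd_fin (ha.2.2.1 a ha.2.2.2.2.1) (by linarith [hR a]) ht).elim
    have k : F.p₀.2 a = 1 := b₀.1.2 ha.2.2.2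
    by_cases m : a ∈ c.1
    · exact ⟨a, some e, y, t, ⟨ha.1, (b i).1, (b i).2, m⟩,
        k.trans ((b i).1.2 m).symm ▸ ht, h3, h4⟩
    · have q := (hF.new a ⟨ha.2.2.2, ha.1⟩).1 m i
      exact ⟨a, none, y, t, q, (hδ _ ((hi a).2 k) (q.2.2.1 a q.2.2.2.2.1) t).1 e (k ▸ ht), h3, h4⟩

end Crest.Agent.X212.Sw.Core
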