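import Crest.Agent.X212.Sw.Fam

/-!
# Row 212, layer AN-S (helper91): cutting along necks, partial sequences, degeneration

Necks are indexed by `d.𝓔 × Sl` (type, slot).
-/

set_option autoImplicit false
set_option linter.unusedSectionVars false
noncomputable section
open scoped Manifold ContDiff Topology InnerProductSpace
open MeasureTheory Set Function Filter

namespace Crest.Agent.X212.Sw
open An Cyf70 Prm93 En3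
open Nd18 (Jv)
open M (Mf)

variable {κ lam ν : Type} [Fintype κ] [Fintype lam] [Fintype ν] [DecidableEq ν]
  {X XL XR : Mf 4} {nc nr ncL nrL ncR nrR : ℕ}

/-- `φ` preserves the backgrounds literally -/
structure Bg.Lit (b : Bg XL.I XL.M κ lam ν ncL) (b' : Bg X.I X.M κ lam ν nc)
    (φ : OpenPartialHomeomorph XL.M X.M) : Prop where
  iso : An.Iso b.F.toPre b'.F.toPre φ
  P : ∀ i j, ∀ x ∈ φ.source, b'.B.P i j (φ x) = b.B.P i j x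
  o : ∀ i j k l, ∀ x ∈ φ.source, b'.B.o i j k l (φ x) = b.B.o i j k l x
  J : b'.m.J = b.m.J
  w : b'.w = b.w
  p : ∀ x ∈ φ.source, b'.m.p (φ x) = b.m.p x
  ρ : ∀ i, ∀ x ∈ φ.source, b'.m.ρ i (φ x) = b.m.ρ i x
  A : ∀ i, ∀ x ∈ φ.source, b'.A i (φ x) = b.A i x
  ms : ∀ x ∈ φ.source, b'.ms (φ x) = b.ms x
  om : ∀ x ∈ φ.source, b'.om (φ x) = b.om x

/-- gauge equivalence by a null-homotopic gauge transformation -/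
def En3.Eq0 {e : En3 κ lam ν} (v v' : e.YC) : Prop := ∃ χ : e.Y.M → ℝ, Sm e.Y.I χ ∧
  fz v' = e.cyl.act (fun x => Complex.exp (χ x.1 * Complex.I)) (fz v)

/-- representatives of the irreducible critical points up to null-homotopic gauge -/
structure En3.Rs {e : En3 κ lam ν} (V : Set e.YC) : Prop where
  gd : ∀ v ∈ V, Gd v
  all : ∀ v, Crit v → (∃ y, v.Φ y ≠ 0) → ∃ v' ∈ V, Eq0 v v'
  inj : ∀ v ∈ V, ∀ v' ∈ V, Eq0 v v' → v = v'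
  fin : ∀ C, {v ∈ V | |hol v| ≤ C}.Finite
  unif : ∃ n : ℕ, ∀ r, {v ∈ V | |hol v - r| ≤ 1}.ncard ≤ n

variable {d : Dt κ lam ν} [Fintype d.𝓔] {Sl : Type} [Fintype Sl]

/-- pieces with slots -/
abbrev PcS (d : Dt κ lam ν) (Sl : Type) (X : Mf 4) (nc : ℕ) : Type :=
  Pc d X nc (Prod.fst : d.𝓔 × Sl → d.𝓔)

/-- sites with slots -/
abbrev StS (d : Dt κ lam ν) (Sl : Type) (X : Mf 4) : Type := Pz X 0 fun i : d.𝓔 × Sl => d.e i.1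

/-- one side of a cut: the end `(ε, s')` of `P'` on the side `b` is the neck `(ε, s)` of `P` with
the shift `δ`; the necks `j` with `O j` and the cuts `c` come from `P'`; the terms in `J` agree up
to the depth `r` -/
structure Half (P : PcS d Sl X nc) (P' : PcS d Sl XL ncL) (ε : d.𝓔) (s s' : Sl) (b : Bool)
    (φ : OpenPartialHomeomorph XL.M X.M) (δ r : ℝ) (O : d.𝓔 × Sl → Prop) (π : d.𝓔 × Sl → Sl)
    (c : Fin ncL → Fin nc) (J : Finset d.W) : Prop where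
  lit : P'.bg.Lit P.bg φ
  nk : ∃ K ∈ P.nk (ε, s), ∃ K' ∈ P'.nk (ε, s'), K'.Inf b ∧
    (if b then K.p = K'.p.map (· + δ) else K.q = K'.q.map (· + δ)) ∧
    φ.source = {x | x ∉ K'.ψ '' (univ ×ˢ {t ∈ K'.J | t + δ ∉ K.J})} ∧
    (∀ y t, t ∈ K'.J → t + δ ∈ K.J → φ (K'.ψ (y, t)) = K.ψ (y, t + δ)) ∧
    ∀ w ∈ J, ∀ x ∉ K'.ψ '' (univ ×ˢ K'.far b r), P.fo w (φ x) = P'.fo w x
  oth : ∀ j, O j → j ≠ (ε, s) ∧ (j.1, π j) ≠ (ε, s') ∧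
    ((P.Off j ∧ P'.Off (j.1, π j)) ∨ ∃ K ∈ P.nk j, ∃ K' ∈ P'.nk (j.1, π j),
      K.p = K'.p ∧ K.q = K'.q ∧ K'.ψ.target ⊆ φ.source ∧ ∀ x ∈ K'.ψ.source, K.ψ x = φ (K'.ψ x))
  inj : ∀ j j', O j → O j' → (j.1, π j) = (j'.1, π j') → j = j'
  sur : ∀ j', j' ≠ (ε, s') → P'.Off j' ∨ ∃ j, O j ∧ (j.1, π j) = j'
  ct : ∀ j, (P'.bg.ct j).Ξ.target ⊆ φ.source ∧ (∀ y, (P.bg.ct (c j)).Ξ y = φ ((P'.bg.ct j).Ξ y)) ∧
    (P.bg.ct (c j)).ρ = (P'.bg.ct j).ρ ∧ (P.bg.ct (c j)).η = (P'.bg.ct j).η ∧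
    ∀ w ∈ J, P.η w (c j) = P'.η w j

variable {T TL TR : Type} [NormedAddCommGroup T] [NormedSpace ℝ T] [FiniteDimensional ℝ T]
  [NormedAddCommGroup TL] [NormedSpace ℝ TL] [FiniteDimensional ℝ TL]
  [NormedAddCommGroup TR] [NormedSpace ℝ TR] [FiniteDimensional ℝ TR]
  {s : StS d Sl X} {sL : StS d Sl XL} {sR : StS d Sl XR}

variable (d Sl X XL XR nc ncL ncR T TL TR) in
/-- a splitting along the neck `(ε, a)`; `δ = (δL, δR)` are the shifts, `δR - δL` is the length -/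
structure Spl where
  ε : d.𝓔
  a : Sl
  aL : Sl
  aR : Sl
  /-- the wall -/
  o : Option Bool
  j : TL × TR × ℝ →ᴬ[ℝ] T
  Δ : Set (ℝ × ℝ)
  φL : ℝ × ℝ → OpenPartialHomeomorph XL.M X.M
  φR : ℝ × ℝ → OpenPartialHomeomorph XR.M X.M
  side : d.𝓔 × Sl → Bool
  π : d.𝓔 × Sl → Sl
  c : Fin ncL ⊕ Fin ncR ≃ Fin nc

namespace Spl
variable (p : Spl X XL XR nc ncL ncR d Sl T TL TR)
  (σ : Cel s nc nr T) (σL : Cel sL ncL nrL TL) (σR : Cel sR ncR nrR TR)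

/-- the wall -/
abbrev wl : (d.𝓔 × Sl) × Option Bool := ((p.ε, p.a), p.o)

/-- the parameter -/
def par (tL : TL) (tR : TR) (δ : ℝ × ℝ) : T := p.j (tL, tR, δ.2 - δ.1)

/-- the cell is a cell of centred trajectories on the neck `i` -/
def _root_.Crest.Agent.X212.Sw.Cel.Cen (σ : Cel s nc nr T) (i : d.𝓔 × Sl) : Prop :=
  nr = 1 ∧ nc = 0 ∧ Subsingleton T ∧ (∀ j ≠ i, s.nk j = none) ∧ (∀ t w, (σ.P t).fo w = 0) ∧
    (∃ K ∈ s.nk i, K.p = none ∧ K.q = none) ∧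
    ∀ t c k, σ.R t c k = s.mo σ.β i false c - s.mo σ.β i true c

/-- the four kinds of walls -/
inductive Kind : Prop
  | fin : p.o = none → s.nk (p.ε, p.a) = none → nr = 0 → nrL = 0 → nrR = 0 → Bijective p.j →
      (∀ l, ∃! δ, δ ∈ p.Δ ∧ δ.2 - δ.1 = l) →
      (∀ l₀, ∃ l, ∀ t ∈ σ.Q, l ≤ (σ.P t).len (p.ε, p.a) →
        ∃ tL ∈ σL.Q, ∃ tR ∈ σR.Q, ∃ δ ∈ p.Δ, l₀ ≤ δ.2 - δ.1 ∧ t = p.par tL tR δ) → Kind
  | out : p.o = some true → nr = 0 → nrL = 0 → σR.Cen (p.ε, p.aR) → p.Δ = {δ | δ.1 = 0} →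
      (∀ tL tR l, p.j (tL, tR, l) = p.j (tL, 0, 0)) → Bijective (fun tL => p.j (tL, 0, 0)) →
      (∀ tL, p.j (tL, 0, 0) ∈ σ.Q → tL ∈ σL.Q) → (∀ δ ∈ p.Δ, ∀ δ' ∈ p.Δ, p.φL δ = p.φL δ') → Kind
  | inn : p.o = some false → nr = 0 → nrR = 0 → σL.Cen (p.ε, p.aL) → p.Δ = {δ | δ.2 = 0} →
      (∀ tL tR l, p.j (tL, tR, l) = p.j (0, tR, 0)) → Bijective (fun tR => p.j (0, tR, 0)) →
      (∀ tR, p.j (0, tR, 0) ∈ σ.Q → tR ∈ σR.Q) → (∀ δ ∈ p.Δ, ∀ δ' ∈ p.Δ, p.φR δ = p.φR δ') → Kind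
  | cyl : p.o = some true → σ.Cen (p.ε, p.a) → σL.Cen (p.ε, p.aL) → σR.Cen (p.ε, p.aR) →
      p.Δ = univ → Kind

structure OK : Prop where
  ok : σ.OK
  okL : σL.OK
  okR : σR.OK
  kind : p.Kind σ σL σR
  cut : ∀ J : Finset d.W, ∃ l, ∀ δ ∈ p.Δ, l ≤ δ.2 - δ.1 → ∀ tL ∈ σL.Q, ∀ tR ∈ σR.Q,
    p.par tL tR δ ∈ σ.Q ∧ (p.φL δ).target ∪ (p.φR δ).target = univ ∧
    (∀ K ∈ (σ.P (p.par tL tR δ)).nk (p.ε, p.a),
      (p.φL δ).target ∩ (p.φR δ).target = K.ψ.target) ∧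
    Half (σ.P (p.par tL tR δ)) (σL.P tL) p.ε p.a p.aL true (p.φL δ) δ.1 ((δ.2 - δ.1) / 2)
      (fun j => j ≠ (p.ε, p.a) ∧ p.side j = false) p.π (fun j => p.c (.inl j)) J ∧
    Half (σ.P (p.par tL tR δ)) (σR.P tR) p.ε p.a p.aR false (p.φR δ) δ.2 ((δ.2 - δ.1) / 2)
      (fun j => j ≠ (p.ε, p.a) ∧ p.side j = true) p.π (fun j => p.c (.inr j)) J
  mid : σL.β (p.ε, p.aL) true = σR.β (p.ε, p.aR) false
  βL : s.Inf (p.ε, p.a) false → σL.β (p.ε, p.aL) false = σ.β (p.ε, p.a) false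
  βR : s.Inf (p.ε, p.a) true → σR.β (p.ε, p.aR) true = σ.β (p.ε, p.a) true
  lvL : s.Inf (p.ε, p.a) false → p.o ≠ some true ∨ nr = 1 →
    L (σL.β (p.ε, p.aL) true) < L (σ.β (p.ε, p.a) false)
  lvR : p.o = some true → L (σ.β (p.ε, p.a) true) < L (σL.β (p.ε, p.aL) true)
  βo : ∀ j b, j ≠ (p.ε, p.a) → s.Inf j b →
    σ.β j b = if p.side j then σR.β (j.1, p.π j) b else σL.β (j.1, p.π j) b

end Spl

namespace Cel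
variable (σ : Cel s nc nr T)

/-- the distance over `O` from `(t, c)` to the point `y`, for the word `w` -/
def dO (O : Set X.M) (t : T) (c : Cfg X.M κ ν) (y : σ.Pnt) (w : List (Option κ)) : ENNReal :=
  ∫⁻ x in O, ‖s.bg.F.Dw w (σ.al t c - σ.al y.1.1 y.1.2) x‖ₑ ^ 2 +
    ‖s.bg.F.Dw w (c.Φ - y.1.2.Φ) x‖ₑ ^ 2 ∂s.bg.F.μ

/-- the part within the depth `r` of the side `b` of the neck `i` -/
def upto (_ : Cel s nc nr T) (i : d.𝓔 × Sl) (b : Bool) (r : ℝ) : Set X.M :=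
  {x | ∀ K ∈ s.nk i, x ∉ K.ψ '' (univ ×ˢ K.far b r)}

/-- the spinor is not small on the slices of the necks -/
def Low (η : ℝ) (y : σ.Pnt) : Prop :=
  ∀ i, ∀ K ∈ (σ.P y.1.1).nk i, ∀ t ∈ K.deep 3, η ≤ nm (sl (K.pb y.1.2) t)

/-- a priori bounds -/
structure Bnd (C η : ℝ) (y : σ.Pnt) : Prop where
  en : (σ.P y.1.1).ean y.1.2 ≤ ENNReal.ofReal C
  sup : ∀ x, ‖y.1.2.Φ x‖ ≤ C
  low : σ.Low η y

/-- a partial sequence: exact within the depths `ρ`, small tails -/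
structure PS {ι : Type} (l : Filter ι) (q : ι → d.W →₀ ℝ) (y : ι → σ.Pnt)
    (ρ : ι → d.𝓔 × Sl → Bool → Option ℝ) : Prop where
  far : ∀ r₀ : ℝ, ∀ᶠ i in l, ∀ j b, ∀ r ∈ ρ i j b, r₀ ≤ r
  eq : ∀ᶠ i in l, (σ.P (y i).1.1).bg.EqOn ((σ.P (y i).1.1).pt (q i)) (y i).1.2 (s.reg (ρ i)) ∧
    (∀ j, (σ.P (y i).1.1).bg.l j (y i).1.2 = ((σ.P (y i).1.1).pt (q i)).S (y i).1.2 j) ∧
    σ.R (y i).1.1 (y i).1.2 = 0
  tl : ∀ (R : ℝ) w, ∀ η > 0, ∀ᶠ i in l, ∀ j b, ∀ K ∈ s.nk j, K.Inf b → ∀ r ∈ ρ i j b,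
    K.tl b (σ.β j b) (y i).1.2 (r - R) w ≤ ENNReal.ofReal η

/-- long windows round the times `τ i` of the neck `j`, inside the exact part, converge to `v` -/
structure Win {ι : Type} (l : Filter ι) (y : ι → σ.Pnt) (ρ : ι → d.𝓔 × Sl → Bool → Option ℝ)
    (j : d.𝓔 × Sl) (v : (d.e j.1).YC) (τ : ι → ℝ) : Prop where
  cl : ∀ (k : ℕ) (r : ℝ), ∀ η > 0, ∀ᶠ i in l, ∃ K ∈ (σ.P (y i).1.1).nk j,
    Icc (τ i - r) (τ i + r) ⊆ K.J ∧ (∀ b, K.Inf b → ∀ r' ∈ ρ i j b, M.pm b * τ i + r ≤ r') ∧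
    Cl (K.pb (y i).1.2) (fz v) (Ioo (τ i - r) (τ i + r)) k η

/-- a bound of the holonomy at one end of the finite neck `j` -/
def HolB (j : d.𝓔 × Sl) (C : ℝ) : Prop := ∀ t ∈ σ.Q, ∀ K ∈ (σ.P t).nk j, ∀ c, (σ.P t).bg.Adm c →
  (σ.P t).ean c ≠ ⊤ → K.deep 3 ≠ ∅ → ∃ τ ∈ K.deep 2, τ ∉ K.deep 3 ∧
    |hol (sl (K.pb c) τ)| ≤ C * (1 + ((σ.P t).ean c).toReal)

/-- allowed gauge transformations are null-homotopic on the neck `j` -/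
def Nul (j : d.𝓔 × Sl) : Prop := ∀ t ∈ σ.Q, ∀ K ∈ (σ.P t).nk j, ∀ u, (σ.P t).Al u → ∀ τ ∈ K.J,
  ∃ χ : (d.e j.1).Y.M → ℝ, Sm (d.e j.1).Y.I χ ∧ ∀ y, u (K.ψ (y, τ)) = Complex.exp (χ y * Complex.I)

end Cel

namespace Spl
variable (p : Spl X XL XR nc ncL ncR d Sl T TL TR)
  {σ : Cel s nc nr T} {σL : Cel sL ncL nrL TL} {σR : Cel sR ncR nrR TR}

/-- degeneration of the sequence `y` to the pair `(x, z)` -/
def Deg {ι : Type} (l : Filter ι) (y : ι → σ.Pnt) (x : σL.Pnt) (z : σR.Pnt) : Prop :=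
  ∃ (y' : ι → σ.Pnt) (tL : ι → TL) (tR : ι → TR) (δ : ι → ℝ × ℝ),
    (∀ᶠ i in l, σ.Eqv (y i) (y' i) ∧ σ.R (y' i).1.1 (y' i).1.2 = 0 ∧ δ i ∈ p.Δ ∧
      (y' i).1.1 = p.par (tL i) (tR i) (δ i)) ∧
    Tendsto (fun i => (δ i).2 - (δ i).1) l atTop ∧ Tendsto tL l (𝓝 x.1.1) ∧
    Tendsto tR l (𝓝 z.1.1) ∧ ∀ w,
      Tendsto (fun i => σL.dO (σL.upto (p.ε, p.aL) true (((δ i).2 - (δ i).1) / 2 + 1)) (tL i)
        ((y' i).1.2.pb (p.φL (δ i))) x w) l (𝓝 0) ∧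
      Tendsto (fun i => σR.dO (σR.upto (p.ε, p.aR) false (((δ i).2 - (δ i).1) / 2 + 1)) (tR i)
        ((y' i).1.2.pb (p.φR (δ i))) z w) l (𝓝 0)

/-- `y` agrees with `x` up to the time `τ` of the neck and with `z` from the time `τ` on -/
def Agr (y : σ.Pnt) (x : σL.Pnt) (z : σR.Pnt) (δ : ℝ × ℝ) (τ : ℝ) : Prop :=
  δ ∈ p.Δ ∧ y.1.1 = p.par x.1.1 z.1.1 δ ∧
    (∀ a ∈ σL.upto (p.ε, p.aL) true (τ - δ.1 + 1), (∀ k, x.1.2.a k a = y.1.2.a k (p.φL δ a)) ∧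
      x.1.2.Φ a = y.1.2.Φ (p.φL δ a)) ∧
    ∀ a ∈ σR.upto (p.ε, p.aR) false (δ.2 - τ + 1), (∀ k, z.1.2.a k a = y.1.2.a k (p.φR δ a)) ∧
      z.1.2.Φ a = y.1.2.Φ (p.φR δ a)

end Spl

end Crest.Agent.X212.Sw
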