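import Crest.Agent.X212.Sw.Lv
import Crest.Agent.X212.Flo2.Main

/-!
# Row 212, layer AN-S (helper91): worlds of cells

`Wld` : sites, families over them, facets (restrictions), walls (splittings).  `Wld.flo` : the Floer
system of a finite set of cells.  `Cl.Ok` : what a cell has to satisfy.
-/

set_option autoImplicit false
set_option linter.unusedSectionVars false
noncomputable section
open scoped Manifold ContDiff Topology InnerProductSpace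
open MeasureTheory Set Function Filter

namespace Crest.Agent.X212.Sw
open An Cyf70 Prm93 En3
open Mod61 (Prob)
open Nd18 (Jv)
open M (Mf)

variable {κ lam ν : Type} [Fintype κ] [Fintype lam] [Fintype ν] [DecidableEq ν]

/-- the restriction of a family along an affine map -/
def Fam.res {d : Dt κ lam ν} {N : Type} {ty : N → d.𝓔} {X : Mf 4} {nc : ℕ}
    {s : Pz X 0 fun i => d.e (ty i)} {T T' : Type} [NormedAddCommGroup T] [NormedSpace ℝ T]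
    [NormedAddCommGroup T'] [NormedSpace ℝ T'] (𝓕 : Fam s nc T) (j : T' →ᴬ[ℝ] T) : Fam s nc T' :=
  ⟨fun t => 𝓕.P (j t), j ⁻¹' 𝓕.Q, fun t => 𝓕.S (j t), fun t => 𝓕.Si (j t)⟩

variable (d : Dt κ lam ν) [Fintype d.𝓔] (Sl : Type) [Fintype Sl]

/-- limits -/
abbrev BC : Type := BCs fun i : d.𝓔 × Sl => d.e i.1

/-- walls -/
abbrev WA : Type := (d.𝓔 × Sl) × Option Bool

/-- a site with its rows; `nr = 1` for centred trajectories -/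
structure BSt : Type 1 where
  X : Mf 4
  nc : ℕ
  nr : ℕ
  s : StS d Sl X
  R : BC d Sl → Cfg X.M κ ν → Fin nr → ℝ

/-- a world: sites `S`, families `Fm`, facets `B`, walls `Wl` -/
structure Wld : Type 1 where
  S : Type
  st : S → BSt d Sl
  Fm : S → Type
  I : ∀ {a}, Fm a → Type
  [fI : ∀ a (f : Fm a), Fintype (I f)]
  fam : ∀ {a} (f : Fm a), Fam (st a).s (st a).nc (I f → ℝ)
  B : Type
  wb : ∀ {a}, Fm a → Finset B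
  g : ∀ {a} (f : Fm a), B → (I f → ℝ) →ᴬ[ℝ] ℝ
  fc : ∀ {a}, Fm a → B → Fm a
  j : ∀ {a} (f : Fm a) (b : B), (I (fc f b) → ℝ) →ᴬ[ℝ] (I f → ℝ)
  res : ∀ {a} (f : Fm a) (b : B), fam (fc f b) = (fam f).res (j f b)
  Wl : ∀ {a}, Fm a → Type
  [fW : ∀ a (f : Fm a), Fintype (Wl f)]
  aL : ∀ {a} {f : Fm a}, Wl f → S
  aR : ∀ {a} {f : Fm a}, Wl f → S
  fL : ∀ {a} {f : Fm a} (w : Wl f), Fm (aL w)
  fR : ∀ {a} {f : Fm a} (w : Wl f), Fm (aR w)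
  p : ∀ {a} {f : Fm a} (w : Wl f), Spl (st a).X (st (aL w)).X (st (aR w)).X (st a).nc (st (aL w)).nc
    (st (aR w)).nc d Sl (I f → ℝ) (I (fL w) → ℝ) (I (fR w) → ℝ)
  bl : ∀ {a} {f : Fm a} (w : Wl f), BC d Sl → (d.e (p w).ε).YC → BC d Sl
  br : ∀ {a} {f : Fm a} (w : Wl f), BC d Sl → (d.e (p w).ε).YC → BC d Sl

attribute [instance] Wld.fI Wld.fW

variable {d Sl}

namespace Wld
variable (W : Wld d Sl)

/-- cells -/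
structure Cl : Type where
  a : W.S
  f : W.Fm a
  β : BC d Sl

variable {W} (σ : W.Cl)

/-- the cell -/
abbrev Cl.cel : Cel (W.st σ.a).s (W.st σ.a).nc (W.st σ.a).nr (W.I σ.f → ℝ) :=
  ⟨W.fam σ.f, σ.β, fun _ => (W.st σ.a).R σ.β⟩

/-- facets -/
abbrev Cl.fc (b : W.B) : W.Cl := ⟨σ.a, W.fc σ.f b, σ.β⟩

/-- the past piece at a wall -/
abbrev Cl.L (w : W.Wl σ.f) (v : (d.e (W.p w).ε).YC) : W.Cl := ⟨W.aL w, W.fL w, W.bl w σ.β v⟩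

/-- the future piece at a wall -/
abbrev Cl.R (w : W.Wl σ.f) (v : (d.e (W.p w).ε).YC) : W.Cl := ⟨W.aR w, W.fR w, W.br w σ.β v⟩

open Classical in
/-- the index -/
def Cl.n : ℤ := if h : ∃ n, σ.cel.Ind n then h.choose else 0

/-- the closed domain of parameters -/
def Cl.Dom (t : W.I σ.f → ℝ) : Prop := ∀ b ∈ W.wb σ.f, 0 ≤ W.g σ.f b t

/-- admissible middle points -/
structure Cl.Lv (Γ : Ctx d) (w : W.Wl σ.f) (v : (d.e (W.p w).ε).YC) : Prop where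
  V : v ∈ Γ.V (W.p w).ε
  R : (W.p w).o = some true → En3.L (σ.β ((W.p w).ε, (W.p w).a) true) < En3.L v
  L : (W.p w).o = some false ∨ (W.st σ.a).nr = 1 →
    En3.L v < En3.L (σ.β ((W.p w).ε, (W.p w).a) false)

/-- the number of solutions -/
def Cl.z (q : d.W →₀ ℝ) : ℕ :=
  Nat.card (Quot fun y y' : {y : σ.cel.Pnt // σ.cel.Sol q y ∧ σ.Dom y.1.1} => σ.cel.Eqv y.1 y'.1)

/-- the count in index zero -/
def Cl.z0 (q : d.W →₀ ℝ) : ℕ := if σ.n = 0 then σ.z q else 0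

/-- the terms of compact support vanish deep in the neck `j` -/
def _root_.Crest.Agent.X212.Sw.Cel.FoN {X : Mf 4} {nc nr : ℕ} {T : Type} {s : StS d Sl X}
    (σ : Cel s nc nr T) (j : d.𝓔 × Sl) : Prop :=
  ∀ w, ∃ r, ∀ t ∈ σ.Q, ∀ K ∈ (σ.P t).nk j, ∀ x ∈ univ ×ˢ K.deep r, (σ.P t).fo w (K.ψ x) = 0

/-- what a cell of the system `G` satisfies -/
structure Cl.Ok (Γ : Ctx d) (G : W.Cl → Prop) (rank : W.Cl → ℕ) : Prop where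
  ok : σ.cel.OK
  n : σ.n ≤ 1
  cen : (W.st σ.a).nr = 0 ∨ ∃ i, σ.cel.Cen i ∧ Nonempty (W.Wl σ.f) ∧
    ∀ w : W.Wl σ.f, (W.p w).wl = (i, some true)
  /-- facets -/
  fc : ∀ b ∈ W.wb σ.f, G (σ.fc b) ∧ rank (σ.fc b) < rank σ ∧ Injective (W.j σ.f b) ∧
    range (W.j σ.f b) = W.g σ.f b ⁻¹' {0} ∧ (W.g σ.f b).contLinear ≠ 0 ∧
    (∀ t, (σ.fc b).Dom t ↔ σ.Dom (W.j σ.f b t)) ∧
    (∀ b' ∈ W.wb σ.f, b' ≠ b → ∀ t, W.g σ.f b' (W.j σ.f b t) = 0 →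
      ∃ b'' ∈ W.wb (W.fc σ.f b), W.g _ b'' t = 0) ∧
    ∀ w : W.Wl σ.f, (∃ w' : W.Wl (W.fc σ.f b), (W.p w').wl = (W.p w).wl) ∨ ((W.p w).o = none ∧
      ∀ t, W.j σ.f b t ∈ σ.cel.Q → (σ.cel.P (W.j σ.f b t)).len (W.p w).wl.1 ≤ 5 / 2)
  /-- walls -/
  inj : ∀ w w' : W.Wl σ.f, (W.p w).wl = (W.p w').wl → w = w'
  inf : ∀ w : W.Wl σ.f, (W.p w).o.elim ((W.st σ.a).s.nk (W.p w).wl.1 = none)
    ((W.st σ.a).s.Inf (W.p w).wl.1)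
  all : (W.st σ.a).nr = 0 → ∀ i b, (W.st σ.a).s.Inf i b → ∃ w : W.Wl σ.f, (W.p w).wl = (i, some b)
  cpt : ∀ r : ℝ, ∃ D, IsCompact D ∧ D ⊆ σ.cel.Q ∧ ∀ t ∈ σ.cel.Q, σ.Dom t →
    (∀ w : W.Wl σ.f, (W.p w).o = none → (σ.cel.P t).len (W.p w).wl.1 ≤ r) → t ∈ D
  fin : ∀ w : W.Wl σ.f, (W.p w).o = none → (∃ B, σ.cel.HolB (W.p w).wl.1 B) ∧
    σ.cel.FoN (W.p w).wl.1 ∧ σ.cel.Nul (W.p w).wl.1
  mid : ∀ (w : W.Wl σ.f) v, W.bl w σ.β v ((W.p w).ε, (W.p w).aL) true = v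
  spl : ∀ (w : W.Wl σ.f) v, σ.Lv Γ w v → (W.p w).OK σ.cel (σ.L w v).cel (σ.R w v).cel ∧
    rank (σ.L w v) < rank σ ∧ rank (σ.R w v) < rank σ ∧
    ∃ l, ∀ δ ∈ (W.p w).Δ, l ≤ δ.2 - δ.1 → ∀ tL tR,
      σ.Dom ((W.p w).par tL tR δ) ↔ (σ.L w v).Dom tL ∧ (σ.R w v).Dom tR
  sz : ∀ w, ∃ r, 0 ≤ r ∧ ∀ t ∈ σ.cel.Q, (σ.cel.P t).Sz 6 w r

/-- the pieces at the walls belong to the system -/
def Cl.Chl (Γ : Ctx d) (G : W.Cl → Prop) (C : ℝ) : Prop := ∀ (w : W.Wl σ.f) v, σ.Lv Γ w v →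
  |hol v| ≤ C → ((σ.L w v).n ≤ 0 → G (σ.L w v)) ∧ (0 ≤ (σ.L w v).n → G (σ.R w v))

/-- the analysis on a cell -/
structure Cl.An (C η₀ : ℝ) (O : (d.W →₀ ℝ) → Prop) : Prop where
  bnd : ∀ q, O q → ∀ y, σ.cel.Sol q y → σ.Dom y.1.1 → σ.cel.Bnd C η₀ y
  irr : ∀ q, O q → ∀ y : σ.cel.Pnt, σ.Dom y.1.1 →
    (σ.cel.P y.1.1).bg.Sol ((σ.cel.P y.1.1).pt q) y.1.2 → ∃ x, y.1.2.Φ x ≠ 0
  dens : ∀ q, O q → ∀ y, σ.cel.Sol q y → σ.Dom y.1.1 →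
    σ.cel.Reg 7 q y ∨ σ.cel.Onto 7 q y

/-- the trivial gauge group -/
def _root_.Crest.Agent.X212.Sw.Cel.gd0 {X : Mf 4} {nc nr : ℕ} {T : Type} [NormedAddCommGroup T]
    [NormedSpace ℝ T] [FiniteDimensional ℝ T] {s : StS d Sl X} (σ : Cel s nc nr T) (k : ℕ) :
    σ.GD k :=
  letI : MulAction PUnit (σ.C k) :=
    { smul := fun _ v => v, one_smul := fun _ => rfl, mul_smul := fun _ _ _ => rfl }
  { G := PUnit, L := ℝ, H := ℝ, U := fun _ _ h => h, inv := fun _ _ _ _ _ _ => rfl }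

open Classical in
/-- the gauge group -/
def Cl.Γ : σ.cel.GD 7 :=
  if h : ∃ Γ : σ.cel.GD 7, (σ.cel.prob Γ σ.n).Ax (fun _ => True) ∧ Equivalence σ.cel.Eqv then
    h.choose else σ.cel.gd0 7

/-- the moduli problem -/
abbrev Cl.Q : Prob d.W := σ.cel.prob σ.Γ σ.n

theorem Cl.cel_fc (b : W.B) : (σ.fc b).cel = σ.cel.res (W.j σ.f b) := by
  unfold Cl.cel
  rw [W.res]
  rfl

/-- the inclusion of a facet -/
def Cl.inc (b : W.B) (y : (σ.fc b).cel.Pnt) : σ.cel.Pnt :=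
  ⟨(W.j σ.f b y.1.1, y.1.2), by
    have := y.2
    simp only [W.res] at this
    exact this⟩

variable (W)

open Classical in
/-- the complex of cells -/
def gx : Gx d.W W.Cl (WA d Sl) W.B where
  Q σ := σ.Q
  wa σ := Finset.univ.image fun w : W.Wl σ.f => (W.p w).wl
  wb σ := W.wb σ.f
  ta σ a _ := σ.cel.rr 7 (σ.cel.wf a)
  tb σ b _ := σ.cel.rr 7 fun t _ => W.g σ.f b t
  fc σ b := σ.fc b
  inc σ b x := ⟨(), σ.inc b x.2⟩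

open Classical in
/-- the Floer system of the cells `𝒦` -/
def flo (Γ : Ctx d) (Adm : (d.W →₀ ℝ) → Prop) (𝒦 : Finset W.Cl) (rank : W.Cl → ℕ) :
    Flo2.Flo d.W W.Cl (WA d Sl) W.B where
  toGx := W.gx
  Adm := Adm
  𝒦 := 𝒦
  rank := rank
  sp σ a := {p ∈ 𝒦 ×ˢ 𝒦 | p.1.n = 0 ∧ p.2.n = 0 ∧
    ∃ w v, (W.p w).wl = a ∧ σ.Lv Γ w v ∧ p = (σ.L w v, σ.R w v)}
  Deg σ a p _ 𝒰 u x y := ∃ w v x' y', (W.p w).wl = a ∧
    (⟨p, x, y⟩ : Σ p : W.Cl × W.Cl, p.1.Q.X × p.2.Q.X) = ⟨(σ.L w v, σ.R w v), x', y'⟩ ∧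
    (W.p w).Deg (σ := σ.cel) (σL := (σ.L w v).cel) (σR := (σ.R w v).cel) 𝒰 (fun i => (u i).2)
      x'.2 y'.2

end Wld

/-- the leaves, for all sites -/
structure Lvs (d : Dt κ lam ν) [Fintype d.𝓔] (Sl : Type) [Fintype Sl] : Prop where
  pt : ∀ X nc nr (I : Type) [Fintype I], PtStmt d (Prod.fst : d.𝓔 × Sl → _) X nc nr (I → ℝ)
  map : ∀ X nc nr (I : Type) [Fintype I], MapStmt d (Prod.fst : d.𝓔 × Sl → _) X nc nr (I → ℝ)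
  rep : ∀ X nc nr (I : Type) [Fintype I], RepStmt d (Prod.fst : d.𝓔 × Sl → _) X nc nr (I → ℝ)
  fred : ∀ X nc nr (I : Type) [Fintype I], FredStmt d (Prod.fst : d.𝓔 × Sl → _) X nc nr (I → ℝ)
  ax : ∀ X nc nr (I : Type) [Fintype I], AxStmt d (Prod.fst : d.𝓔 × Sl → _) X nc nr (I → ℝ)
  fac : ∀ X nc nr (I : Type) [Fintype I], FacStmt d (Prod.fst : d.𝓔 × Sl → _) X nc nr (I → ℝ)
  deg : ∀ X XL XR nc nr ncL nrL ncR nrR (I IL IR : Type) [Fintype I] [Fintype IL] [Fintype IR],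
    DegStmt d Sl X XL XR nc nr ncL nrL ncR nrR (I → ℝ) (IL → ℝ) (IR → ℝ)
  add : ∀ X XL XR nc nr ncL nrL ncR nrR (I IL IR : Type) [Fintype I] [Fintype IL] [Fintype IR],
    AddStmt d Sl X XL XR nc nr ncL nrL ncR nrR (I → ℝ) (IL → ℝ) (IR → ℝ)
  gl : ∀ X XL XR nc nr ncL nrL ncR nrR (I IL IR : Type) [Fintype I] [Fintype IL] [Fintype IR],
    GlStmt d Sl X XL XR nc nr ncL nrL ncR nrR (I → ℝ) (IL → ℝ) (IR → ℝ)
  cc : ∀ i β, (∀ j : d.𝓔 × Sl, (d.e j.1).OK) → 0 < (d.e i.1).w → (∀ b, En3.Gd (β i b)) →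
    (d.cc (Prod.fst : d.𝓔 × Sl → _) i (Empty → ℝ) 0 β).OK
  brk : BrkStmt κ lam ν
  cut : CutStmt κ lam ν

/-- **SW-WLD** : the Floer system of a world, and its counts -/
def WldStmt (d : Dt κ lam ν) [Fintype d.𝓔] (Sl : Type) [Fintype Sl] : Prop :=
  ∀ (W : Wld d Sl) (Γ : Ctx d) (G : W.Cl → Prop) rank (C η₀ r₀ : ℝ) O, 0 < η₀ → St.IsOp O → O 0 →
    (∀ σ, G σ → σ.Ok Γ G rank ∧ (∀ r, σ.Chl Γ G r) ∧ σ.An C η₀ O) → ∀ 𝒯 : Set W.Cl, 𝒯.Finite →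
    (∀ σ ∈ 𝒯, G σ) → ∃ (𝒦 : Finset W.Cl) (Adm : _), 𝒯 ⊆ 𝒦 ∧ (∀ σ ∈ 𝒦, G σ ∧ σ.Chl Γ (· ∈ 𝒦) r₀) ∧ Adm 0 ∧
      (W.flo Γ Adm 𝒦 rank).Ax ∧ (∀ q, Adm q → O q) ∧
      (∀ σ ∈ 𝒦, ∀ q, (W.flo Γ Adm 𝒦 rank).z q σ = σ.z q) ∧
      ∀ q, (W.flo Γ Adm 𝒦 rank).GG q → ∀ σ ∈ 𝒦, σ.n = 1 →
        ∀ D : ∀ w : W.Wl σ.f, Finset (d.e (W.p w).ε).YC,
        (∀ w, ∀ v ∈ D w, σ.Lv Γ w v ∧ |hol v| ≤ r₀) →
        (∀ w v, σ.Lv Γ w v → v ∉ D w → (σ.L w v).z0 q * (σ.R w v).z0 q = 0) →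
        Even (∑ b ∈ W.wb σ.f, (σ.fc b).z0 q + ∑ w, ∑ v ∈ D w, (σ.L w v).z0 q * (σ.R w v).z0 q)

end Crest.Agent.X212.Sw
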