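import Crest.Agent.X212.Sw.Cube1
import Crest.Agent.X212.Flo2.Plc
import Crest.Agent.X212.Sm10.Dg1

/-!
# Row 212, layer AN-S (helper91): indices, counts, analysis and Stokes for the cells of a pre-world
-/

set_option autoImplicit false
set_option linter.unusedSectionVars false
noncomputable section
open scoped Manifold ContDiff Topology InnerProductSpace
open MeasureTheory Set Function Filter

namespace Crest.Agent.X212.Sw
open An Cyf70 Prm93 En3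
open M (Mf)

variable {κ lam ν : Type} [Fintype κ] [Fintype lam] [Fintype ν] [DecidableEq ν]
  {d : Dt κ lam ν} [Fintype d.𝓔] {Sl : Type} [Fintype Sl]

/-- a configuration with an irreducible limit is irreducible -/
theorem Nk.irr {X : Mf 4} {nc : ℕ} {e : En3 κ lam ν} {b : Bg X.I X.M κ lam ν nc} (K : Nk e b)
    (he : e.OK) {s} (hs : K.Inf s) {c} (hc : b.Adm c) {v : e.YC} (hv : Gd v) (h : K.Asy s v c) :
    ∃ x, c.Φ x ≠ 0 := by
  obtain ⟨y, hy⟩ := hv.irr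
  by_contra! h0
  obtain ⟨r, hr⟩ := (Sm10.Dg.decay K he hs hc hv.crit.1 h 0 _ (half_pos (norm_pos_iff.2 hy))).exists
  obtain ⟨T, -, hT⟩ := Pb50.nd_basis.eventually_iff.1 (Pb50.ev_J K hs)
  have e1 : M.pm s * (M.pm s * (max r T + 1)) = max r T + 1 := by cases s <;> simp [M.pm]
  have h1 : ‖c.Φ _ - v.Φ y‖ ≤ _ := (hr [] le_rfl (y, M.pm s * (max r T + 1)) ⟨trivial,
    hT (x := (y, _)) (e1.symm ▸ lt_add_of_le_of_pos (le_max_right _ _) one_pos :),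
    (e1.symm ▸ lt_add_of_le_of_pos (le_max_left _ _) one_pos :)⟩).2
  rw [h0, zero_sub, norm_neg] at h1
  linarith [norm_pos_iff.2 hy]

/-- small perturbations contain an open set -/
theorem op_sz {X : Mf 4} {nc k : ℕ} {ι : Type} (P : ι → PcS d Sl X nc)
    (h : ∀ w, ∃ r, 0 ≤ r ∧ ∀ t, (P t).Sz k w r) {η : ℝ} (h0 : 0 < η) :
    ∃ O, St.IsOp O ∧ O 0 ∧ ∀ q, O q → ∀ t, (P t).Small k η q := by
  choose r h1 h2 using h
  exact ⟨_, isOp_sz r η, by simpa using h0, fun q hq t => ⟨r, hq.le, fun w _ => ⟨h1 w, h2 w t⟩⟩⟩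

theorem isOp_all {W I : Type} [Finite I] {O : I → (W →₀ ℝ) → Prop} (h : ∀ i, St.IsOp (O i)) :
    St.IsOp fun q => ∀ i, O i q := fun q₀ h0 ι l q hq =>
  eventually_all.2 fun i => h i q₀ (h0 i) ι l q hq

theorem op_cc (he : ∀ ε, (d.e ε).OK) (T : Type) {η : ℝ} (h0 : 0 < η) : ∃ O, St.IsOp O ∧ O 0 ∧
    ∀ q, O q → ∀ (i : d.𝓔 × Sl) t, ((d.cf Prod.fst i T).P t).Small 6 η q := by
  choose O h1 h2 h3 using fun i : d.𝓔 × Sl => op_sz _ (cf_sz he i T 6) h0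
  exact ⟨_, isOp_all h1, h2, fun q hq i => h3 i q (hq i)⟩

namespace Fa
variable {k : ℕ}

/-- the whole cube -/
abbrev top (k : ℕ) : Fa k := fun _ => none

/-- the plane of a face -/
def pl (f : Fa k) : Set (Fin k → ℝ) := {t | ∀ c, f c ≠ none → t c = if f c = some true then 1 else 0}

theorem card_top : Fintype.card (top k).I = k :=
  (Fintype.card_congr (Equiv.subtypeUnivEquiv fun _ => rfl)).trans (Fintype.card_fin k)

theorem card_le (f : Fa k) : Fintype.card f.I ≤ k := (Fintype.card_subtype_le _).trans (by simp)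

theorem card_fc' {f : Fa k} {c : Fin k} (h : f c = none) (s : Bool) :
    Fintype.card (f.fc (c, s)).I + 1 = Fintype.card f.I := by
  simp only [Fintype.card_subtype]
  rw [← Finset.card_erase_add_one (a := c) (s := {x | f x = none}) (by simpa using h)]
  congr 2
  ext x
  by_cases e : x = c
  · simp [e, fc_self h]
  · simp [e, fc_ne e]

theorem pl_top : (top k).pl = univ := eq_univ_of_forall fun _ _ h => absurd rfl h

theorem pl_fc {c : Fin k} {s : Bool} {t} :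
    t ∈ ((top k).fc (c, s)).pl ↔ t c = bif s then 1 else 0 := by
  have e := fc_self (f := top k) (c := c) rfl s
  refine ⟨fun h => (h c (by simp [e])).trans ?_, fun h c' h' => ?_⟩
  · cases s <;> simp [e]
  · obtain rfl : c' = c := by_contra fun e => h' (fc_ne e s)
    cases s <;> simpa [e] using h

theorem bij (f : Fa k) (D : Set (Fin k → ℝ)) : BijOn f.emb (f.emb ⁻¹' D) (D ∩ f.pl) :=
  ⟨fun t h => ⟨h, fun _ => f.emb_fix t⟩, f.emb_inj.injOn, fun t h =>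
    ⟨f.rst t, show f.emb _ ∈ D from (f.emb_rst h.2).symm ▸ h.1, f.emb_rst h.2⟩⟩

end Fa

/-- Stokes' formula for the cell `σ` -/
def Wld.Cl.Stk {W : Wld d Sl} (σ : W.Cl) (Γ : Ctx d) (r : ℝ) (q : d.W →₀ ℝ) : Prop :=
  ∀ D : ∀ w : W.Wl σ.f, Finset (d.e (W.p w).ε).YC, (∀ w, ∀ v ∈ D w, σ.Lv Γ w v ∧ |hol v| ≤ r) →
    (∀ w v, σ.Lv Γ w v → v ∉ D w → (σ.L w v).z0 q * (σ.R w v).z0 q = 0) →
    Even (∑ b ∈ W.wb σ.f, (σ.fc b).z0 q + ∑ w, ∑ v ∈ D w, (σ.L w v).z0 q * (σ.R w v).z0 q)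

theorem Wld.Cl.Ok.add {W : Wld d Sl} {σ : W.Cl} {Γ G r} (h : σ.Ok Γ G r) (L : Lvs d Sl) (w v)
    (hv : σ.Lv Γ w v) : σ.n = (σ.L w v).n + (σ.R w v).n + 1 := L.add_n (h.spl w v hv).1

open Classical in
theorem sum_cube {k : ℕ} (f : Fa k) (p : Fin k → Prop) (A : ℕ × Bool → ℕ) (B : {c // p c} → ℕ) :
    ∑ c with f c = none, (A (c.1, false) + if h : p c then B ⟨c, h⟩ else A (c.1, true)) =
    ∑ b ∈ Finset.image (fun x : Fin k × Bool => (x.1.1, x.2))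
      {x | f x.1 = none ∧ (x.2 = true → ¬p x.1)}, A b + ∑ c : {c : {c // p c} // f c = none}, B c := by
  rw [Finset.sum_image fun x _ y _ e => by
      exact Prod.ext (Fin.ext (congrArg Prod.fst e)) (congrArg Prod.snd e :),
    ← Finset.sum_subtype {c : {c // p c} | f c = none} (by simp) B]
  simp only [Finset.sum_filter]
  have e : ∑ c : {c // p c}, (if f c = none then B c else 0) =
      ∑ c, if h : p c then (if f c = none then B ⟨c, h⟩ else 0) else 0 := by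
    rw [← Fintype.sum_subtype_add_sum_subtype p]
    simp [fun c : {c // p c} => c.2, fun c : {c // ¬p c} => c.2]
  rw [Fintype.sum_prod_type, e, ← Finset.sum_add_distrib]
  refine Finset.sum_congr rfl fun c _ => ?_
  by_cases h1 : f c = none <;> by_cases h2 : p c <;> simp [h1, h2, add_comm]

open Classical in
theorem sum_end {α : Type} [Fintype α] (p : α → Prop) {F : Fintype (Subtype p)} {V : α → Type}
    (D : ∀ i, Finset (V i)) (c : ∀ i, V i → Prop) {A : ∀ i, V i → ℕ} (B : ∀ i, V i → ℕ)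
    (h : ∀ i v, A i v = if c i v then B i v else 0) :
    ∑ i with p i, ∑ v ∈ D i, A i v = ∑ i : Subtype p, ∑ v ∈ D i with c i v, B i v := by
  simp only [Finset.sum_filter (p := c _), h]
  exact Finset.sum_subtype _ (by simp) _

namespace Pw
variable {P : Pw d Sl} {Γ : Ctx d} {G : P.wld.Cl → Prop} {a : P.S} {f : Fa (P.k a)} {β : BC d Sl}

section n
variable (L : Lvs d Sl) (h : P.OK Γ a) (hβ : P.VB Γ a β)
include L h hβ

theorem n_top {n} (hn : (P.cel a β).Ind n) : (P.pc a (.top _) β).n = n := by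
  rw [n_pc L h hβ hn, Fa.card_top, sub_self, add_zero]

theorem ind_top : (P.cel a β).Ind (P.pc a (.top _) β).n := by
  obtain ⟨n, hn⟩ := L.fred _ _ _ _ _ _ (cel_ok h hβ)
  rwa [n_top L h hβ hn]

theorem n_face : (P.pc a f β).n = (P.pc a (.top _) β).n + (Fintype.card f.I - P.k a) :=
  n_pc L h hβ (ind_top L h hβ)

theorem n_le : (P.pc a f β).n ≤ (P.pc a (.top _) β).n := by
  have := f.card_le
  rw [n_face L h hβ]
  omega

theorem n_fc {c : Fin (P.k a)} (hc : f c = none) (s : Bool) :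
    (P.pc a (f.fc (c, s)) β).n = (P.pc a f β).n - 1 := by
  have := Fa.card_fc' hc s
  rw [n_face L h hβ, n_face (f := f) L h hβ]
  omega

theorem an_pc (hD : ∀ X nc (I : Type) [Fintype I], DensStmt d (Prod.fst : d.𝓔 × Sl → _) X nc (I → ℝ))
    {C η₀ : ℝ} {O} (rich : ∀ t ∈ P.dom a, ((P.fam a).P t).Rich)
    (bnd : ∀ q, O q → ∀ y, (P.cel a β).Sol q y → y.1.1 ∈ P.dom a → (P.cel a β).Bnd C η₀ y)
    (irr : ∀ q, O q → ∀ y : (P.cel a β).Pnt, y.1.1 ∈ P.dom a →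
      ((P.fam a).P y.1.1).bg.Sol (((P.fam a).P y.1.1).pt q) y.1.2 → ∃ x, y.1.2.Φ x ≠ 0) :
    (P.pc a f β).An C η₀ O :=
  have h0 := res_ok (f := f) h.Q (cel_ok h hβ)
  ⟨fun q hq y h1 h2 => have := bnd q hq ((P.cel a β).inc f.emb y) h1 (dom_iff.1 h2)
    ⟨this.en, this.sup, this.low⟩,
    fun q hq y h1 => irr q hq ((P.cel a β).inc f.emb y) (dom_iff.1 h1),
    fun q _ y h1 h2 => .inr (hD _ _ _ _ _ h0 _ (L.ind h0) 7 le_rfl q y (rich _ (dom_iff.1 h2)) h1)⟩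

end n

/-- the count of a face -/
theorem z_pc (hQ : (P.fam a).Q = univ) (q) :
    (P.pc a f β).z q = Flo2.cnt (P.fam a).P (P.dom a ∩ f.pl) β q := by
  refine Eq.trans ?_ (Flo2.cnt_eq (P := fun t => (P.fam a).P (f.emb t)) f.emb (f.bij _)
    (fun _ _ => .of_inf fun _ _ _ => rfl) q)
  refine Eq.trans ?_ (Flo2.cel_cnt (P.pc a f β).cel (by
    show f.emb ⁻¹' _ = _
    rw [hQ, preimage_univ]) (f.emb ⁻¹' P.dom a) q)
  exact Nat.card_congr (Quot.congr (Equiv.subtypeEquivRight fun _ => and_congr_right' dom_iff)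
    fun _ _ => Iff.rfl)

theorem an_cy (L : Lvs d Sl) (hZ : DensZStmt d Sl) (Γ : Ctx d) (C : ℝ) : ∃ η > 0, ∀ ε x y,
    x ∈ Γ.V ε → y ∈ Γ.V ε → En3.L y < En3.L x → (∀ T : (d.e ε).YT, ∃ w, d.yt w ε = some T) →
    ∀ η₀ O, (∀ q, O q → (P.cy ε x y).cel.Sm η q ∧
      ∀ z, (P.cy ε x y).cel.Sol q z → (P.cy ε x y).cel.Bnd C η₀ z) → (P.cy ε x y).An C η₀ O := by
  refine (hZ Γ C).imp fun η h => ⟨h.1, fun ε x y hx hy hl hT η₀ O H => ?_⟩
  have m := cb_mem Γ P.s₀ hx hy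
  have h0 := L.cc1 Γ (ε, P.s₀) m
  exact ⟨fun q hq z h1 _ => (H q hq).2 z h1, fun q _ z _ _ =>
    (d.e ε).nk.irr (Γ.ok ε).ok (s := true) rfl z.2.2.1 ((Γ.rs ε).gd _ (m true))
      (z.2.2.2 (ε, P.s₀) true _ (cs_self _ _) rfl),
    fun q hq z h1 _ => h.2 _ _ 1 _ h0 hT (.inr ⟨rfl, by rwa [cb_true, cb_false]⟩) _
      (L.ind (σ := P.cy ε x y) h0) 7 le_rfl q z (H q hq).1 ((H q hq).2 z h1).sup h1⟩

theorem cy_L (ε x y v) : (P.cy ε x y).L () v = P.cy ε x v :=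
  congrArg (P.cy ε · v) (cb_false P.s₀ ε x y)

theorem cy_R (ε x y v) : (P.cy ε x y).R () v = P.cy ε v y :=
  congrArg (P.cy ε v) (cb_true P.s₀ ε x y)

theorem lv_cy {ε x y v} : (P.cy ε x y).Lv Γ () v ↔ v ∈ Γ.V ε ∧ L y < L v ∧ L v < L x :=
  have e1 := congrArg L (cb_true P.s₀ ε x y)
  have e2 := congrArg L (cb_false P.s₀ ε x y)
  ⟨fun h => ⟨h.V, e1.ge.trans_lt (h.R rfl), (h.L (.inr rfl)).trans_eq e2⟩,
    fun h => ⟨h.1, fun _ => e1.trans_lt h.2.1, fun _ => h.2.2.trans_eq e2.symm⟩⟩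

theorem lv_wl (h : P.OK Γ a) {c v} : (P.pc a f β).Lv Γ (.inl c) v ↔ v ∈ Γ.V _ :=
  ⟨fun h => h.V, fun h1 => ⟨h1, fun e => (by cases (h.wd _).o.symm.trans e), fun e => e.elim
    (fun e => by cases (h.wd _).o.symm.trans e) fun e => by cases e⟩⟩

theorem lv_out {i v} : (P.pc a f β).Lv Γ (.inr (.inl i)) v ↔ v ∈ Γ.V i.1.1 ∧ L (β i true) < L v :=
  ⟨fun h => ⟨h.V, h.R rfl⟩, fun h => ⟨h.1, fun _ => h.2, fun e => e.elim (fun e => by cases e)
    fun e => by cases e⟩⟩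

theorem lv_inn {i v} : (P.pc a f β).Lv Γ (.inr (.inr i)) v ↔ v ∈ Γ.V i.1.1 ∧ L v < L (β i false) :=
  ⟨fun h => ⟨h.V, h.L (.inl rfl)⟩, fun h => ⟨h.1, fun e => (by cases e), fun _ => h.2⟩⟩

theorem chl_pc
    (hw : ∀ c : {c // P.iw a c}, f c = none → ∀ v ∈ Γ.V _,
      ((P.pc _ (f ∘ (P.wd a c).ιL) ((P.wd a c).bl β v)).n ≤ 0 →
        G (P.pc _ (f ∘ (P.wd a c).ιL) ((P.wd a c).bl β v))) ∧
      (0 ≤ (P.pc _ (f ∘ (P.wd a c).ιL) ((P.wd a c).bl β v)).n →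
        G (P.pc _ (f ∘ (P.wd a c).ιR) ((P.wd a c).br β v))))
    (ho : ∀ i, (P.s a).Inf i true → ∀ v ∈ Γ.V i.1, L (β i true) < L v →
      ((P.pc a f (β.up i true v)).n ≤ 0 → G (P.pc a f (β.up i true v))) ∧
      (0 ≤ (P.pc a f (β.up i true v)).n → G (P.cy i.1 v (β i true))))
    (hi : ∀ i, (P.s a).Inf i false → ∀ v ∈ Γ.V i.1, L v < L (β i false) →
      ((P.cy i.1 (β i false) v).n ≤ 0 → G (P.cy i.1 (β i false) v)) ∧
      (0 ≤ (P.cy i.1 (β i false) v).n → G (P.pc a f (β.up i false v)))) (r) :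
    (P.pc a f β).Chl Γ G r := by
  rintro (c | i | i) v hv -
  exacts [hw c.1 c.2 v hv.V, ho _ i.2 v hv.V (hv.R rfl), hi _ i.2 v hv.V (hv.L (.inl rfl))]

theorem chl_cy {ε x y} (h : ∀ v ∈ Γ.V ε, L y < L v → L v < L x →
    ((P.cy ε x v).n ≤ 0 → G (P.cy ε x v)) ∧ (0 ≤ (P.cy ε x v).n → G (P.cy ε v y))) (r) :
    (P.cy ε x y).Chl Γ G r := fun _ v hv _ => by
  rw [cy_L, cy_R]
  exact h v (lv_cy.1 hv).1 (lv_cy.1 hv).2.1 (lv_cy.1 hv).2.2

/-- additivity at the walls -/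
theorem add_wl (L : Lvs d Sl) {r} (h : (P.pc a f β).Ok Γ G r) (H : P.OK Γ a) (c : {c // P.iw a c})
    (hc : f c = none) {v} (hv : v ∈ Γ.V _) : (P.pc a f β).n =
      (P.pc _ (f ∘ (P.wd a c).ιL) ((P.wd a c).bl β v)).n +
        (P.pc _ (f ∘ (P.wd a c).ιR) ((P.wd a c).br β v)).n + 1 :=
  (h.add L (.inl ⟨c, hc⟩) v ((lv_wl H).2 hv) :)

theorem add_out (L : Lvs d Sl) {r} (h : (P.pc a f β).Ok Γ G r) {i} (hi : (P.s a).Inf i true) {v}
    (hv : v ∈ Γ.V i.1) (hl : En3.L (β i true) < En3.L v) :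
    (P.pc a f β).n = (P.pc a f (β.up i true v)).n + (P.cy i.1 v (β i true)).n + 1 :=
  (h.add L (.inr (.inl ⟨i, hi⟩)) v (lv_out.2 ⟨hv, hl⟩) :)

theorem add_inn (L : Lvs d Sl) {r} (h : (P.pc a f β).Ok Γ G r) {i} (hi : (P.s a).Inf i false) {v}
    (hv : v ∈ Γ.V i.1) (hl : En3.L v < En3.L (β i false)) :
    (P.pc a f β).n = (P.cy i.1 (β i false) v).n + (P.pc a f (β.up i false v)).n + 1 :=
  (h.add L (.inr (.inr ⟨i, hi⟩)) v (lv_inn.2 ⟨hv, hl⟩) :)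

theorem add_cy (L : Lvs d Sl) {r ε x y} (h : (P.cy ε x y).Ok Γ G r) {v} (hv : v ∈ Γ.V ε)
    (h1 : En3.L y < En3.L v) (h2 : En3.L v < En3.L x) :
    (P.cy ε x y).n = (P.cy ε x v).n + (P.cy ε v y).n + 1 := by
  rw [h.add L () v (lv_cy.2 ⟨hv, h1, h2⟩)]
  exact congrArg₂ (fun a b : P.wld.Cl => a.n + b.n + 1) (cy_L ε x y v) (cy_R ε x y v)

variable (P) in
open Classical in
/-- the differential -/
def dz (q : d.W →₀ ℝ) (ε : d.𝓔) (x y : (d.e ε).YC) : ℕ := if L y < L x then (P.cy ε x y).z0 q else 0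

variable {r : ℝ} {q : d.W →₀ ℝ}

theorem stk_cy {ε x y} (h : (P.cy ε x y).Stk Γ r q) (D : Finset (d.e ε).YC)
    (h1 : ∀ v ∈ D, v ∈ Γ.V ε ∧ |hol v| ≤ r)
    (h2 : ∀ v ∈ Γ.V ε, v ∉ D → P.dz q ε x v * P.dz q ε v y = 0) :
    Even (∑ v ∈ D, P.dz q ε x v * P.dz q ε v y) := by
  classical
  have := h (fun _ => {v ∈ D | L y < L v ∧ L v < L x}) (fun _ v hv => by
    obtain ⟨a1, a2⟩ := Finset.mem_filter.1 hv
    exact ⟨lv_cy.2 ⟨(h1 v a1).1, a2⟩, (h1 v a1).2⟩) fun _ v hv hn => by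
      obtain ⟨a1, a2⟩ := lv_cy.1 hv
      rw [cy_L, cy_R]
      exact (congrArg₂ (· * ·) (if_pos a2.2) (if_pos a2.1)).symm.trans
        (h2 v a1 fun e => hn (Finset.mem_filter.2 ⟨e, a2⟩))
  convert this using 1
  refine Eq.trans ?_ (congrArg₂ (· + ·) Finset.sum_empty (Fintype.sum_unique _)).symm
  refine Eq.trans ?_ ((zero_add _).trans (Finset.sum_filter _ _)).symm
  refine Finset.sum_congr rfl fun v _ => Eq.trans ?_
    (if_congr .rfl (congrArg₂ (fun a b : P.wld.Cl => a.z0 q * b.z0 q) (cy_L ε x y v)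
      (cy_R ε x y v)).symm rfl)
  show _ = if L y < L v ∧ L v < L x then _ else 0
  rw [dz, dz]
  by_cases a1 : L y < L v <;> by_cases a2 : L v < L x <;> simp [a1, a2]

open Classical in
theorem stk_pc (H : P.OK Γ a) (h : (P.pc a f β).Stk Γ r q)
    (Dw : ∀ c : {c // P.iw a c}, Finset (d.e (P.wd a c).p.ε).YC)
    (De : ∀ i : d.𝓔 × Sl, Bool → Finset (d.e i.1).YC)
    (w1 : ∀ c, f c.1 = none → ∀ v ∈ Dw c, v ∈ Γ.V _ ∧ |hol v| ≤ r)
    (w2 : ∀ c, f c.1 = none → ∀ v ∈ Γ.V _, v ∉ Dw c →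
      (P.pc _ (f ∘ (P.wd a c).ιL) ((P.wd a c).bl β v)).z0 q *
        (P.pc _ (f ∘ (P.wd a c).ιR) ((P.wd a c).br β v)).z0 q = 0)
    (e1 : ∀ i b, (P.s a).Inf i b → ∀ v ∈ De i b, v ∈ Γ.V _ ∧ |hol v| ≤ r)
    (e2 : ∀ i, (P.s a).Inf i true → ∀ v ∈ Γ.V _, v ∉ De i true →
      (P.pc a f (β.up i true v)).z0 q * P.dz q _ v (β i true) = 0)
    (e3 : ∀ i, (P.s a).Inf i false → ∀ v ∈ Γ.V _, v ∉ De i false →
      P.dz q _ (β i false) v * (P.pc a f (β.up i false v)).z0 q = 0) :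
    Even (∑ c with f c = none, ((P.pc a (f.fc (c.1, false)) β).z0 q +
        if h : P.iw a c then ∑ v ∈ Dw ⟨c, h⟩,
          (P.pc _ (f ∘ (P.wd a ⟨c, h⟩).ιL) ((P.wd a ⟨c, h⟩).bl β v)).z0 q *
            (P.pc _ (f ∘ (P.wd a ⟨c, h⟩).ιR) ((P.wd a ⟨c, h⟩).br β v)).z0 q
        else (P.pc a (f.fc (c.1, true)) β).z0 q) +
      ∑ i with (P.s a).Inf i true, ∑ v ∈ De i true,
        (P.pc a f (β.up i true v)).z0 q * P.dz q _ v (β i true) +
      ∑ i with (P.s a).Inf i false, ∑ v ∈ De i false,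
        P.dz q _ (β i false) v * (P.pc a f (β.up i false v)).z0 q) := by
  have := h (fun w => match w with
    | .inl c => Dw c.1
    | .inr (.inl i) => {v ∈ De i true | L (β i true) < L v}
    | .inr (.inr i) => {v ∈ De i false | L v < L (β i false)}) ?_ ?_
  rotate_left
  · rintro (c | i | i) v hv
    · exact ⟨(lv_wl H).2 (w1 _ c.2 v hv).1, (w1 _ c.2 v hv).2⟩
    all_goals obtain ⟨a1, a2⟩ := Finset.mem_filter.1 hv
    exacts [⟨lv_out.2 ⟨(e1 _ _ i.2 v a1).1, a2⟩, (e1 _ _ i.2 v a1).2⟩,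
      ⟨lv_inn.2 ⟨(e1 _ _ i.2 v a1).1, a2⟩, (e1 _ _ i.2 v a1).2⟩]
  · rintro (c | i | i) v hv hn
    · exact w2 _ c.2 v hv.V hn
    · have a := (lv_out.1 hv).2
      exact (congrArg _ (if_pos a)).symm.trans
        (e2 _ i.2 v hv.V fun e => hn (Finset.mem_filter.2 ⟨e, a⟩))
    · have a := (lv_inn.1 hv).2
      exact (congrArg (· * _) (if_pos a)).symm.trans
        (e3 _ i.2 v hv.V fun e => hn (Finset.mem_filter.2 ⟨e, a⟩))
  convert this using 1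
  refine Eq.trans ?_ (congrArg _ ((Fintype.sum_sum_type _).trans
    (congrArg _ (Fintype.sum_sum_type _)))).symm
  refine (add_assoc _ _ _).trans (Eq.trans ?_ (add_assoc _ _ _))
  refine congrArg₂ (· + ·) (by
    convert sum_cube f (P.iw a) (fun b => (P.pc a (f.fc b) β).z0 q) fun c => ∑ v ∈ Dw c,
      (P.pc _ (f ∘ (P.wd a c).ιL) ((P.wd a c).bl β v)).z0 q *
        (P.pc _ (f ∘ (P.wd a c).ιR) ((P.wd a c).br β v)).z0 q using 1
    exact congrArg₂ (· + ·) (Finset.sum_congr (by ext; simp [wb]) fun _ _ => rfl)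
      (Finset.sum_congr (by ext; simp) fun _ _ => rfl))
    (congrArg₂ (· + ·) (sum_end _ (De · true) (fun i v => L (β i true) < L v)
      (fun i v => (P.pc a f (β.up i true v)).z0 q * (P.cy _ v (β i true)).z0 q) fun _ _ => ?_)
      (sum_end _ (De · false) (fun i v => L v < L (β i false))
      (fun i v => (P.cy _ (β i false) v).z0 q * (P.pc a f (β.up i false v)).z0 q) fun _ _ => ?_))
  all_goals simp [dz]

end Pw

end Crest.Agent.X212.Sw
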