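import Crest.Agent.X212.Sw.Wld1

/-!
# Row 212, layer AN-S (helper91): compactness by induction on the rank; `WldStmt`
-/

set_option autoImplicit false
set_option linter.unusedSectionVars false
noncomputable section
open scoped Manifold ContDiff Topology InnerProductSpace
open MeasureTheory Set Function Filter

namespace Crest.Agent.X212.Sw
open An Cyf70 Prm93 En3
open Mod61 (Prob)
open Nd18 (Jv)
open M (Mf)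

variable {κ lam ν : Type} [Fintype κ] [Fintype lam] [Fintype ν] [DecidableEq ν]
  {d : Dt κ lam ν} [Fintype d.𝓔] {Sl : Type} [Fintype Sl]

theorem ultra_top {ι : Type} {𝒰 : Ultrafilter ι} {f : ι → ℝ}
    (h : ¬∃ r, ∀ᶠ i in (𝒰 : Filter ι), f i ≤ r) : Tendsto f 𝒰 atTop :=
  tendsto_atTop.2 fun r => (Ultrafilter.eventually_not.2 fun h' => h ⟨r, h'⟩).mono
    fun _ hi => (not_le.1 hi).le

variable {W : Wld d Sl} {Γ : Ctx d} {𝒦 : Finset W.Cl} {rank : W.Cl → ℕ} {C η₀ η : ℝ}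
  {O : (d.W →₀ ℝ) → Prop}

/-- convergence or a long window at a wall -/
def Wld.Cl.Stp (σ : W.Cl) (Γ : Ctx d) (C η₀ η r : ℝ) : Prop :=
  ∀ (ι : Type) (𝒰 : Ultrafilter ι) q y ρ q₀, σ.cel.PS 𝒰 q y ρ → St.Cv (𝒰 : Filter ι) q q₀ →
    (∀ᶠ i in (𝒰 : Filter ι), σ.cel.Sm η (q i) ∧ σ.cel.Bnd C η₀ (y i)) →
    (∀ᶠ i in (𝒰 : Filter ι), σ.Dom (y i).1.1) →
    (∃ y₀ : σ.cel.Pnt, (σ.cel.P y₀.1.1).bg.Sol ((σ.cel.P y₀.1.1).pt q₀) y₀.1.2 ∧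
      σ.cel.R y₀.1.1 y₀.1.2 = 0 ∧ σ.cel.Cvg 𝒰 y y₀) ∨
    ∃ w v y' τ, σ.Lv Γ w v ∧ |hol v| ≤ r ∧ (∀ᶠ i in (𝒰 : Filter ι), σ.cel.Eqv (y i) (y' i)) ∧
      σ.cel.PS 𝒰 q y' ρ ∧ σ.cel.Win 𝒰 y' ρ ((W.p w).ε, (W.p w).a) v τ ∧
      ∀ b, (W.p w).o = some b → (W.st σ.a).nr = 0 → Tendsto (fun i => M.pm b * τ i) 𝒰 atTop

/-- uniform constants -/
structure Uni (Γ : Ctx d) (𝒦 : Finset W.Cl) (C η₀ η : ℝ) (O : (d.W →₀ ℝ) → Prop) : Prop where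
  pos : 0 < η₀
  stp : ∀ σ ∈ 𝒦, ∃ r, σ.Stp Γ (C + 1) (η₀ / 2) η r ∧ σ.Chl Γ (· ∈ 𝒦) r
  cut : ∀ X XL XR nc nr ncL nrL ncR nrR (I IL IR : Type) [Fintype I] [Fintype IL] [Fintype IR],
    CutAt d Sl X XL XR nc nr ncL nrL ncR nrR (I → ℝ) (IL → ℝ) (IR → ℝ) (C + 1) η
  an : ∀ σ ∈ 𝒦, σ.An C η₀ O

theorem Wld.Cl.Dom.lim {σ : W.Cl} {ι : Type} {l : Filter ι} [l.NeBot] {t : ι → W.I σ.f → ℝ} {t₀}
    (h : ∀ᶠ i in l, σ.Dom (t i)) (ht : Tendsto t l (𝓝 t₀)) : σ.Dom t₀ := fun b hb =>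
  ge_of_tendsto (((W.g σ.f b).continuous.tendsto _).comp ht) (h.mono fun _ hi => hi b hb)

theorem Wld.Cl.Ok.stp {G} {σ : W.Cl} (h : σ.Ok Γ G rank)
    (B : Brk d Sl (W.st σ.a).X (W.st σ.a).nc (W.st σ.a).nr (W.I σ.f → ℝ) Γ C η₀ η) :
    ∃ r, σ.Stp Γ C η₀ η r := by
  obtain ⟨C', hf⟩ := B.fre _ σ.cel h.ok
  choose! cn hn using fun (w : W.Wl σ.f) (hw : (W.p w).o = none) => B.nec _ σ.cel h.ok _ _
    (by simpa [hw] using h.inf w) (h.fin w hw).1.choose_spec (h.fin w hw).2.1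
  obtain ⟨c₀, hc⟩ := (finite_range cn).bddAbove
  refine ⟨max C' c₀, fun ι 𝒰 q y ρ q₀ hP hq hb hd => ?_⟩
  by_cases hm : ∀ j b, (W.st σ.a).s.Inf j b →
    ∃ r, ∀ᶠ i in (𝒰 : Filter ι), (W.st σ.a).s.mo σ.β j b (y i).1.2 ≤ r
  · by_cases hl : ∀ w : W.Wl σ.f, (W.p w).o = none →
      ∃ r, ∀ᶠ i in (𝒰 : Filter ι), (σ.cel.P (y i).1.1).len (W.p w).wl.1 ≤ r
    · choose! r hr using hl
      obtain ⟨r₀, h0⟩ := (finite_range r).bddAbove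
      obtain ⟨D, h1, h2, h3⟩ := h.cpt r₀
      have h4 : ∀ᶠ i in (𝒰 : Filter ι), (y i).1.1 ∈ D := by
        filter_upwards [hd, eventually_all.2 fun w => eventually_imp_distrib_left.2 (hr w)]
          with i h5 h6 using h3 _ (y i).2.1 h5 fun w hw => (h6 w hw).trans (h0 ⟨w, rfl⟩)
      obtain ⟨t₀, h5, h6⟩ := h1.ultrafilter_le_nhds (𝒰.map fun i => (y i).1.1) (le_principal_iff.2 h4)
      exact .inl (B.conv _ σ.cel h.ok ι 𝒰 q y ρ q₀ t₀ hP hq hb (h2 h5) h6 hm)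
    · push Not at hl
      obtain ⟨w, hw, hl⟩ := hl
      obtain ⟨v, h5, y', τ, h4, h6, h7, h8⟩ := hn w hw ι 𝒰 q y ρ q₀ hP hq hb
        (ultra_top fun ⟨r, hr⟩ => Ultrafilter.eventually_not.1 (by simpa using hl r) hr)
      refine .inr ⟨w, v, y', τ, ⟨h5, by simp [hw], ?_⟩,
        le_max_of_le_right (h4.trans (hc ⟨w, rfl⟩)), h6, h7, h8, by simp [hw]⟩
      rintro (e | e)
      · simp [hw] at e
      · rcases h.cen with e' | ⟨_, -, -, e'⟩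
        · omega
        · simpa [hw] using congrArg Prod.snd (e' w)
  · push Not at hm
    obtain ⟨j, b, hj, hm⟩ := hm
    obtain ⟨v, h2, y', τ, h1, h3, h4, h5, h6, h7, h8⟩ := hf ι 𝒰 q y ρ q₀ hP hq hb j b hj
      (ultra_top fun ⟨r, hr⟩ => Ultrafilter.eventually_not.1 (by simpa using hm r) hr)
    rcases h.cen with e | ⟨ci, e1, ⟨w⟩, e2⟩
    · obtain ⟨w, hw⟩ := h.all e j b hj
      obtain ⟨rfl, ho⟩ := Prod.ext_iff.1 hw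
      have ho : (W.p w).o = some b := ho
      refine .inr ⟨w, v, y', τ, ⟨h2, fun e' => ?_, ?_⟩, le_max_of_le_left h1, h3, h4, h5,
        fun b' e' _ => ?_⟩
      · obtain rfl : b = true := Option.some.inj (ho.symm.trans e')
        simpa [M.pm] using h6
      · rintro (e' | e')
        · obtain rfl : b = false := Option.some.inj (ho.symm.trans e')
          simpa [M.pm] using h6
        · omega
      · obtain rfl : b = b' := Option.some.inj (ho.symm.trans e')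
        exact h8 fun hc => by have := hc.1; omega
    · have e3 : j = ci := by
        by_contra hne
        obtain ⟨K, hK, -⟩ := hj
        simp [e1.2.2.2.1 j hne] at hK
      have e4 : ((W.p w).ε, (W.p w).a) = j := (congrArg Prod.fst (e2 w)).trans e3.symm
      subst e4
      have := h7 (e3 ▸ e1)
      exact .inr ⟨w, v, y', τ, ⟨h2, fun _ => this.1, fun _ => this.2⟩, le_max_of_le_left h1, h3, h4, h5,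
        fun _ _ e' => by have := e1.1; omega⟩

theorem Spl.Deg.congr {X XL XR : Mf 4} {nc nr ncL nrL ncR nrR : ℕ} {T TL TR : Type}
    [NormedAddCommGroup T] [NormedSpace ℝ T] [FiniteDimensional ℝ T]
    [NormedAddCommGroup TL] [NormedSpace ℝ TL] [FiniteDimensional ℝ TL]
    [NormedAddCommGroup TR] [NormedSpace ℝ TR] [FiniteDimensional ℝ TR]
    {s : StS d Sl X} {sL : StS d Sl XL} {sR : StS d Sl XR}
    {p : Spl X XL XR nc ncL ncR d Sl T TL TR} {σ : Cel s nc nr T} {σL : Cel sL ncL nrL TL}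
    {σR : Cel sR ncR nrR TR} (he : Equivalence σ.Eqv) {ι : Type} {l : Filter ι} {y y' : ι → σ.Pnt}
    {x : σL.Pnt} {z : σR.Pnt} (h : p.Deg l y x z) (e : ∀ᶠ i in l, σ.Eqv (y' i) (y i)) :
    p.Deg l y' x z := by
  obtain ⟨y₁, tL, tR, δ, h1, h2⟩ := h
  exact ⟨y₁, tL, tR, δ, (e.and h1).mono fun i hi => ⟨he.trans hi.1 hi.2.1, hi.2.2⟩, h2⟩

namespace Lvs
variable (L : Lvs d Sl) (H : ∀ σ ∈ 𝒦, σ.Ok Γ (· ∈ 𝒦) rank) (U : Uni Γ 𝒦 C η₀ η O)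
include L H U

/-- **compactness of partial sequences** -/
theorem cmp {ι : Type} {𝒰 : Ultrafilter ι} {q q₀} (hq : St.Cv (𝒰 : Filter ι) q q₀)
    (h0 : O q₀) (hs : ∀ᶠ i in (𝒰 : Filter ι), ∀ σ ∈ 𝒦, σ.cel.Sm η (q i)) (r : ℕ) :
    ∀ σ ∈ 𝒦, rank σ = r → ∀ y ρ, ∀ C₀ < C + 1, ∀ η₁ > η₀ / 2, σ.cel.PS 𝒰 q y ρ →
    (∀ᶠ i in (𝒰 : Filter ι), σ.cel.Bnd C₀ η₁ (y i) ∧ σ.Dom (y i).1.1) →
    (∃ y₀, (σ.cel.Sol q₀ y₀ ∧ σ.Dom y₀.1.1) ∧ σ.cel.Cvg 𝒰 y y₀) ∨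
    (∃ τ ∈ 𝒦, rank τ < rank σ ∧ τ.n < 0 ∧ ∃ x, τ.cel.Sol q₀ x ∧ τ.Dom x.1.1) ∨
    ∃ w v, σ.Lv Γ w v ∧ σ.L w v ∈ 𝒦 ∧ σ.R w v ∈ 𝒦 ∧ (σ.L w v).n = 0 ∧ (σ.R w v).n = 0 ∧
      ∃ x z, ((σ.L w v).cel.Sol q₀ x ∧ (σ.L w v).Dom x.1.1) ∧
        ((σ.R w v).cel.Sol q₀ z ∧ (σ.R w v).Dom z.1.1) ∧ (W.p w).Deg 𝒰 y x z := by
  induction r using Nat.strong_induction_on with
  | _ r ih =>
  intro σ hσ hr y ρ C₀ hC η₁ hη hP hb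
  have h := H σ hσ
  have hd := hb.mono fun _ hi => hi.2
  obtain ⟨r₀, hS, hK⟩ := U.stp σ hσ
  rcases hS ι 𝒰 q y ρ q₀ hP hq ((hs.and hb).mono fun i hi => ⟨hi.1 σ hσ, hi.2.1.mono hC.le hη.le⟩) hd
    with ⟨y₀, h1, h2, h3⟩ | ⟨w, v, y', τ, hv, hh, he, hP', hw, hτ⟩
  · have h4 := Wld.Cl.Dom.lim hd h3.par
    exact .inl ⟨y₀, ⟨⟨⟨⟨y₀.2.2, (U.an σ hσ).irr q₀ h0 y₀ h4 h1⟩, h1⟩, h2⟩, h4⟩, h3⟩
  refine .inr ?_
  obtain ⟨hp, rL, rR, l, hl⟩ := h.spl w v hv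
  have hb' : ∀ᶠ i in (𝒰 : Filter ι), σ.cel.Sm η (q i) ∧ σ.cel.Bnd C₀ η₁ (y' i) ∧ σ.Dom (y' i).1.1 := by
    filter_upwards [hs, hb, he] with i h1 h2 h3
    exact ⟨h1 σ hσ, h3.bnd h.ok h2.1, h3.1 ▸ h2.2⟩
  obtain ⟨oL, oR⟩ := hK w v hv hh
  obtain ⟨x, z, δ, ρL, ρR, pL, pR, ha, h1, -⟩ := U.cut _ _ _ _ _ _ _ _ _ _ _ _ _ _ _ _ _ _ _ hp ι 𝒰 q y' ρ q₀
    τ C₀ η₁ hC.le hP' hq (hb'.mono fun i hi => ⟨hi.1, hi.2.1⟩) (by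
      have := hw
      rw [← h.mid w v] at this
      exact this) hτ
  obtain ⟨C₁, c1, c2⟩ := exists_between hC
  obtain ⟨η₂, e1, e2⟩ := exists_between hη
  have h3 := h1 C₁ c1 η₂ e2
  have h5 : ∀ᶠ i in (𝒰 : Filter ι), (σ.L w v).Dom (x i).1.1 ∧ (σ.R w v).Dom (z i).1.1 := by
    filter_upwards [ha, pL.far (l / 2), pR.far (l / 2), hb'] with i a1 a2 a3 a4
    have a5 := a2 _ _ _ a1.2.1
    have a6 := a3 _ _ _ a1.2.2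
    exact (hl _ a1.1.1 (by linarith) _ _).1 (a1.1.2.1 ▸ a4.2.2)
  have sub : ∀ τ ∈ 𝒦, rank τ < rank σ → τ.n ≤ 0 → ∀ y ρ, τ.cel.PS 𝒰 q y ρ →
      (∀ᶠ i in (𝒰 : Filter ι), τ.cel.Bnd C₁ η₂ (y i) ∧ τ.Dom (y i).1.1) →
      (∃ y₀, (τ.cel.Sol q₀ y₀ ∧ τ.Dom y₀.1.1) ∧ τ.cel.Cvg 𝒰 y y₀) ∨
      ∃ τ' ∈ 𝒦, rank τ' < rank σ ∧ τ'.n < 0 ∧ ∃ x, τ'.cel.Sol q₀ x ∧ τ'.Dom x.1.1 := by
    intro τ h6 h7 h9 y ρ a1 a2
    rcases ih _ (hr ▸ h7) τ h6 rfl y ρ C₁ c2 η₂ e1 a1 a2 with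
      a | ⟨τ', a3, a4, a5⟩ | ⟨w', v', a3, -, -, a4, a5, -⟩
    · exact .inl a
    · exact .inr ⟨τ', a3, a4.trans h7, a5⟩
    · have := L.add_n ((H τ h6).spl w' v' a3).1
      omega
  have hn := L.add_n hp
  have hn1 := h.n
  have sL := fun a : (σ.L w v).n ≤ 0 => sub _ (oL a) rL a x ρL pL
    ((h3.and h5).mono fun i hi => ⟨hi.1.1, hi.2.1⟩)
  have sR := fun a : 0 ≤ (σ.L w v).n => sub _ (oR a) rR (by omega) z ρR pR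
    ((h3.and h5).mono fun i hi => ⟨hi.1.2, hi.2.2⟩)
  by_cases a : (σ.L w v).n < 0
  · rcases sL a.le with ⟨x₀, a1, -⟩ | a1
    · exact .inl ⟨_, oL a.le, rL, a, x₀, a1⟩
    · exact .inl a1
  push Not at a
  rcases sR a with ⟨z₀, a1, a2⟩ | a1
  swap
  · exact .inl a1
  by_cases a' : (σ.R w v).n < 0
  · exact .inl ⟨_, oR a, rR, a', z₀, a1⟩
  have a3 : (σ.L w v).n = 0 := by omega
  rcases sL a3.le with ⟨x₀, a4, a5⟩ | a4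
  swap
  · exact .inl a4
  exact .inr ⟨w, v, hv, oL a3.le, oR a, a3, by omega, x₀, z₀, a4, a1,
    ((L.deg _ _ _ _ _ _ _ _ _ _ _ _).mk' _ _ _ _ _ _ _ hp ι 𝒰 q y' x z δ τ ρL ρR x₀ z₀
      (hP'.eq.mono fun i hi => hi.2.2) pL pR ha a5 a2).congr (L.ax' h.ok).2 he⟩

omit L H U in
theorem deg_iff {A} {σ : W.Cl} {G} (h : σ.Ok Γ G rank) {w : W.Wl σ.f} {v} {ι : Type}
    {𝒰 : Ultrafilter ι} {u x y} :
    (W.flo Γ A 𝒦 rank).Deg σ (W.p w).wl (σ.L w v, σ.R w v) 𝒰 u x y ↔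
      (W.p w).Deg (σ := σ.cel) (σL := (σ.L w v).cel) (σR := (σ.R w v).cel) 𝒰 (fun i => (u i).2)
        x.2 y.2 := by
  refine ⟨?_, fun h1 => ⟨w, v, x, y, rfl, rfl, h1⟩⟩
  rintro ⟨w', v', x', y', h1, h2, h3⟩
  obtain rfl := h.inj _ _ h1
  have h4 : W.bl w' σ.β v = W.bl w' σ.β v' := congrArg (fun p => p.1.1.β) h2
  obtain rfl : v = v' := by rw [← h.mid w' v, h4, h.mid]
  cases h2
  exact h3

omit L H U in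
theorem mem_sp {A} {σ : W.Cl} {a p} : p ∈ (W.flo Γ A 𝒦 rank).sp σ a ↔ (p.1 ∈ 𝒦 ∧ p.2 ∈ 𝒦) ∧
    p.1.n = 0 ∧ p.2.n = 0 ∧ ∃ w v, (W.p w).wl = a ∧ σ.Lv Γ w v ∧ p = (σ.L w v, σ.R w v) := by
  simp only [Wld.flo, Finset.mem_filter, Finset.mem_product]

omit U in
/-- regular solutions of index zero lie in the interior -/
theorem inner {A} {σ : W.Cl} (hσ : σ ∈ 𝒦) (hn : σ.n = 0) {r q} (hr : rank σ < r)
    (hq : (W.flo Γ A 𝒦 rank).G r q) {x} (hx : x ∈ W.gx.M σ q) : ∀ᶠ t in 𝓝 x.2.1.1, σ.Dom t := by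
  refine (eventually_all_finset _).2 fun b hb => ?_
  have h := L.gx_ax H hσ A
  have h1 : 0 < W.g σ.f b x.2.1.1 := by
    refine (((L.mem_M (H σ hσ)).1 hx).2 b hb).lt_of_ne fun e => ?_
    obtain ⟨y, hy, -⟩ := h.inc_surj b hb q hq.1 x hx ((L.pb_eq (H σ hσ).ok x b).trans e.symm)
    obtain ⟨h2, h3, -⟩ := (H σ hσ).fc b hb
    have h4 : (σ.fc b).n < 0 := by rw [(L.fac' H hσ hb).1]; omega
    exact ((L.gx_ax H h2 A).empty hq.1 h4 (hq.2 _ h2 (h3.trans hr))).subset hy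
  exact ((W.g σ.f b).continuous.continuousAt.eventually (lt_mem_nhds h1)).mono fun _ h => h.le

theorem flo_ax {A} (hA : St.IsOp A) (hs : ∀ q, A q → O q ∧ ∀ σ ∈ 𝒦, σ.cel.Sm η q) :
    (W.flo Γ A 𝒦 rank).Ax := by
  have gen : ∀ ε, ∃ g : (d.e ε).Gen, g.OK := fun ε => ⟨_, Γ.ok ε⟩
  have D := fun (σ : W.Cl) (w : W.Wl σ.f) (v : (d.e (W.p w).ε).YC) => L.deg (W.st σ.a).X
    (W.st (W.aL w)).X (W.st (W.aR w)).X (W.st σ.a).nc (W.st σ.a).nr (W.st (W.aL w)).nc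
    (W.st (W.aL w)).nr (W.st (W.aR w)).nc (W.st (W.aR w)).nr (W.I σ.f) (W.I (W.fL w)) (W.I (W.fR w))
  have uq : ∀ σ ∈ 𝒦, ∀ w v v', σ.Lv Γ w v → σ.Lv Γ w v' → (σ.L w v ∈ 𝒦 ∧ σ.R w v ∈ 𝒦) →
      (σ.L w v' ∈ 𝒦 ∧ σ.R w v' ∈ 𝒦) → ∀ (𝒰 : Ultrafilter ℝ) u q x y x' y',
      x ∈ W.gx.M (σ.L w v) q → y ∈ W.gx.M (σ.R w v) q → x' ∈ W.gx.M (σ.L w v') q →
      y' ∈ W.gx.M (σ.R w v') q →
      (W.flo Γ A 𝒦 rank).Deg σ (W.p w).wl (σ.L w v, σ.R w v) 𝒰 u x y →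
      (W.flo Γ A 𝒦 rank).Deg σ (W.p w).wl (σ.L w v', σ.R w v') 𝒰 u x' y' →
      v = v' ∧ x.2.1.1 = x'.2.1.1 ∧ y.2.1.1 = y'.2.1.1 ∧
        ((σ.L w v).cel.P x.2.1.1).Eqv x.2.1.2 x'.2.1.2 ∧
        ((σ.R w v).cel.P y.2.1.1).Eqv y.2.1.2 y'.2.1.2 := by
    intro σ hσ w v v' hv hv' k k' 𝒰 u q x y x' y' h1 h2 h3 h4 h5 h6
    have h := H σ hσ
    have := (D σ w v).uniq _ _ _ _ _ _ _ _ (Γ.rs _) (gen _) (fun e => (h.fin w e).2.2) _ _ _ _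
      (h.spl w v hv).1 (h.spl w v' hv').1 ((h.mid w v).symm ▸ hv.V :) ((h.mid w v').symm ▸ hv'.V :)
      ℝ 𝒰 _ x.2 y.2 x'.2 y'.2 q ((L.mem_M (H _ k.1)).1 h1).1 ((L.mem_M (H _ k.2)).1 h2).1
      ((L.mem_M (H _ k'.1)).1 h3).1 ((L.mem_M (H _ k'.2)).1 h4).1 ((deg_iff h).1 h5) ((deg_iff h).1 h6)
    exact ⟨(h.mid w v).symm.trans (this.1.trans (h.mid w v')), this.2⟩
  have gl := fun σ (hσ : σ ∈ 𝒦) w v (hv : σ.Lv Γ w v) (k : σ.L w v ∈ 𝒦 ∧ σ.R w v ∈ 𝒦)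
    (h1 : (σ.L w v).n = 0) (h2 : (σ.R w v).n = 0) q x y (hx : (W.flo Γ A 𝒦 rank).RS q (σ.L w v) x)
    (hy : (W.flo Γ A 𝒦 rank).RS q (σ.R w v) y) =>
    L.gl _ _ _ _ _ _ _ _ _ _ _ _ _ _ _ _ _ _ _ gen ((H σ hσ).spl w v hv).1 (h1 ▸ L.ind (H _ k.1).ok)
      (h2 ▸ L.ind (H _ k.2).ok) (by
        have := L.ind (H σ hσ).ok
        rwa [L.add_n ((H σ hσ).spl w v hv).1, h1, h2] at this) 7 le_rfl q x.2 y.2
      ((L.mem_M (H _ k.1)).1 hx.1).1 ((L.mem_M (H _ k.2)).1 hy.1).1 hx.2 hy.2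
  refine ⟨𝒦.finite_toSet, hA, fun σ hσ => L.gx_ax H hσ A,
    fun σ hσ b hb => ⟨((H σ hσ).fc b hb).1, ((H σ hσ).fc b hb).2.1.le⟩, fun σ hσ a _ p hp => ?_,
    fun σ hσ q hq x hx => ?_, fun σ hσ q₀ h0 ι 𝒰 q u hq hu => ?_,
    fun σ hσ a _ p hp ι 𝒰 u x y h1 => ?_, fun σ hσ a _ p hp ι 𝒰 u x y h1 a' ha' hne => ?_,
    fun σ hσ a _ p hp 𝒰 u u' x y h1 h2 => ?_, fun σ hσ a _ p hp 𝒰 u q x y x' y' _ _ _ h1 h2 h3 => ?_,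
    fun σ hσ a _ p hp p' hp' 𝒰 u q x y x' y' _ _ h1 h2 h3 h4 h5 h6 => ?_,
    fun σ hσ a _ p hp 𝒰 u q x y x' y' _ _ h1 h2 h3 h4 h5 h6 => ?_,
    fun σ hσ a _ p hp q₀ _ x y hx hy ι 𝒰 q u hq hu h1 => ?_,
    fun σ hσ a _ p hp q hq x y hx hy 𝒰 h𝒰 => ?_,
    fun σ hσ a _ p hp q _ x y hx hy 𝒰 h𝒰 u u' h1 h2 h3 h4 => ?_⟩
  all_goals have h := H σ hσ
  all_goals try obtain ⟨k, n1, n2, w, v, rfl, hv, rfl⟩ := mem_sp.1 hp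
  · obtain ⟨h1, h2, h3, -⟩ := h.spl w v hv
    have := L.add_n h1
    exact ⟨show σ.n = 1 by rw [this, n1, n2]; rfl, ⟨k.1, h2, n1⟩, k.2, h3, n2⟩
  · have h1 := (L.mem_M h).1 hx
    exact (U.an σ hσ).dens q (hs q hq).1 x.2 h1.1 h1.2
  · have h2 : ∀ᶠ i in (𝒰 : Filter ι), σ.cel.Sol (q i) (u i).2 ∧ σ.Dom (u i).2.1.1 :=
      hu.mono fun i hi => (L.mem_M h).1 hi.2
    rcases L.cmp H U hq (hs _ h0).1 (hu.mono fun i hi => (hs _ hi.1).2) _ σ hσ rfl (fun i => (u i).2)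
      (fun _ _ _ => none) C (lt_add_one C) η₀ (half_lt_self U.pos)
      ⟨fun _ => .of_forall (by simp), h2.mono fun i hi =>
        ⟨fun x _ => hi.1.1.2.eq x trivial, hi.1.1.2.l, hi.1.2⟩, fun _ _ _ _ => .of_forall (by simp)⟩
      ((hu.and h2).mono fun i hi =>
        ⟨(U.an σ hσ).bnd _ (hs _ hi.1.1).1 _ hi.2.1 hi.2.2, hi.2.2⟩) with ⟨y₀, h3, h4⟩ | ⟨τ, h3, h4, h5, x, h6⟩ |
      ⟨w, v, hv, k1, k2, n1, n2, x, z, h3, h4, h5⟩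
    · refine .inl ⟨⟨(), y₀⟩, (L.mem_M h).2 h3, σ.Q.tendsto_near.2 fun O hO => ?_⟩
      exact ((L.rep _ _ _ _ _ σ.cel h.ok 7 le_rfl).2.2.2 ι _ _ _ h4 O hO).mono
        fun i ⟨y', a1, a2⟩ => ⟨y', a1, (Cel.eqv_iff (L.ax' h.ok).2).2 a2⟩
    · exact .inr (.inl ⟨τ, h3, h4, h5, ⟨(), x⟩, (L.mem_M (H τ h3)).2 h6⟩)
    · exact .inr (.inr ⟨_, mem_wa.2 ⟨w, rfl⟩, _, mem_sp.2 ⟨⟨k1, k2⟩, n1, n2, w, v, rfl, hv, rfl⟩,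
        ⟨(), x⟩, (L.mem_M (H _ k1)).2 h3, ⟨(), z⟩, (L.mem_M (H _ k2)).2 h4, (deg_iff h).2 h5⟩)
  · exact ((D σ w v).wall _ _ _ _ _ _ _ gen (h.spl w v hv).1 ι _ _ _ _ ((deg_iff h).1 h1)).1.congr
      fun i => (L.pa_eq h _ w).symm
  · obtain ⟨w', rfl⟩ := mem_wa.1 ha'
    rcases h.cen with e | ⟨_, -, -, e⟩
    · obtain ⟨c, h2, h3⟩ := ((D σ w v).wall _ _ _ _ _ _ _ gen (h.spl w v hv).1 ι _ _ _ _
        ((deg_iff h).1 h1)).2 _ hne e (h.inf w')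
      exact ⟨c, h2, h3.mono fun i hi => (L.pa_eq h _ w').trans_le hi⟩
    · exact absurd ((e w').trans (e w).symm) hne
  · have he := (L.ax' h.ok).2
    exact (deg_iff h).2 (((deg_iff h).1 h1).congr he
      (h2.mono fun i hi => he.symm ((Cel.eqv_iff he).1 hi.2)))
  · exact (deg_iff h).2 ((D σ w v).eqv _ _ _ _ _ _ _ (h.spl w v hv).1 ℝ _ _ _ _ _ _
      ((Cel.eqv_iff (L.ax' (H _ k.1).ok).2).1 h1) ((Cel.eqv_iff (L.ax' (H _ k.2).ok).2).1 h2)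
      ((deg_iff h).1 h3))
  · obtain ⟨k', -, -, w', v', e, hv', rfl⟩ := mem_sp.1 hp'
    obtain rfl := h.inj _ _ e
    rw [(uq σ hσ _ v v' hv hv' k k' 𝒰 u q x y x' y' h1 h2 h3 h4 h5 h6).1]
  · obtain ⟨-, a1, a2, a3, a4⟩ := uq σ hσ w v v hv hv k k 𝒰 u q x y x' y' h1 h2 h3 h4 h5 h6
    exact ⟨(Cel.eqv_iff (L.ax' (H _ k.1).ok).2).2 ⟨a1, a3⟩,
      (Cel.eqv_iff (L.ax' (H _ k.2).ok).2).2 ⟨a2, a4⟩⟩
  · exact (gl σ hσ w v hv k n1 n2 q₀ x y hx hy).1 ι 𝒰 q _ hq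
      (hu.mono fun i hi => ((L.mem_M h).1 hi.2).1) ((deg_iff h).1 h1)
  · obtain ⟨u, h1, h2⟩ := ((gl σ hσ w v hv k n1 n2 q x y hx hy).2 𝒰 h𝒰).1
    obtain ⟨-, r1, r2, l, hl⟩ := h.spl w v hv
    refine ⟨fun τ => ⟨(), u τ⟩, ?_, (deg_iff h).2 h2⟩
    obtain ⟨y', tL, tR, δ, a1, a2, a3, a4, -⟩ := h2
    filter_upwards [h1, a1, a2.eventually_ge_atTop l, a3.eventually (L.inner H k.1 n1 r1 hq hx.1),
      a4.eventually (L.inner H k.2 n2 r2 hq hy.1)] with τ b1 b2 b3 b4 b5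
    refine ⟨(L.mem_M h).2 ⟨b1.1, ?_⟩, (L.pa_eq h _ w).trans b1.2⟩
    have := (hl _ b2.2.2.1 b3 _ _).2 ⟨b4, b5⟩
    rwa [← b2.2.2.2, ← b2.1.1] at this
  · exact (((gl σ hσ w v hv k n1 n2 q x y hx hy).2 𝒰 h𝒰).2 _ _
      (h1.mono fun i hi => ⟨((L.mem_M h).1 hi.1).1, (L.pa_eq h _ w).symm.trans hi.2⟩)
      (h2.mono fun i hi => ⟨((L.mem_M h).1 hi.1).1, (L.pa_eq h _ w).symm.trans hi.2⟩)
      ((deg_iff h).1 h3) ((deg_iff h).1 h4)).mono fun i hi => (Cel.eqv_iff (L.ax' h.ok).2).2 hi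

omit U in
/-- **Stokes** -/
theorem stokes {A} (hA : (W.flo Γ A 𝒦 rank).Ax) {q} (hq : (W.flo Γ A 𝒦 rank).GG q) {σ : W.Cl}
    (hσ : σ ∈ 𝒦) (hn : σ.n = 1) {r} (hr : σ.Chl Γ (· ∈ 𝒦) r)
    (D : ∀ w : W.Wl σ.f, Finset (d.e (W.p w).ε).YC) (h1 : ∀ w, ∀ v ∈ D w, σ.Lv Γ w v ∧ |hol v| ≤ r)
    (h2 : ∀ w v, σ.Lv Γ w v → v ∉ D w → (σ.L w v).z0 q * (σ.R w v).z0 q = 0) :
    Even (∑ b ∈ W.wb σ.f, (σ.fc b).z0 q + ∑ w, ∑ v ∈ D w, (σ.L w v).z0 q * (σ.R w v).z0 q) := by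
  classical
  have h := H σ hσ
  convert hA.stokes hq hσ hn using 2
  · refine Finset.sum_congr rfl fun b hb => ?_
    rw [Wld.Cl.z0, if_pos (by rw [(L.fac' H hσ hb).1, hn]; rfl)]
    exact (L.z_eq H (h.fc b hb).1 q).symm
  refine Eq.trans (Finset.sum_congr rfl fun w _ => ?_) (Finset.sum_image
    (g := fun w : W.Wl σ.f => (W.p w).wl) fun w _ w' _ => h.inj w w').symm
  have e : ∀ p ∈ (W.flo Γ A 𝒦 rank).sp σ (W.p w).wl, (W.flo Γ A 𝒦 rank).z q p.1 *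
      (W.flo Γ A 𝒦 rank).z q p.2 = p.1.z0 q * p.2.z0 q := fun p hp => by
    obtain ⟨k, n1, n2, -⟩ := mem_sp.1 hp
    rw [Wld.Cl.z0, Wld.Cl.z0, if_pos n1, if_pos n2, ← L.z_eq H k.1, ← L.z_eq H k.2]
    rfl
  rw [Finset.sum_congr rfl e]
  refine Finset.sum_bij_ne_zero (fun v _ _ => (σ.L w v, σ.R w v)) (fun v hv h0 => ?_)
    (fun v _ _ v' _ _ e => ?_) (fun p hp h0 => ?_) fun _ _ _ => rfl
  · have n1 : (σ.L w v).n = 0 := by_contra fun c => h0 (by rw [Wld.Cl.z0, if_neg c, zero_mul])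
    have n2 : (σ.R w v).n = 0 :=
      by_contra fun c => h0 (by rw [mul_comm, Wld.Cl.z0, if_neg c, zero_mul])
    have := hr w v (h1 w v hv).1 (h1 w v hv).2
    exact mem_sp.2 ⟨⟨this.1 n1.le, this.2 n1.ge⟩, n1, n2, w, v, rfl, (h1 w v hv).1, rfl⟩
  · have h4 : W.bl w σ.β v = W.bl w σ.β v' := congrArg (fun p => p.1.β) e
    rw [← h.mid w v, h4, h.mid]
  · obtain ⟨-, -, -, w', v, e, hv, rfl⟩ := mem_sp.1 hp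
    obtain rfl := h.inj _ _ e
    exact ⟨v, by_contra fun c => h0 (h2 _ v hv c), h0, rfl⟩

end Lvs

theorem isOp_sz {W : Type} (s : W → ℝ) (η : ℝ) :
    St.IsOp fun q : W →₀ ℝ => (q.sum fun w r => |r| * s w) < η := by
  classical
  rintro q₀ h ι l q ⟨J, h1, h2⟩
  have e : ∀ p : W →₀ ℝ, (∀ w, w ∉ J → p w = q₀ w) →
      (p.sum fun w r => |r| * s w) = ∑ w ∈ J ∪ q₀.support, |p w| * s w := fun p hp =>
    Finsupp.sum_of_support_subset _ (fun w hw => by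
      by_contra hn
      rw [Finset.mem_union, not_or] at hn
      exact Finsupp.mem_support_iff.1 hw ((hp w hn.1).trans (Finsupp.notMem_support_iff.1 hn.2)))
      _ (by simp)
  rw [e q₀ fun _ _ => rfl] at h
  exact ((tendsto_finsetSum _ fun w _ => (h2 w).abs.mul_const (s w)).eventually
    (gt_mem_nhds h)).mono fun i hi => (e _ (h1 i)).trans_lt hi

theorem fin_desc {α : Type} {G : α → Prop} {ch : α → α → Prop} {rank : α → ℕ}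
    (h : ∀ a, G a → {b | ch a b}.Finite ∧ ∀ b, ch a b → G b ∧ rank b < rank a) (r : ℕ) :
    ∀ a, G a → rank a = r → {b | Relation.ReflTransGen ch a b}.Finite := by
  induction r using Nat.strong_induction_on with
  | _ r ih =>
  intro a ha hr
  refine (((h a ha).1.biUnion fun b hb => ih _ (hr ▸ ((h a ha).2 b hb).2) b ((h a ha).2 b hb).1 rfl
    ).insert a).subset fun c hc => ?_
  rcases hc.cases_head with rfl | ⟨b, h1, h2⟩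
  · exact mem_insert _ _
  · exact mem_insert_of_mem _ (mem_biUnion h1 h2)

/-- **SW-WLD** -/
theorem Lvs.wld (L : Lvs d Sl) : WldStmt d Sl := by
  classical
  intro W Γ G rank C η₀ r₀ O e0 hO O0 H₀ 𝒯 hT hG
  obtain ⟨η₁, a1, hB⟩ := L.brk d Sl Γ (C + 1) (η₀ / 2) (half_pos e0)
  obtain ⟨η₂, a2, hC⟩ := L.cut d Sl Γ (C + 1)
  have hS : ∀ σ, G σ → ∃ r, r₀ ≤ r ∧ σ.Stp Γ (C + 1) (η₀ / 2) η₁ r := fun σ h =>
    ((H₀ σ h).1.stp (hB _ _ _ _)).elim fun r hr => ⟨max r₀ r, le_max_left _ _,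
      fun ι 𝒰 q y ρ q₀ c1 c2 c3 c4 => (hr ι 𝒰 q y ρ q₀ c1 c2 c3 c4).imp_right
        fun ⟨w, v, y', τ, c5, c6, c7⟩ => ⟨w, v, y', τ, c5, le_max_of_le_right c6, c7⟩⟩
  choose! hb hS using hS
  let ch : W.Cl → W.Cl → Prop := fun σ τ => (∃ b ∈ W.wb σ.f, τ = σ.fc b) ∨ ∃ w v, σ.Lv Γ w v ∧
    |hol v| ≤ hb σ ∧ ((σ.L w v).n ≤ 0 ∧ τ = σ.L w v ∨ 0 ≤ (σ.L w v).n ∧ τ = σ.R w v)
  have hch : ∀ σ, G σ → {τ | ch σ τ}.Finite ∧ ∀ τ, ch σ τ → G τ ∧ rank τ < rank σ := fun σ h => by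
    obtain ⟨h1, h2, -⟩ := H₀ σ h
    constructor
    · refine (((W.wb σ.f).finite_toSet.image σ.fc).union (finite_iUnion fun w : W.Wl σ.f =>
        (((Γ.rs _).fin (hb σ)).image (σ.L w)).union (((Γ.rs _).fin (hb σ)).image (σ.R w)))).subset ?_
      rintro τ (⟨b, h3, rfl⟩ | ⟨w, v, h3, h4, ⟨-, rfl⟩ | ⟨-, rfl⟩⟩)
      · exact .inl ⟨b, h3, rfl⟩
      · exact .inr (mem_iUnion.2 ⟨w, .inl ⟨v, ⟨h3.V, h4⟩, rfl⟩⟩)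
      · exact .inr (mem_iUnion.2 ⟨w, .inr ⟨v, ⟨h3.V, h4⟩, rfl⟩⟩)
    · rintro τ (⟨b, h3, rfl⟩ | ⟨w, v, h3, h4, ⟨h5, rfl⟩ | ⟨h5, rfl⟩⟩)
      · exact ⟨(h1.fc b h3).1, (h1.fc b h3).2.1⟩
      · exact ⟨(h2 _ w v h3 h4).1 h5, (h1.spl w v h3).2.1⟩
      · exact ⟨(h2 _ w v h3 h4).2 h5, (h1.spl w v h3).2.2.1⟩
  obtain ⟨𝒦, hK⟩ := (hT.biUnion fun σ h => fin_desc hch _ σ (hG σ h) rfl).exists_finset
  simp only [mem_iUnion, mem_ofPred_eq, exists_prop] at hK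
  have k1 : ∀ σ ∈ 𝒦, G σ := fun σ h => by
    obtain ⟨τ, h1, h2⟩ := (hK σ).1 h
    clear h
    induction h2 with
    | refl => exact hG _ h1
    | tail _ h3 ih => exact ((hch _ ih).2 _ h3).1
  have k2 : ∀ σ ∈ 𝒦, ∀ τ, ch σ τ → τ ∈ 𝒦 := fun σ h τ h' =>
    ((hK σ).1 h).elim fun a ha => (hK τ).2 ⟨a, ha.1, ha.2.tail h'⟩
  have H : ∀ σ ∈ 𝒦, σ.Ok Γ (· ∈ 𝒦) rank := fun σ h =>
    { (H₀ σ (k1 σ h)).1 with
      fc := fun b hb => ⟨k2 σ h _ (.inl ⟨b, hb, rfl⟩), ((H₀ σ (k1 σ h)).1.fc b hb).2⟩ }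
  have k3 : ∀ σ ∈ 𝒦, σ.Chl Γ (· ∈ 𝒦) (hb σ) := fun σ h w v c1 c2 =>
    ⟨fun c => k2 σ h _ (.inr ⟨w, v, c1, c2, .inl ⟨c, rfl⟩⟩),
      fun c => k2 σ h _ (.inr ⟨w, v, c1, c2, .inr ⟨c, rfl⟩⟩)⟩
  have k4 : ∀ σ ∈ 𝒦, σ.Chl Γ (· ∈ 𝒦) r₀ := fun σ h w v c1 c2 =>
    k3 σ h w v c1 (c2.trans (hS σ (k1 σ h)).1)
  obtain ⟨η', b0, b1, b2⟩ : ∃ η' > 0, η' ≤ η₁ ∧ η' ≤ η₂ :=
    ⟨min η₁ η₂, by positivity, min_le_left _ _, min_le_right _ _⟩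
  have U : Uni Γ 𝒦 C η₀ η' O :=
    ⟨e0, fun σ h => ⟨hb σ, fun ι 𝒰 q y ρ q₀ c1 c2 c3 => (hS σ (k1 σ h)).2 ι 𝒰 q y ρ q₀ c1 c2
      (c3.mono fun _ hi => ⟨hi.1.mono b1, hi.2⟩), k3 σ h⟩,
      fun _ _ _ _ _ _ _ _ _ _ _ _ _ _ _ s sL sR σ σL σR p hp ι 𝒰 q y ρ
      q₀ τ C₀ η₀ c1 c2 c3 c4 => hC _ _ _ _ _ _ _ _ _ _ _ _ s sL sR σ σL σR p hp ι 𝒰 q y ρ q₀ τ C₀ η₀ c1 c2
        c3 (c4.mono fun _ hi => ⟨hi.1.mono b2, hi.2⟩), fun σ h => (H₀ σ (k1 σ h)).2.2⟩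
  choose! r hr using fun w σ hσ => (H σ hσ).sz w
  have hs : ∀ q : d.W →₀ ℝ, (q.sum fun w c => |c| * ∑ σ ∈ 𝒦, r w σ) < η' →
      ∀ σ ∈ 𝒦, σ.cel.Sm η' q := fun q hq σ hσ t ht => by
    refine ⟨_, hq.le, fun w _ => ⟨Finset.sum_nonneg fun τ hτ => (hr w τ hτ).1, ?_⟩⟩
    have c0 := Finset.single_le_sum (fun τ hτ => (hr w τ hτ).1) hσ
    obtain ⟨c1, c2, c3, c4⟩ := (hr w σ hσ).2 t ht
    exact ⟨Sob92.CB_mono c1 c0, c2.trans c0, fun j => (c3 j).trans c0,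
      fun i T hT j hj x => Sob92.CB_mono (c4 i T hT j hj x) c0⟩
  have hA := L.flo_ax H U (hO.and (isOp_sz _ _)) fun q hq => ⟨hq.1, hs q hq.2⟩
  exact ⟨𝒦, _, fun σ h => (hK σ).2 ⟨σ, h, .refl⟩, fun σ h => ⟨k1 σ h, k4 σ h⟩,
    ⟨O0, by simpa using b0⟩, hA, fun q hq => hq.1, fun σ hσ q => L.z_eq H hσ q,
    fun q hq σ hσ hn => L.stokes H hA hq hσ hn (k4 σ hσ)⟩

end Crest.Agent.X212.Sw
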