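import Crest.Agent.X212.Sw.Cube

/-!
# Row 212, layer AN-S (helper91): the walls at the ends
-/

set_option autoImplicit false
set_option linter.unusedSectionVars false
noncomputable section
open scoped Manifold ContDiff Topology InnerProductSpace
open MeasureTheory Set Function Filter

namespace Crest.Agent.X212.Sw
open An Cyf70 Prm93 En3
open Nd18 (Jv)
open M (Mf)

variable {κ lam ν : Type} [Fintype κ] [Fintype lam] [Fintype ν] [DecidableEq ν]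
  {X X' X'' : Mf 4} {nc nc' nc'' : ℕ}

theorem Bg.Lit.refl (b : Bg X.I X.M κ lam ν nc) : b.Lit b (.refl _) :=
  ⟨⟨contMDiffOn_id, contMDiffOn_id, fun a x _ => congrArg (· (b.F.e a x)) mfderiv_id,
      by simp⟩,
    fun _ _ _ _ => rfl, fun _ _ _ _ _ _ => rfl, rfl, rfl, fun _ _ => rfl, fun _ _ _ => rfl,
    fun _ _ _ => rfl, fun _ _ => rfl, fun _ _ => rfl⟩

theorem Bg.Lit.trans {b : Bg X.I X.M κ lam ν nc} {b' : Bg X'.I X'.M κ lam ν nc'}
    {b'' : Bg X''.I X''.M κ lam ν nc''} {φ ψ} (h : b.Lit b' φ) (h' : b'.Lit b'' ψ)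
    (h1 : φ.source = univ) (h2 : φ.target = univ) : b.Lit b'' (φ.trans ψ) := by
  have m : Measurable φ := (continuousOn_univ.1 (h1 ▸ φ.continuousOn)).measurable
  refine ⟨⟨h'.iso.sm.comp (h.iso.sm.mono inter_subset_left) fun x hx => hx.2,
    h.iso.sm'.comp (h'.iso.sm'.mono inter_subset_left) fun x hx => hx.2, fun a x hx => ?_, ?_⟩,
    fun i j x hx => (h'.P i j _ hx.2).trans (h.P i j x hx.1),
    fun i j k l x hx => (h'.o i j k l _ hx.2).trans (h.o i j k l x hx.1), h'.J.trans h.J,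
    h'.w.trans h.w, fun x hx => (h'.p _ hx.2).trans (h.p x hx.1),
    fun i x hx => (h'.ρ i _ hx.2).trans (h.ρ i x hx.1),
    fun i x hx => (h'.A i _ hx.2).trans (h.A i x hx.1),
    fun x hx => (h'.ms _ hx.2).trans (h.ms x hx.1), fun x hx => (h'.om _ hx.2).trans (h.om x hx.1)⟩
  · have a1 := (h.iso.sm.contMDiffAt (φ.open_source.mem_nhds hx.1)).mdifferentiableAt (by simp)
    have a2 := (h'.iso.sm.contMDiffAt (ψ.open_source.mem_nhds (show φ x ∈ _ from hx.2))).mdifferentiableAt (by simp)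
    rw [OpenPartialHomeomorph.coe_trans, mfderiv_comp x a2 a1]
    exact (congrArg _ (h.iso.e a x hx.1)).trans (h'.iso.e a _ hx.2)
  · have a1 := h.iso.μ
    rw [h1, h2, Measure.restrict_univ, Measure.restrict_univ] at a1
    have a2 : AEMeasurable ψ (b'.F.μ.restrict ψ.source) :=
      ψ.continuousOn.aemeasurable ψ.open_source.measurableSet
    have a3 : (b.F.μ.restrict (φ ⁻¹' ψ.source)).map φ = b'.F.μ.restrict ψ.source := by
      rw [← a1, Measure.restrict_map m ψ.open_source.measurableSet]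
    rw [OpenPartialHomeomorph.trans_source, OpenPartialHomeomorph.trans_target, h1, h2, univ_inter,
      preimage_univ, inter_univ, ← h'.iso.μ, ← a3, OpenPartialHomeomorph.coe_trans,
      AEMeasurable.map_map_of_aemeasurable (a3 ▸ a2) m.aemeasurable]

section nk
variable {e : En3 κ lam ν} {b : Bg X.I X.M κ lam ν nc} (K : Nk e b) (δ : ℝ)

theorem Nk.sh_lit : Bg.Lit (XL := e.Z) e.cyl b (K.sh δ) :=
  (Cut71.sH_lit δ).trans (Cut71.nk_lit K) rfl rfl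

theorem Nk.sh_src {x : e.Y.M × ℝ} : x ∈ (K.sh δ).source ↔ x.2 + δ ∈ K.J := by
  simp [Nk.sh, K.src, Cut71.sH_apply, Nd18.Nk.J]

theorem Nk.sh_tgt : (K.sh δ).target = K.ψ.target := by simp [Nk.sh]

theorem Nk.sh_ng {b' : Bg X.I X.M κ lam ν nc'} {K' : Nk e b'} (h : K'.ng = K.ng) :
    K'.sh δ = K.sh δ := by
  rw [Nk.sh, show K'.ψ = K.ψ from congrArg (·.2.2.1) h, Nk.sh]

end nk

variable {d : Dt κ lam ν} [Fintype d.𝓔] {Sl : Type} [Fintype Sl]

theorem half_refl (P : PcS d Sl X nc) {i : d.𝓔 × Sl} {b : Bool} (h : P.Inf i b) (r : ℝ) {O}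
    (hO : ∀ j, O j ↔ j ≠ i) (J) : Half P P i.1 i.2 i.2 b (.refl _) 0 r O Prod.snd id J := by
  obtain ⟨K, hK, h⟩ := h
  refine ⟨.refl _, ⟨K, hK, K, hK, h, by cases b <;> simp, by simp, by simp, fun _ _ _ _ => rfl⟩,
    fun j hj => ⟨(hO j).1 hj, (hO j).1 hj, ?_⟩, fun _ _ _ _ => id,
    fun j hj => .inr ⟨j, (hO j).2 hj, rfl⟩,
    fun _ => ⟨subset_univ _, fun _ => rfl, rfl, rfl, fun _ _ => rfl⟩⟩
  cases e : P.nk j with
  | none => exact .inl ⟨by simp [Pz.Off, e], by simp [Pz.Off, e]⟩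
  | some K => exact .inr ⟨K, rfl, K, rfl, rfl, rfl, subset_univ _, fun _ _ => rfl⟩

theorem cs_self {N : Type} (ty : N → d.𝓔) (i : N) : (d.cs ty i).nk i = some (d.e (ty i)).nk := by
  simp [Dt.cs]

theorem cs_ne {N : Type} (ty : N → d.𝓔) {i j : N} (h : j ≠ i) : (d.cs ty i).nk j = none := by
  simp [Dt.cs, h]

theorem half_cyl (P : PcS d Sl X nc) {i : d.𝓔 × Sl} (s₀ : Sl) {b : Bool} {K} (hK : K ∈ P.nk i)
    (h : K.Inf !b) (δ r : ℝ) {O} (hO : ∀ j, O j → j ≠ i ∧ j ≠ (i.1, s₀) ∧ P.Off j) (c) {J}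
    (h0 : ∀ w ∈ J, ∀ y t, M.pm b * t ≤ r → P.fo w (K.ψ (y, t + δ)) = 0) {T : Type} (t : T) :
    Half P ((d.cf Prod.fst (i.1, s₀) T).P t) i.1 i.2 s₀ b (K.sh δ) δ r O Prod.snd c J := by
  have off : ∀ j ≠ (i.1, s₀), ((d.cf Prod.fst (i.1, s₀) T).P t).Off j := fun j hj K hK =>
    absurd ((cs_ne Prod.fst hj).symm.trans hK) (by simp)
  have hJ : (d.e i.1).nk.J = univ := by simp [En3.nk, Nd18.Nk.J, Nd18.YD.nk, Jv]
  refine ⟨K.sh_lit δ, ⟨K, hK, _, cs_self Prod.fst (i.1, s₀), by cases b <;> rfl,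
    by cases b <;> exact h, ?_, fun _ _ _ _ => rfl, fun w hw x hx => h0 w hw _ _ ?_⟩,
    fun j hj => ⟨(hO j hj).1, (hO j hj).2.1, .inl ⟨(hO j hj).2.2, off j (hO j hj).2.1⟩⟩,
    fun _ _ _ _ => id, fun j hj => .inl (off j hj), fun j => j.elim0⟩
  · ext x
    rw [K.sh_src, hJ]
    exact ⟨fun hx ⟨y, hy, e⟩ => hy.2.2 (by obtain rfl : y = x := e; exact hx),
      fun hx => by_contra fun hn => hx ⟨x, ⟨trivial, trivial, hn⟩, rfl⟩⟩
  · exact not_lt.1 fun hn => hx ⟨x, ⟨trivial, hJ ▸ trivial, hn⟩, rfl⟩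

variable {T : Type} [NormedAddCommGroup T] [NormedSpace ℝ T] [FiniteDimensional ℝ T]
  {s : StS d Sl X}

theorem up_self (β : BC d Sl) (i b v) : β.up i b v i b = v := by simp [BC.up]

theorem up_ne (β : BC d Sl) {i b} (v) {j b'} (h : j ≠ i ∨ b' ≠ b) : β.up i b v j b' = β j b' := by
  by_cases e : j = i
  · subst e
    simp [BC.up, h.resolve_left (by simp)]
  · simp [BC.up, e]

theorem cb_false (s₀ : Sl) (ε x y) : cb (d := d) s₀ ε x y (ε, s₀) false = x := by simp [cb]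

theorem cb_true (s₀ : Sl) (ε x y) : cb (d := d) s₀ ε x y (ε, s₀) true = y := by simp [cb]

theorem cc_cen (i : d.𝓔 × Sl) (β) : (d.cc Prod.fst i (Empty → ℝ) 1 β).Cen i :=
  ⟨rfl, rfl, inferInstance, fun _ => cs_ne _, fun _ _ => rfl, ⟨_, cs_self _ _, rfl, rfl⟩,
    fun _ _ _ => by simp only [Pz.mo, cs_self]; rfl⟩

theorem ok_up {σ : Cel s nc 0 T} (h : σ.OK) {i b v} (hv : Gd v) (R) :
    Cel.OK (⟨σ.toFam, BC.up σ.β i b v, R⟩ : Cel s nc 0 T) :=
  ⟨h.toOK, fun j b' hj => by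
    by_cases e : j = i ∧ b' = b
    · obtain ⟨rfl, rfl⟩ := e
      show Gd (BC.up σ.β j b' v j b')
      rwa [up_self]
    · show Gd (BC.up σ.β i b v j b')
      rw [up_ne σ.β v (not_and_or.1 e)]
      exact h.gd j b' hj, fun j => j.elim0⟩

/-- the terms vanish far out -/
theorem far_fo {σ : Fam s nc T} (h : σ.OK) {i K b} (hK : K ∈ s.nk i) (hb : K.Inf b)
    (J : Finset d.W) : ∃ l, ∀ t ∈ σ.Q, ∃ K' ∈ (σ.P t).nk i, K'.ng = K.ng ∧ K'.Inf b ∧
      ∀ w ∈ J, ∀ y τ, l ≤ M.pm b * τ → (σ.P t).fo w (K'.ψ (y, τ)) = 0 := by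
  choose r hr using h.cfo
  obtain ⟨l, hl⟩ := (J.finite_toSet.image r).bddAbove
  refine ⟨max l (|K.p.getD 0| + |K.q.getD 0|) + 1, fun t ht => ?_⟩
  obtain ⟨K', h1, h2⟩ := h.en t ht i K hK
  have e1 : K'.p = K.p := congrArg (·.1) h2
  have e2 : K'.q = K.q := congrArg (·.2.1) h2
  refine ⟨K', h1, h2, by simpa only [Nk.Inf, e1, e2] using hb, fun w hw y τ hτ =>
    hr w t ht _ fun hc => hc i b K hK hb ⟨(y, τ), ⟨trivial, ?_, ?_⟩,
      (congrArg (·.2.2.1 (y, τ)) h2).symm⟩⟩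
  · have a1 := le_max_right l (|K.p.getD 0| + |K.q.getD 0|)
    have a2 := abs_nonneg (K.p.getD 0)
    have a3 := abs_nonneg (K.q.getD 0)
    cases b
    · refine ⟨fun a ha => by simp [show K.p = none from hb] at ha, fun a ha => ?_⟩
      rw [show K.q = some a from ha, Option.getD_some] at a1 hτ
      simp only [M.pm] at hτ
      norm_num at hτ
      linarith [neg_abs_le a]
    · refine ⟨fun a ha => ?_, fun a ha => by simp [show K.q = none from hb] at ha⟩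
      rw [show K.p = some a from ha, Option.getD_some] at a1 hτ
      simp only [M.pm] at hτ
      norm_num at hτ
      linarith [le_abs_self a]
  · exact (hl ⟨w, hw, rfl⟩).trans_lt (by linarith [le_max_left l (|K.p.getD 0| + |K.q.getD 0|)])

theorem out_ok {σ : Cel s nc 0 T} (h : σ.OK) (s₀ : Sl) {i K} (hK : K ∈ s.nk i) (hb : K.Inf true)
    {v} (hv : Gd v) (hl : L (σ.β i true) < L v) (R)
    (hc : (d.cc Prod.fst (i.1, s₀) (Empty → ℝ) 1 (cb s₀ i.1 v (σ.β i true))).OK) :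
    (Spl.out s nc T s₀ i K).OK σ (⟨σ.toFam, BC.up σ.β i true v, R⟩ : Cel s nc 0 T)
      (d.cc Prod.fst (i.1, s₀) (Empty → ℝ) 1 (cb s₀ i.1 v (σ.β i true))) := by
  refine ⟨h, ok_up h hv R, hc, .out rfl rfl rfl (cc_cen _ _) rfl (fun _ _ _ => rfl) bijective_id
    (fun _ => id) fun _ _ _ _ => rfl, fun J => ?_, (up_self _ i _ v).trans (cb_false s₀ i.1 v _).symm,
    fun _ => up_ne _ _ (.inr (by simp)), fun _ => cb_true _ _ _ _, fun _ e => by simp [Spl.out] at e,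
    fun _ => hl.trans_eq (congrArg L (up_self _ _ _ _).symm), fun j b hj _ => (up_ne _ _ (.inl hj)).symm⟩
  obtain ⟨l, h1⟩ := far_fo h.toOK hK hb J
  refine ⟨2 * l, fun δ h2 h3 t ht t' _ => ?_⟩
  obtain ⟨K', h4, h5, h6, h7⟩ := h1 t ht
  have h2 : δ.1 = 0 := h2
  refine ⟨ht, univ_union _, fun K'' h8 => ?_, h2.symm ▸ half_refl (σ.P t) ⟨K', h4, h6⟩ _
    (fun _ => and_iff_left rfl) J, ?_⟩
  · obtain rfl : K' = K'' := Option.some.inj (h4.symm.trans h8)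
    exact (univ_inter _).trans ((congrArg (·.target) (K.sh_ng δ.2 h5).symm).trans (K'.sh_tgt _))
  · show Half _ _ _ _ _ _ (K.sh δ.2) _ _ _ _ _ _
    rw [← K.sh_ng _ h5]
    refine half_cyl (b := false) (σ.P t) s₀ h4 h6 _ _ (fun j hj => absurd hj.2 Bool.false_ne_true) _
      (fun w hw y τ hτ => h7 w hw _ _ ?_) t'
    simp only [M.pm] at hτ ⊢
    norm_num at hτ ⊢
    linarith

theorem inn_ok {σ : Cel s nc 0 T} (h : σ.OK) (s₀ : Sl) {i K} (hK : K ∈ s.nk i) (hb : K.Inf false)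
    {v} (hv : Gd v) (hl : L v < L (σ.β i false)) (R)
    (hc : (d.cc Prod.fst (i.1, s₀) (Empty → ℝ) 1 (cb s₀ i.1 (σ.β i false) v)).OK) :
    (Spl.inn s nc T s₀ i K).OK σ
      (d.cc Prod.fst (i.1, s₀) (Empty → ℝ) 1 (cb s₀ i.1 (σ.β i false) v))
      (⟨σ.toFam, BC.up σ.β i false v, R⟩ : Cel s nc 0 T) := by
  refine ⟨h, hc, ok_up h hv R, .inn rfl rfl rfl (cc_cen _ _) rfl (fun _ _ _ => rfl) bijective_id
    (fun _ => id) fun _ _ _ _ => rfl, fun J => ?_, (cb_true _ _ _ _).trans (up_self _ _ _ _).symm,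
    fun _ => cb_false _ _ _ _, fun _ => up_ne _ _ (.inr (by simp)),
    fun _ _ => (congrArg L (cb_true _ _ _ _)).trans_lt hl, fun e => by simp [Spl.inn] at e,
    fun j b hj _ => (up_ne _ _ (.inl hj)).symm⟩
  obtain ⟨l, h1⟩ := far_fo h.toOK hK hb J
  refine ⟨2 * l, fun δ h2 h3 t' _ t ht => ?_⟩
  obtain ⟨K', h4, h5, h6, h7⟩ := h1 t ht
  have h2 : δ.2 = 0 := h2
  refine ⟨ht, union_univ _, fun K'' h8 => ?_, ?_, ?_⟩
  · obtain rfl : K' = K'' := Option.some.inj (h4.symm.trans h8)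
    exact (inter_univ _).trans ((congrArg (·.target) (K.sh_ng δ.1 h5).symm).trans (K'.sh_tgt _))
  · show Half _ _ _ _ _ _ (K.sh δ.1) _ _ _ _ _ _
    rw [← K.sh_ng _ h5]
    refine half_cyl (b := true) (σ.P t) s₀ h4 h6 _ _ (fun j hj => absurd hj.2.symm Bool.false_ne_true) _
      (fun w hw y τ hτ => h7 w hw _ _ ?_) t'
    simp only [M.pm] at hτ ⊢
    norm_num at hτ ⊢
    linarith
  · generalize (δ.2 - δ.1) / 2 = r
    rw [h2]
    exact half_refl (σ.P t) ⟨K', h4, h6⟩ _ (fun _ => and_iff_left rfl) J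

theorem cyl_ok (s₀ : Sl) {ε : d.𝓔} {β} (h : (d.cc Prod.fst (ε, s₀) (Empty → ℝ) 1 β).OK) {v}
    (h1 : L (β (ε, s₀) true) < L v) (h2 : L v < L (β (ε, s₀) false))
    (hL : (d.cc Prod.fst (ε, s₀) (Empty → ℝ) 1 (cb s₀ ε (β (ε, s₀) false) v)).OK)
    (hR : (d.cc Prod.fst (ε, s₀) (Empty → ℝ) 1 (cb s₀ ε v (β (ε, s₀) true))).OK) :
    (Spl.cyl s₀ ε).OK (d.cc Prod.fst (ε, s₀) (Empty → ℝ) 1 β)
      (d.cc Prod.fst (ε, s₀) (Empty → ℝ) 1 (cb s₀ ε (β (ε, s₀) false) v))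
      (d.cc Prod.fst (ε, s₀) (Empty → ℝ) 1 (cb s₀ ε v (β (ε, s₀) true))) := by
  have e := cs_self (d := d) Prod.fst (ε, s₀)
  have n : ∀ j ≠ (ε, s₀), (d.cs Prod.fst (ε, s₀)).nk j = none := fun _ => cs_ne _
  have t : ∀ δ, ((d.e ε).nk.sh δ).target = univ := fun δ => (d.e ε).nk.sh_tgt δ
  refine ⟨h, hL, hR, .cyl rfl (cc_cen _ _) (cc_cen _ _) (cc_cen _ _) rfl, fun J => ⟨0,
    fun δ _ _ t₁ _ t₂ _ => ⟨trivial, eq_univ_of_univ_subset ((t _).ge.trans subset_union_left),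
      fun K hK => ?_, ?_, ?_⟩⟩, (cb_true _ _ _ _).trans (cb_false _ _ _ _).symm,
    fun _ => cb_false _ _ _ _, fun _ => cb_true _ _ _ _,
    fun _ _ => (congrArg L (cb_true _ _ _ _)).trans_lt h2,
    fun _ => h1.trans_eq (congrArg L (cb_true _ _ _ _).symm),
    fun j b hj ⟨K, hK, _⟩ => absurd ((n j hj).symm.trans hK) (by simp)⟩
  · obtain rfl : (d.e ε).nk = K := Option.some.inj (e.symm.trans hK)
    show ((d.e ε).nk.sh _).target ∩ ((d.e ε).nk.sh _).target = univ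
    rw [t, t, inter_self]
  · exact half_cyl (i := (ε, s₀)) (b := true) ((d.cf Prod.fst (ε, s₀) (Empty → ℝ)).P t₁) s₀ e rfl _ _
      (fun j (hj : j ≠ (ε, s₀) ∧ false = false) => ⟨hj.1, hj.1, fun K hK =>
        absurd ((n j hj.1).symm.trans hK) (by simp)⟩) _ (fun _ _ _ _ _ => rfl) t₁
  · exact half_cyl (i := (ε, s₀)) (b := false) ((d.cf Prod.fst (ε, s₀) (Empty → ℝ)).P t₁) s₀ e rfl _ _
      (fun j (hj : j ≠ (ε, s₀) ∧ false = true) => absurd hj.2 Bool.false_ne_true) _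
      (fun _ _ _ _ _ => rfl) t₂

end Crest.Agent.X212.Sw
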