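import Crest.Agent.X212.Sw.Defs

/-!
# Row 212, layer AN-S (helper91): estimates at function level (leaves)

Local solutions on a cylinder, energy, a priori bounds, windows, decay.
-/

set_option autoImplicit false
set_option linter.unusedSectionVars false
noncomputable section
open scoped Manifold ContDiff Topology InnerProductSpace
open MeasureTheory Set Function Filter

namespace Crest.Agent.X212.Sw
open An Cyf70
open Wz78 (nab)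
open Nd18 (Jv)
open M (Mf)

variable {κ lam ν : Type} [Fintype κ] [Fintype lam] [Fintype ν] [DecidableEq ν]

namespace Bg
variable {X : Mf 4} {nc : ℕ} (b : Bg X.I X.M κ lam ν nc)

/-- uniform bounds that do not depend on the class -/
structure Bd (C : ℕ → ℝ) : Prop where
  tame : b.F.Tame C
  ms : ∀ x, ‖b.ms x‖ ≤ C 0
  dms : ∀ i x, ‖b.F.D i b.ms x + (b.A i x * b.ms x - b.ms x * b.A i x)‖ ≤ C 0
  om : ∀ x, ‖b.om x‖ ≤ C 0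

/-- the energy density -/
def ed (c : Cfg X.M κ ν) (x : X.M) : ℝ := ‖b.fc c x‖ ^ 2 +
  b.w * ∑ i, ‖nab X.I b.F.e (b.W c) i c.Φ x‖ ^ 2 + b.w ^ 2 * ‖c.Φ x‖ ^ 4

/-- `c₁²` of the reference connection, up to a positive factor -/
def k2 : ℝ := ∫ x, b.kd ⟨0, 0⟩ x ∂b.F.μ

end Bg

namespace En3
variable {e : En3 κ lam ν} {W : Type}

/-- configurations on the cylinder -/
abbrev ZC (e : En3 κ lam ν) : Type := Cfg (e.Y.M × ℝ) κ ν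

/-- the square of the gradient -/
def gn (v : e.YC) : ℝ := ip (gr v) (gr v)

/-- the energy over a set of times -/
def en (c : e.ZC) (I : Set ℝ) : ENNReal := ∫⁻ t in I, ENNReal.ofReal (gn (sl c t))

/-- the sum of the transversality terms -/
def tau (T : W → Option e.YT) (q : W →₀ ℝ) (c : e.ZC) (x : e.Y.M × ℝ) : F2 κ :=
  q.sum fun w r => r • (T w).elim 0 fun T => T.b (lb c x.2) • T.fo x.1

/-- the perturbation on the cylinder -/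
def pt (T : W → Option e.YT) (q : W →₀ ℝ) : Pt (e.Y.M × ℝ) κ ν 0 where
  D c x := e.b (nm (sl c x.2)) • e.m.ρ none x.1 (c.Φ x)
  C c x := -deriv e.f (hol (sl c x.2)) • e.ζ x.1 + tau T q c x
  S _ := 0

/-- the size of the perturbation -/
def Sml (T : W → Option e.YT) (q : W →₀ ℝ) (k : ℕ) (η : ℝ) : Prop :=
  ∃ s : W → ℝ, (q.sum fun w r => |r| * s w) ≤ η ∧ ∀ w ∈ q.support, 0 ≤ s w ∧ ∀ T' ∈ T w, T'.Sz k (s w)

/-- solutions for the times in `(p, q)`, smooth for the times in `(p - 1, q + 1)` -/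
structure Loc (T : W → Option e.YT) (q : W →₀ ℝ) (c : e.ZC) (p p' : Option ℝ) : Prop where
  adm : e.cyl.AdmOn c (univ ×ˢ Jv (p.map (· - 1)) (p'.map (· + 1)))
  eq : e.cyl.EqOn (pt T q) c (univ ×ˢ Jv p p')

/-- a bound of the spinor -/
def Sup (c : e.ZC) (I : Set ℝ) (C : ℝ) : Prop := ∀ x ∈ univ ×ˢ I, ‖c.Φ x‖ ≤ C

/-- `C^k`-closeness over the times `I` -/
def Cl (c c' : e.ZC) (I : Set ℝ) (k : ℕ) (η : ℝ) : Prop :=
  ∀ w : List (Option κ), w.length ≤ k → ∀ x ∈ univ ×ˢ I,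
    (∀ i, |e.D.Z.Dw w (c.a i - c'.a i) x| ≤ η) ∧ ‖e.D.Z.Dw w (c.Φ - c'.Φ) x‖ ≤ η

/-- the window at time `s` -/
abbrev win (s : ℝ) : Set ℝ := Ioo (s - 1) (s + 1)

/-- the window at time `s` is close to `v` in some gauge -/
def Nr (c : e.ZC) (v : e.YC) (s : ℝ) (k : ℕ) (η : ℝ) : Prop :=
  ∃ u, GauOn e.Z.I u (univ ×ˢ win s) ∧ Cl (e.cyl.act u c) (fz v) (win s) k η

/-- exponential decay away from the finite ends -/
def ex (δ : ℝ) (p p' : Option ℝ) (s : ℝ) : ℝ :=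
  (p.elim 0 fun a => Real.exp (-δ * (s - a))) + p'.elim 0 fun b => Real.exp (-δ * (b - s))

/-- numerical bounds that do not depend on the level and on the class -/
structure Nb (e : En3 κ lam ν) (C : ℝ) : Prop where
  w0 : 0 < e.w
  w1 : e.w ≤ 1
  wb : ∀ r, e.w * e.b r ^ 2 ≤ 1
  f : ∀ r, |e.f r| ≤ C ∧ |deriv e.f r| ≤ C
  ζ : ∀ y, ‖e.ζ y‖ ≤ C
  vol : e.D.F.μ univ ≤ ENNReal.ofReal C
  om : ∀ v : e.YC, e.cyl.Adm (fz v) → |∫ y, ∑ k, e.om y (none, some k) * v.a k y ∂e.D.F.μ| ≤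
    C * (1 + e.D.F.nrm 0 fun y => e.cyl.fc (fz v) (y, 0))

/-- the `H^k` distance on the cross-section -/
def dist (k : ℕ) (v v' : e.YC) : ℝ :=
  ∑ i, e.D.F.nrm k (v.a i - v'.a i) + e.D.F.nrm k (v.Φ - v'.Φ)

end En3

namespace Pz
variable {X : Mf 4} {nc : ℕ} {N : Type} [Fintype N] {e : N → En3 κ lam ν} (P : Pz X nc e)

/-- the energy -/
def ean (c : Cfg X.M κ ν) : ENNReal :=
  (∫⁻ x in P.thick 3, ENNReal.ofReal (P.bg.ed c x) ∂P.bg.F.μ) +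
    ∑ i, (P.nk i).elim 0 fun K => En3.en (K.pb c) (K.deep 2)

open Classical in
/-- the levels of the limits -/
def lev (β : BCs e) : ℝ := ∑ i, ∑ s, if P.Inf i s then |En3.L (β i s)| else 0

end Pz

open En3

variable (κ lam ν)

/-- SW-PB: necks are cylinders; gauge covariance of all terms; properties of `act`, `Al`, `As` -/
structure PbStmt : Prop where
  loc : ∀ (d : Dt κ lam ν) (X : Mf 4) (nc : ℕ) (N : Type) [Fintype N] (ty : N → d.𝓔)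
    (P : Pc d X nc ty), P.OK → ∀ q c i, ∀ K ∈ P.nk i, ∀ p p', Jv p p' ⊆ K.deep 2 → P.bg.Adm c →
    (∀ w ∈ q.support, ∀ x ∈ univ ×ˢ Jv p p', P.fo w (K.ψ x) = 0) →
    (P.bg.EqOn (P.pt q) c (K.ψ '' univ ×ˢ Jv p p') ↔
      (d.e (ty i)).cyl.EqOn (pt (fun w => d.yt w (ty i)) q) (K.pb c) (univ ×ˢ Jv p p')) ∧
    (d.e (ty i)).cyl.AdmOn (K.pb c) (univ ×ˢ K.J)
  cyl : ∀ (d : Dt κ lam ν) ε q, (d.cyl ε).pt q = pt (fun w => d.yt w ε) q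
  act : ∀ (d : Dt κ lam ν) (X : Mf 4) (nc : ℕ) (N : Type) [Fintype N] (ty : N → d.𝓔)
    (P : Pc d X nc ty), P.OK → ∀ c u, P.bg.Adm c → Gau X.I u → P.bg.Adm (P.bg.act u c) ∧
    (∀ x, P.bg.eD (P.bg.act u c) x = cs P.bg.m.J (u x) (P.bg.eD c x)) ∧
    (∀ x, P.p0.D (P.bg.act u c) x = cs P.bg.m.J (u x) (P.p0.D c x)) ∧
    P.bg.fc (P.bg.act u c) = P.bg.fc c ∧ P.bg.eC (P.bg.act u c) = P.bg.eC c ∧
    P.p0.C (P.bg.act u c) = P.p0.C c ∧ (∀ w, P.tm w (P.bg.act u c) = P.tm w c) ∧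
    P.bg.ed (P.bg.act u c) = P.bg.ed c ∧ P.ean (P.bg.act u c) = P.ean c ∧
    ∀ j, ∃ z : ℂ, ‖z‖ = 1 ∧ ∀ η, P.bg.Tst (P.bg.ct j).Ξ η →
      P.bg.lη j η (P.bg.act u c) = z * P.bg.lη j η c
  loca : ∀ (e : En3 κ lam ν), e.OK → ∀ (W : Type) (T : W → Option e.YT) q c p p' u, Loc T q c p p' →
    GauOn e.Z.I u (univ ×ˢ Jv (p.map (· - 1)) (p'.map (· + 1))) → Loc T q (e.cyl.act u c) p p' ∧
    ∀ s ∈ Jv (p.map (· - 1)) (p'.map (· + 1)), Eqv (sl c s) (sl (e.cyl.act u c) s) ∧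
      gn (sl (e.cyl.act u c) s) = gn (sl c s) ∧ nm (sl (e.cyl.act u c) s) = nm (sl c s)
  eqv : ∀ (X : Mf 4) (nc : ℕ) (N : Type) [Fintype N] (e : N → En3 κ lam ν) (P : Pz X nc e), P.OK →
    ∀ β, P.Cr β → (∀ c u, P.As β c → P.Al u → P.As β (P.bg.act u c)) ∧
    Equivalence (fun c c' : {c // P.As β c} => P.Eqv c.1 c'.1) ∧
    ∀ c, P.As β c → (∀ i, P.bg.F.Cb (c.a i)) ∧ P.bg.F.Cb c.Φ

/-- SW-C0: the spinor is bounded -/
def C0Stmt : Prop := ∀ (d : Dt κ lam ν) (N : Type) [Fintype N] (ty : N → d.𝓔) (C : ℕ → ℝ) (w : ℝ),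
  0 < w → ∃ C', ∀ (X : Mf 4) (nc : ℕ) (P : Pc d X nc ty), P.OK → P.bg.Bd C → P.bg.w = w →
    ∀ q, P.Small 0 1 q → ∀ c, P.bg.Adm c → P.bg.EqOn (P.pt q) c univ → (∃ B, ∀ x, ‖c.Φ x‖ ≤ B) →
      ∀ x, ‖c.Φ x‖ ≤ C'

/-- SW-DL: the derivative of the functional along solutions of the Dirac equation -/
def DlStmt : Prop := ∀ e : En3 κ lam ν, e.OK → ∀ (c : e.ZC) (I : Set ℝ), IsOpen I →
  e.cyl.AdmOn c (univ ×ˢ I) → ContDiffOn ℝ ∞ (fun s => L (sl c s)) I ∧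
    ContDiffOn ℝ ∞ (fun s => gn (sl c s)) I ∧
    ∀ s ∈ I, (∀ y, e.cyl.eD c (y, s) = e.b (nm (sl c s)) • e.m.ρ none y (c.Φ (y, s))) →
      HasDerivAt (fun s => L (sl c s)) (-gn (sl c s) + ip (gr (sl c s)) ⟨fun k y =>
        2 * (e.cyl.eC c (y, s) + deriv e.f (hol (sl c s)) • e.ζ y) (none, some k), 0⟩) s

/-- SW-EN: the energy inequality, uniform in the level and in the class -/
def EnStmt : Prop := ∀ C : ℕ → ℝ, ∃ ε > 0, ∃ C' : ℝ,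
  ∀ (N : Type) [Fintype N] (e : N → En3 κ lam ν) (X : Mf 4) (nc : ℕ) (P : Pz X nc e), P.OK →
    P.bg.Bd C → ({i | (P.nk i).isSome}.ncard : ℝ) ≤ C 0 → (∀ i, (P.nk i).isSome → (e i).Nb (C 0)) →
    0 < P.bg.w → P.bg.w ≤ 1 →
    P.bg.F.μ (P.thick 3) ≤ ENNReal.ofReal (C 0) → ∀ y c (τ : X.M → F2 κ), P.Cr y → P.As y c →
    (∀ x, P.bg.eD c x = P.p0.D c x ∧ P.bg.eC c x = P.p0.C c x + τ x) →
    (∀ x ∈ P.thick 3, ‖τ x‖ ≤ 2) →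
    (∀ i, ∀ K ∈ P.nk i, ∫⁻ x in K.ψ '' univ ×ˢ K.deep 3, ‖τ x‖ₑ ^ 2 ∂P.bg.F.μ ≤
      1 + ENNReal.ofReal ε * en (K.pb c) (K.deep 2)) →
    P.ean c ≠ ⊤ ∧ ε * (P.ean c).toReal + P.bg.k2 ≤ C' * (1 + P.lev y)

/-- SW-ENW: the energy density on windows, uniform in the level and in the class -/
def EnwStmt : Prop := ∀ C : ℕ → ℝ, ∃ C' : ℝ, ∀ e : En3 κ lam ν, e.OK → Bg.Bd (X := e.Z) e.cyl C →
  e.Nb (C 0) → ∀ (c : e.ZC) s, e.cyl.AdmOn c (univ ×ˢ win s) →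
    (∀ x ∈ univ ×ˢ win s, e.cyl.eD c x = e.b (nm (sl c x.2)) • e.m.ρ none x.1 (c.Φ x) ∧
      ‖e.cyl.eC c x‖ ≤ C 0) →
    ∫⁻ x in univ ×ˢ Ioo (s - 1 / 2) (s + 1 / 2), ENNReal.ofReal (Bg.ed (X := e.Z) e.cyl c x) ∂e.D.Z.μ ≤
      ENNReal.ofReal C' * (1 + en c (win s))

/-- SW-PSY: Coulomb gauge and the Palais-Smale condition on the cross-section -/
structure PsyStmt : Prop where
  wl : ∀ e : En3 κ lam ν, e.OK → ∀ k, ∃ C : ℝ, ∀ v : e.YC, e.cyl.Adm (fz v) → ∃ v', Eqv v v' ∧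
    (∀ y, ∑ i, (e.D.F.D i (v'.a i) y + e.D.F.dv i y * v'.a i y) = 0) ∧
    ∀ i, e.D.F.nrm (k + 1) (v'.a i) ≤ C * (1 + e.D.F.nrm k fun y => e.cyl.fc (fz v) (y, 0))
  ps : ∀ e : En3 κ lam ν, e.OK → 0 < e.w → ∀ (C : ℝ) (ι : Type) (𝒰 : Ultrafilter ι) (v : ι → e.YC),
    (∀ i, e.cyl.Adm (fz (v i)) ∧ ∀ y, ‖(v i).Φ y‖ ≤ C) → Tendsto (fun i => gn (v i)) 𝒰 (𝓝 0) →
    ∃ (v₀ : e.YC) (v' : ι → e.YC), Crit v₀ ∧ (∀ i, Eqv (v i) (v' i)) ∧ Tendsto (fun i => dist 1 (v' i) v₀) 𝒰 (𝓝 0) ∧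
      Tendsto (fun i => L (v' i)) 𝒰 (𝓝 (L v₀)) ∧
      ((∀ i, Crit (v i)) → ∀ k, Tendsto (fun i => dist k (v' i) v₀) 𝒰 (𝓝 0))

/-- SW-LOCW: estimates on a window in a good gauge -/
def LocwStmt : Prop := ∀ e : En3 κ lam ν, e.OK → 0 < e.w → ∀ (C ρ l : ℝ) (k : ℕ), 0 < ρ → ∃ C' : ℝ,
  ∀ (W : Type) (T : W → Option e.YT) q c a b, b - a ≤ l → Sml T q (k + 2) C →
    Loc T q c (some a) (some b) → Sup c (Ioo a b) C → en c (Ioo a b) ≤ ENNReal.ofReal C →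
    ∃ u, Gau e.Z.I u ∧ Cl (e.cyl.act u c) ⟨0, 0⟩ (Ioo (a + 1 / 2 + ρ) (b - 1 / 2 - ρ)) k C'

/-- SW-WIN: windows of small energy -/
structure WinStmt : Prop where
  /-- close to a critical point -/
  nr : ∀ (e : En3 κ lam ν) (g : e.Gen), g.OK → ∀ (C η : ℝ) (k : ℕ), 0 < η → ∃ ε > 0,
    ∀ (W : Type) (T : W → Option e.YT) q c s, Sml T q (k + 4) C →
    Loc T q c (some (s - 2)) (some (s + 2)) → Sup c (Ioo (s - 2) (s + 2)) C →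
    en c (Ioo (s - 2) (s + 2)) ≤ ENNReal.ofReal ε → ∃ o, Nr c (g.pt o) s k η
  /-- the terms are active only on windows of definite energy -/
  gap : ∀ (e : En3 κ lam ν) (g : e.Gen), g.OK → e.Inv → ∀ C : ℝ, ∃ ε > 0,
    ∀ (W : Type) (T : W → Option e.YT) q c s, Sml T q 4 C →
    Loc T q c (some (s - 3 / 4)) (some (s + 3 / 4)) → Sup c (win s) C → lb c s ∈ e.S →
    ENNReal.ofReal ε ≤ en c (Ioo (s - 3 / 4) (s + 3 / 4))
  /-- different critical points are separated -/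
  sep : ∀ (e : En3 κ lam ν) (g : e.Gen), g.OK → ∃ η > 0, ∀ c s s' o o', |s - s'| ≤ 1 →
    e.cyl.AdmOn c (univ ×ˢ (win s ∪ win s')) → Nr c (g.pt o) s 1 η → Nr c (g.pt o') s' 1 η → o = o'
  /-- levels -/
  lv : ∀ (e : En3 κ lam ν) (v : e.YC), e.OK → e.Inv → Crit v → ∀ ε > 0, ∃ η > 0, ∀ c s,
    e.cyl.AdmOn c (univ ×ˢ win s) → Nr c v s 1 η → ∀ t ∈ win s, |L (sl c t) - L v| ≤ ε ∧
      |nm (sl c t) - nm v| ≤ ε ∧ gn (sl c t) ≤ ε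
  /-- rigidity at an irreducible point -/
  rig : ∀ (e : En3 κ lam ν) (v : e.YC), e.OK → Crit v → (∃ y, v.Φ y ≠ 0) → ∃ η₀ > 0, ∀ k, ∃ C : ℝ,
    ∀ c u s η, η ≤ η₀ → e.cyl.AdmOn c (univ ×ˢ win s) → GauOn e.Z.I u (univ ×ˢ win s) →
    Cl c (fz v) (win s) k η → Cl (e.cyl.act u c) (fz v) (win s) k η →
    ∀ w : List (Option κ), w.length ≤ k + 1 → ∀ x ∈ univ ×ˢ win s, ‖e.D.Z.Dw w (u - 1) x‖ ≤ C * η

/-- SW-MONO: small terms are absorbed -/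
def MonoStmt : Prop := ∀ (e : En3 κ lam ν) (g : e.Gen), g.OK → ∀ C ε : ℝ, 0 < ε → ∃ η > 0,
  ∀ (W : Type) (T : W → Option e.YT) q c p p', Sml T q 4 η → Loc T q c p p' → Sup c (Jv p p') C →
    (∀ I, MeasurableSet I → I ⊆ Jv (p.map (· + 1)) (p'.map (· - 1)) →
      ∫⁻ x in univ ×ˢ I, ‖tau T q c x‖ₑ ^ 2 ∂e.D.Z.μ ≤
        ENNReal.ofReal ε * en c (Metric.thickening 1 I)) ∧
    ∀ s t, s ≤ t → s - 1 ∈ Jv p p' → t + 1 ∈ Jv p p' →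
      L (sl c t) + (en c (Ioo s t)).toReal / 2 ≤ L (sl c s) + ε * (en c (Ioo (s - 1) (t + 1))).toReal

/-- SW-DEC: exponential decay at a nondegenerate irreducible point, in one gauge -/
def DecStmt : Prop := ∀ (e : En3 κ lam ν) (v : e.YC), e.OK → 0 < e.w → Crit v → Nd v →
  (∃ y, v.Φ y ≠ 0) → L v ∉ e.S → ∃ δ > 0, ∃ η₀ > 0, ∀ k, ∃ C : ℝ,
    ∀ (W : Type) (T : W → Option e.YT) q c p p' η, η ≤ η₀ → Loc T q c p p' →
    (∀ s, win s ⊆ Jv p p' → Nr c v s 2 η) → ∃ u, GauOn e.Z.I u (univ ×ˢ Jv p p') ∧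
      ∀ s, Ioo (s - 3) (s + 3) ⊆ Jv p p' →
        Cl (e.cyl.act u c) (fz v) (win s) k (C * η * ex δ p p' s)

/-- SW-EQV: a gauge transformation between two points of a cell is allowed -/
def EqvStmt : Prop := ∀ (X : Mf 4) (nc : ℕ) (N : Type) [Fintype N] (e : N → En3 κ lam ν)
  (P : Pz X nc e), P.OK → ∀ β, P.Cr β → (∀ i s, P.Inf i s → ∃ y, (β i s).Φ y ≠ 0) →
    ∀ c u, P.As β c → Gau X.I u → P.As β (P.bg.act u c) → P.Al u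

end Crest.Agent.X212.Sw
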