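import Crest.Agent.X212.Sw.Cyl
import Crest.Agent.X212.Mod61.Fmt
import Crest.Agent.X212.An.Gsm

/-!
# Row 212, layer AN-S (helper91): families of pieces and the Banach model

A site `s` is a piece with ends only; its frame is the Sobolev frame.  `Fam s` : a family over it.
`Cel` : a family with limits and rows.  `Cel.prob` : the moduli problem.
-/

set_option autoImplicit false
set_option linter.unusedSectionVars false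
noncomputable section
open scoped Manifold ContDiff Topology InnerProductSpace
open MeasureTheory Set Function Filter

namespace Crest.Agent.X212.Sw
open An Cyf70 Prm93 En3
open Mod61 (ofV Prob)
open Nd18 (Jv)
open M (Mf)

variable {κ lam ν : Type} [Fintype κ] [Fintype lam] [Fintype ν] [DecidableEq ν]
  {X : Mf 4} {nc nr : ℕ} {N : Type} [Fintype N]

namespace Nk
variable {e : En3 κ lam ν} {b : Bg X.I X.M κ lam ν nc} (K : Nk e b)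

/-- the geometry of a neck -/
def ng : Option ℝ × Option ℝ × OpenPartialHomeomorph (e.Y.M × ℝ) X.M × (X.M → ℝ) :=
  (K.p, K.q, K.ψ, K.tm)

open Classical in
/-- the weight of the base configuration -/
def bw (s : Bool) (x : X.M) : ℝ :=
  if K.Inf s then Real.smoothTransition (M.pm s * K.tm x - (|K.p.getD 0| + |K.q.getD 0| + 1)) else 0

/-- the distance to `v` beyond the time `T`, for the word `w` -/
def tl (s : Bool) (v : e.YC) (c : Cfg X.M κ ν) (T : ℝ) (w : List (Option κ)) : ENNReal :=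
  ∫⁻ x in univ ×ˢ K.far s T, ∑ i, ‖e.D.Z.Dw w ((K.pb c).a i - (fz v).a i) x‖ₑ ^ 2 +
    ‖e.D.Z.Dw w ((K.pb c).Φ - (fz v).Φ) x‖ₑ ^ 2 ∂e.D.Z.μ

end Nk

namespace Pz
variable {e : N → En3 κ lam ν} (P : Pz X nc e)

/-- the neck `i` contributes nothing -/
def Off (i : N) : Prop := ∀ K ∈ P.nk i, ∃ a, K.p = some a ∧ K.q = some (a + 2)

/-- the length of a finite neck -/
def len (i : N) : ℝ := (P.nk i).elim 2 fun K => K.q.getD 0 - K.p.getD 0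

/-- the moment of an end -/
def mo (β : BCs e) (i : N) (s : Bool) (c : Cfg X.M κ ν) : ℝ :=
  (P.nk i).elim 0 fun K => K.mo s (L (β i s)) c

/-- the base configuration -/
def base (β : BCs e) : Cfg X.M κ ν :=
  ⟨fun a x => ∑ i, ∑ s, (P.nk i).elim 0 fun K => K.bw s x * (fz (β i s)).a a (K.ψ.symm x),
    fun x => ∑ i, ∑ s, (P.nk i).elim 0 fun K => K.bw s x • (β i s).Φ (K.ψ.symm x).1⟩

/-- good limits -/
structure _root_.Crest.Agent.X212.Sw.En3.Gd {e : En3 κ lam ν} (v : e.YC) : Prop where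
  crit : Crit v
  nd : Nd v
  irr : ∃ y, v.Φ y ≠ 0
  inv : e.Inv
  S : L v ∉ e.S
  flat : ∀ᶠ r in 𝓝 (L v), e.ψ r = e.ψ (L v)

/-- all limits are good -/
def Gd (β : BCs e) : Prop := ∀ i s, P.Inf i s → En3.Gd (β i s)

/-- the part within the depths `ρ` of the ends -/
def reg (ρ : N → Bool → Option ℝ) : Set X.M :=
  {x | ∀ i s, ∀ K ∈ P.nk i, K.Inf s → ∀ r ∈ ρ i s, x ∉ K.ψ '' (univ ×ˢ K.far s r)}

end Pz

variable {d : Dt κ lam ν} {ty : N → d.𝓔}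
  {T : Type} [NormedAddCommGroup T] [NormedSpace ℝ T] [FiniteDimensional ℝ T]

/-- a family of pieces over the site `s`; the frame at `t` is `S t` times the frame of `s` -/
structure Fam (s : Pz X 0 fun i => d.e (ty i)) (nc : ℕ) (T : Type) where
  P : T → Pc d X nc ty
  Q : Set T
  S : T → X.M → Option κ → Option κ → ℝ
  Si : T → X.M → Option κ → Option κ → ℝ

/-- jointly smooth, with uniform compact support -/
def JC (Q : Set T) (f : T → R4 → Eu ν) : Prop := ContDiffOn ℝ ∞ (uncurry f) (Q ×ˢ univ) ∧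
  ∃ K, IsCompact K ∧ ∀ t ∈ Q, ∀ y ∉ K, f t y = 0

namespace Fam
variable {s : Pz X 0 fun i => d.e (ty i)} (𝓕 : Fam s nc T)

/-- near `t₀` the finite neck `i` is stretched smoothly -/
def Str (t₀ : T) (i : N) : Prop := ∃ K₀ ∈ (𝓕.P t₀).nk i, ∃ a b, K₀.p = some a ∧ K₀.q = some b ∧
  ∃ ℓ : T × ℝ → ℝ, ∃ V ∈ 𝓝 t₀, ContDiffOn ℝ ∞ ℓ (V ×ˢ univ) ∧ ∀ t ∈ V,
    (∀ σ, 0 < deriv (fun σ => ℓ (t, σ)) σ) ∧ ∃ K ∈ (𝓕.P t).nk i, K.p = some (ℓ (t, a)) ∧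
      K.q = some (ℓ (t, b)) ∧ ∀ y, ∀ σ ∈ Ioo a b, K.ψ (y, ℓ (t, σ)) = K₀.ψ (y, σ)

structure OK : Prop where
  site : s.OK
  ends : ∀ i, ∀ K ∈ s.nk i, ∃ σ, K.Inf σ
  w0 : 0 < s.bg.w
  opn : IsOpen 𝓕.Q
  con : IsPreconnected 𝓕.Q
  ne : 𝓕.Q.Nonempty
  ok : ∀ t ∈ 𝓕.Q, (𝓕.P t).OK
  B : ∀ t ∈ 𝓕.Q, (𝓕.P t).bg.B = s.bg.B
  m : ∀ t ∈ 𝓕.Q, (𝓕.P t).bg.m = s.bg.m
  w : ∀ t ∈ 𝓕.Q, (𝓕.P t).bg.w = s.bg.w
  mix : ∀ t ∈ 𝓕.Q, Mix s.bg.F.toPre (𝓕.P t).bg.F.toPre fun a b x => 𝓕.S t x a b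
  PS : ∀ t ∈ 𝓕.Q, ∀ x a b, ∑ c, s.bg.B.P a c x * 𝓕.S t x c b = 𝓕.S t x a b
  SP : ∀ t ∈ 𝓕.Q, ∀ x a b, ∑ c, 𝓕.S t x a c * s.bg.B.P c b x = 𝓕.S t x a b
  PSi : ∀ t ∈ 𝓕.Q, ∀ x a b, ∑ c, s.bg.B.P a c x * 𝓕.Si t x c b = 𝓕.Si t x a b
  SiP : ∀ t ∈ 𝓕.Q, ∀ x a b, ∑ c, 𝓕.Si t x a c * s.bg.B.P c b x = 𝓕.Si t x a b
  SSi : ∀ t ∈ 𝓕.Q, ∀ x a b, ∑ c, 𝓕.S t x a c * 𝓕.Si t x c b = s.bg.B.P a b x
  SiS : ∀ t ∈ 𝓕.Q, ∀ x a b, ∑ c, 𝓕.Si t x a c * 𝓕.S t x c b = s.bg.B.P a b x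
  sS : ∀ a b, SB s.bg.F.toPre 𝓕.Q fun t x => 𝓕.S t x a b
  sSi : ∀ a b, SB s.bg.F.toPre 𝓕.Q fun t x => 𝓕.Si t x a b
  sc : ∀ a b k, SB s.bg.F.toPre 𝓕.Q fun t => (𝓕.P t).bg.F.c a b k
  sdv : ∀ a, SB s.bg.F.toPre 𝓕.Q fun t => (𝓕.P t).bg.F.dv a
  dens : ∃ h : T → X.M → ℝ, SB s.bg.F.toPre 𝓕.Q h ∧ ∀ t ∈ 𝓕.Q, (∀ x, 0 < h t x) ∧
    (𝓕.P t).bg.F.μ = s.bg.F.μ.withDensity fun x => ENNReal.ofReal (h t x)
  sA : ∀ a, SB s.bg.F.toPre 𝓕.Q fun t => (𝓕.P t).bg.A a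
  sms : SB s.bg.F.toPre 𝓕.Q fun t => (𝓕.P t).bg.ms
  som : SB s.bg.F.toPre 𝓕.Q fun t => (𝓕.P t).bg.om
  sfo : ∀ w, SB s.bg.F.toPre 𝓕.Q fun t => (𝓕.P t).fo w
  cfo : ∀ w, ∃ r, ∀ t ∈ 𝓕.Q, ∀ x ∉ s.core r, (𝓕.P t).fo w x = 0
  en : ∀ t ∈ 𝓕.Q, ∀ i, ∀ K ∈ s.nk i, ∃ K' ∈ (𝓕.P t).nk i, K'.ng = K.ng
  nk : ∀ t ∈ 𝓕.Q, ∀ i, s.nk i = none → (∀ᶠ t' in 𝓝 t, (𝓕.P t').Off i) ∨ 𝓕.Str t i
  ct : ∀ t ∈ 𝓕.Q, ∀ t' ∈ 𝓕.Q, ∀ j, ((𝓕.P t).bg.ct j).Ξ = ((𝓕.P t').bg.ct j).Ξ ∧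
    ((𝓕.P t).bg.ct j).ρ = ((𝓕.P t').bg.ct j).ρ
  η0 : ∀ j, JC 𝓕.Q fun t => ((𝓕.P t).bg.ct j).η
  η : ∀ w j, JC 𝓕.Q fun t => (𝓕.P t).η w j

/-- the one-form in the frame of the site -/
def al (t : T) (c : Cfg X.M κ ν) (x : X.M) : Fm (Option κ) ℝ :=
  WithLp.toLp 2 fun a => ∑ b, 𝓕.Si t x a b * c.a b x

/-- the gauge row at `(t, c)` -/
def gro (t : T) (c : Cfg X.M κ ν) (α : X.M → Fm (Option κ) ℝ) (φ : X.M → Eu ν) (x : X.M) : ℝ :=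
  2 * ∑ a, ((𝓕.P t).bg.F.D a (fun y => ∑ b, 𝓕.S t y a b * α y b) x +
    (𝓕.P t).bg.F.dv a x * ∑ b, 𝓕.S t x a b * α x b) + s.bg.w * ⟪s.bg.m.J (c.Φ x), φ x⟫_ℝ

end Fam

/-- a cell: a family, limits, real rows -/
structure Cel (s : Pz X 0 fun i => d.e (ty i)) (nc nr : ℕ) (T : Type) extends Fam s nc T where
  β : BCs fun i => d.e (ty i)
  R : T → Cfg X.M κ ν → Fin nr → ℝ

variable (X κ ν nc nr) in
/-- values of equations -/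
abbrev Ev : Type := (X.M → Eu ν) × (X.M → F2 κ) × (Fin nc → ℂ) × (Fin nr → ℝ)

namespace Cel
variable {s : Pz X 0 fun i => d.e (ty i)} (σ : Cel s nc nr T)

/-- smooth points -/
abbrev Pnt : Type := {y : T × Cfg X.M κ ν // y.1 ∈ σ.Q ∧ (σ.P y.1).As σ.β y.2}

/-- configurations of level `k` -/
abbrev C (_ : Cel s nc nr T) (k : ℕ) : Type :=
  s.bg.F.H (k + 1) s.bg.p1 × s.bg.F.H (k + 1) s.bg.pp × T

/-- equations of level `k` -/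
abbrev Y (_ : Cel s nc nr T) (k : ℕ) : Type :=
  s.bg.F.H k s.bg.pm × s.bg.F.H k s.bg.p2 × (Fin nc → ℂ) × (Fin nr → ℝ)

/-- the domain -/
def U (k : ℕ) : Set (σ.C k) := {v | v.2.2 ∈ σ.Q}

/-- the point of the Banach model -/
def pt (k : ℕ) (y : σ.Pnt) : σ.C k :=
  (ofV s.bg.F.toPre (k + 1) s.bg.p1
      (fun x => σ.al y.1.1 y.1.2 x - WithLp.toLp 2 fun a => (s.base σ.β).a a x),
    ofV s.bg.F.toPre (k + 1) s.bg.pp (y.1.2.Φ - (s.base σ.β).Φ), y.1.1)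

/-- the fixed part of the equations -/
def e0 (t : T) (c : Cfg X.M κ ν) : Ev κ ν X nc nr :=
  ((σ.P t).bg.eD c - (σ.P t).p0.D c, (σ.P t).bg.eC c - (σ.P t).p0.C c,
    fun j => (σ.P t).bg.l j c, σ.R t c)

/-- the term `w` -/
def eτ (w : d.W) (t : T) (c : Cfg X.M κ ν) : Ev κ ν X nc nr :=
  (0, -(σ.P t).tm w c, fun j => -(σ.P t).bg.lη j ((σ.P t).η w j) c, 0)

/-- `f` is a smooth map that represents `E` -/
def Rep (E : T → Cfg X.M κ ν → Ev κ ν X nc nr) {k j : ℕ} (f : σ.C k → σ.Y j) : Prop :=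
  ContDiffOn ℝ ∞ f (σ.U k) ∧ ∀ y : σ.Pnt,
    (s.bg.F.val j s.bg.pm (f (σ.pt k y)).1, s.bg.F.val j s.bg.p2 (f (σ.pt k y)).2.1,
      (f (σ.pt k y)).2.2) = E y.1.1 y.1.2

open Classical in
/-- the representing map -/
def rp (k : ℕ) (E : T → Cfg X.M κ ν → Ev κ ν X nc nr) : σ.C k → σ.Y k :=
  if h : ∃ f : σ.C k → σ.Y k, σ.Rep E f then h.choose else 0

/-- `f` is a smooth function that represents `g` -/
def RepR (g : T → Cfg X.M κ ν → ℝ) {k : ℕ} (f : σ.C k → ℝ) : Prop :=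
  ContDiffOn ℝ ∞ f (σ.U k) ∧ ∀ y : σ.Pnt, f (σ.pt k y) = g y.1.1 y.1.2

open Classical in
/-- the representing function -/
def rr (k : ℕ) (g : T → Cfg X.M κ ν → ℝ) : σ.C k → ℝ :=
  if h : ∃ f : σ.C k → ℝ, σ.RepR g f then h.choose else 0

/-- smooth invariant functions -/
def Fn (g : T → Cfg X.M κ ν → ℝ) : Prop := (∀ k, 7 ≤ k → ∃ f : σ.C k → ℝ, σ.RepR g f) ∧
  ∀ y y' : σ.Pnt, y.1.1 = y'.1.1 → (σ.P y.1.1).Eqv y.1.2 y'.1.2 → g y'.1.1 y'.1.2 = g y.1.1 y.1.2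

/-- the perturbed map -/
def F (k : ℕ) (q : d.W →₀ ℝ) (v : σ.C k) : σ.Y k :=
  σ.rp k σ.e0 v + q.sum fun w r => r • σ.rp k (σ.eτ w) v

/-- equivalence -/
def Eqv (y y' : σ.Pnt) : Prop := y.1.1 = y'.1.1 ∧ (σ.P y.1.1).Eqv y.1.2 y'.1.2

/-- solutions -/
def Sol (q : d.W →₀ ℝ) (y : σ.Pnt) : Prop := (σ.P y.1.1).Sol σ.β q y.1.2 ∧ σ.R y.1.1 y.1.2 = 0

/-- the gauge fixed linearisation has index `n` -/
def Ind (n : ℤ) : Prop := ∀ k, 7 ≤ k → ∀ q (y : σ.Pnt),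
  ∃ r : σ.C k →L[ℝ] s.bg.F.H k (triv X.M ℝ),
    (∀ v, s.bg.F.val k _ (r v) = σ.gro y.1.1 y.1.2 (s.bg.F.val _ _ v.1) (s.bg.F.val _ _ v.2.1)) ∧
    Fred93.Fr ((fderiv ℝ (σ.F k q) (σ.pt k y)).prod r) n

structure OK : Prop extends σ.toFam.OK where
  gd : s.Gd σ.β
  R : ∀ j, σ.Fn fun t c => σ.R t c j

/-- a gauge group of level `k` -/
structure GD (k : ℕ) : Type 1 where
  G : Type
  L : Type
  H : Type
  [gG : Group G]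
  [aG : MulAction G (σ.C k)]
  [nL : NormedAddCommGroup L]
  [sL : NormedSpace ℝ L]
  [cL : CompleteSpace L]
  [nH : NormedAddCommGroup H]
  [sH : NormedSpace ℝ H]
  [cH : CompleteSpace H]
  U : ∀ g : G, ∀ v ∈ σ.U k, g • v ∈ σ.U k
  inv : ∀ f : σ.C k → ℝ, ContinuousOn f (σ.U k) →
    (∀ y y', σ.Eqv y y' → f (σ.pt k y') = f (σ.pt k y)) → ∀ g : G, ∀ v ∈ σ.U k, f (g • v) = f v

attribute [instance] GD.gG GD.aG GD.nL GD.sL GD.cL GD.nH GD.sH GD.cH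

/-- the moduli problem -/
def prob {k : ℕ} (Γ : σ.GD k) (n : ℤ) : Prob d.W :=
  haveI : CompleteSpace T := FiniteDimensional.complete ℝ T
  { O := Unit
    S _ := σ.Pnt
    eqv := Relation.EqvGen.setoid fun x y => σ.Eqv x.2 y.2
    C _ := σ.C k
    E _ := σ.Y k
    L _ := Γ.L
    H _ := Γ.H
    G _ := Γ.G
    pt y := σ.pt k y
    U _ := σ.U k
    F0 _ := σ.rp k σ.e0
    τ _ w := σ.rp k (σ.eτ w)
    In x := ∃ p, x.2.1.2.Φ p ≠ 0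
    n := n }

/-- regular points -/
def Reg (k : ℕ) (q : d.W →₀ ℝ) (y : σ.Pnt) : Prop := Surjective (fderiv ℝ (σ.F k q) (σ.pt k y))

/-- the universal linearisation is onto -/
def Onto (k : ℕ) (q : d.W →₀ ℝ) (y : σ.Pnt) : Prop := ∃ J : Finset d.W, ∀ f,
  ∃ (u : σ.C k) (c : J → ℝ),
    fderiv ℝ (σ.F k q) (σ.pt k y) u + ∑ w : J, c w • σ.rp k (σ.eτ w) (σ.pt k y) = f

/-- the distance of level `k` -/
def dk (k : ℕ) (y y' : σ.Pnt) : ℝ := s.bg.F.nrm k (σ.al y.1.1 y.1.2 - σ.al y'.1.1 y'.1.2) +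
  s.bg.F.nrm k (y.1.2.Φ - y'.1.2.Φ) + ‖y.1.1 - y'.1.1‖

/-- strong convergence up to gauge -/
def Cvg {ι : Type} (l : Filter ι) (y : ι → σ.Pnt) (y₀ : σ.Pnt) : Prop :=
  ∀ k, ∀ η > 0, ∀ᶠ i in l, ∃ y', σ.Eqv (y i) y' ∧ σ.dk k y' y₀ ≤ η

/-- the restriction along an affine map -/
def res {T' : Type} [NormedAddCommGroup T'] [NormedSpace ℝ T'] (j : T' →ᴬ[ℝ] T) : Cel s nc nr T' :=
  ⟨⟨fun t => σ.P (j t), j ⁻¹' σ.Q, fun t => σ.S (j t), fun t => σ.Si (j t)⟩, σ.β, fun t => σ.R (j t)⟩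

/-- the inclusion of a restriction -/
def inc {T' : Type} [NormedAddCommGroup T'] [NormedSpace ℝ T'] (j : T' →ᴬ[ℝ] T)
    (y : (σ.res j).Pnt) : σ.Pnt := ⟨(j y.1.1, y.1.2), y.2⟩

/-- the configuration with the coordinates `0` -/
def bs (t : T) : Cfg X.M κ ν :=
  ⟨fun a x => ∑ b, σ.S t x a b * (s.base σ.β).a b x, (s.base σ.β).Φ⟩

/-- the wall functions: moments of the ends, lengths of the finite necks -/
def wf (a : N × Option Bool) (t : T) (c : Cfg X.M κ ν) : ℝ :=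
  1 - Real.exp (-a.2.elim ((σ.P t).len a.1 - 2) fun b => s.mo σ.β a.1 b c)

end Cel

/-- all compactly supported forms and all test spinors are terms -/
structure Pc.Rich (P : Pc d X nc ty) : Prop where
  fo : ∀ f ∈ Sec X.I P.bg.p2, ∃ w, ∃ r : ℝ, r ≠ 0 ∧ P.fo w = r • f ∧ (∀ i, d.yt w (ty i) = none) ∧
    P.η w = 0
  η : ∀ j η, P.bg.Tst (P.bg.ct j).Ξ η → ∃ w, ∃ r : ℝ, r ≠ 0 ∧ P.fo w = 0 ∧
    (∀ i, d.yt w (ty i) = none) ∧ P.η w = Pi.single j (r • η)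

open Classical in
/-- the cylinder as a site, with the neck `i₀` -/
def Dt.cs (d : Dt κ lam ν) (ty : N → d.𝓔) (i₀ : N) :
    Pz (d.e (ty i₀)).Z 0 fun i => d.e (ty i) :=
  ⟨(d.e (ty i₀)).cyl, update (fun _ => none) i₀ (some (d.e (ty i₀)).nk)⟩

/-- the constant family on the cylinder -/
def Dt.cf (d : Dt κ lam ν) (ty : N → d.𝓔) (i₀ : N) (T : Type) : Fam (d.cs ty i₀) 0 T where
  P _ := ⟨d.cs ty i₀, 0, fun _ => Fin.elim0⟩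
  Q := univ
  S _ x a b := (d.e (ty i₀)).D.B.P a b x
  Si _ x a b := (d.e (ty i₀)).D.B.P a b x

/-- trajectories (`nr = 0`) or centred trajectories (`nr = 1`) -/
def Dt.cc (d : Dt κ lam ν) (ty : N → d.𝓔) (i₀ : N) (T : Type) (nr : ℕ)
    (β : BCs fun i => d.e (ty i)) : Cel (d.cs ty i₀) 0 nr T where
  toFam := d.cf ty i₀ T
  β := β
  R _ c _ := (d.e (ty i₀)).cen (β i₀ false) (β i₀ true) c

end Crest.Agent.X212.Sw
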