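import Crest.Agent.X212.Rad94.Leaf
import Crest.Agent.X212.Lw78.Bt
import Crest.Agent.X212.Pb50.Act
import Crest.Agent.X212.Ulc97.Geo

/-!
# Row 212, RAD-GM (helper91): the geometry of a piece with two ends, pointwise algebra
-/

set_option autoImplicit false
set_option linter.unusedSectionVars false
noncomputable section
open scoped Manifold ContDiff Topology InnerProductSpace
open MeasureTheory Set Function Filter Real

namespace Crest.Agent.X212.Sw.Alg
open An An.Pre Cyf70 Sob92 Ell97 Rad94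
open Map77 (post fm_ext idx_apply)
open M (Mf pm)

variable {κ lam ν : Type} [Fintype κ] [Fintype lam] [Fintype ν] [DecidableEq ν]
  {X : Mf 4} {nc : ℕ} {b : Bg X.I X.M κ lam ν nc} {F : Pre X.I X.M (Option κ)}

theorem cb_fm {α : Type} [Fintype α] {f : X.M → Fm α ℝ} : F.Cb f ↔ ∀ a, F.Cb fun x => f x a :=
  ⟨fun h a => Cb_clm (PiLp.proj 2 _ a : Fm α ℝ →L[ℝ] ℝ) h, fun h => by
    convert Cb_sum Finset.univ fun a _ => Cb_clm (Map77.ij ℝ a) (h a) using 2 with x
    exact Lw78.fm_sum _⟩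

theorem S1.add {a a' : Fo X κ} (h : S1 b a) (h' : S1 b a') : S1 b (a + a') :=
  ⟨fun i => (h.1 i).add (h'.1 i), fun i x => by
    simp only [Pi.add_apply, mul_add, Finset.sum_add_distrib, h.2, h'.2]⟩

theorem S1.sub {a a' : Fo X κ} (h : S1 b a) (h' : S1 b a') : S1 b (a - a') :=
  ⟨fun i => (h.1 i).sub (h'.1 i), fun i x => by
    simp only [Pi.sub_apply, mul_sub, Finset.sum_sub_distrib, h.2, h'.2]⟩

theorem d1_sub {a a' : Fo X κ} (h : ∀ i, Sm X.I (a i)) (h' : ∀ i, Sm X.I (a' i)) (x : X.M) :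
    d1 b (a - a') x = d1 b a x - d1 b a' x := fm_ext fun s => by
  have e : ∀ i j, b.F.D i (a j - a' j) x = b.F.D i (a j) x - b.F.D i (a' j) x := fun i j =>
    dv_sub (md (h j) x) (md (h' j) x)
  simp only [d1, Pi.sub_apply, e, PiLp.sub_apply, mul_sub, Finset.sum_sub_distrib]
  ring

section exp
variable {f : X.M → ℝ} (hf : Sm X.I f)
include hf

theorem sm_ei : Sm X.I fun x => Complex.exp (f x * Complex.I) :=
  sm_comp (g := fun t : ℝ => Complex.exp (t * Complex.I))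
    (Complex.contDiff_exp.comp (Complex.ofRealCLM.contDiff.mul contDiff_const)) hf

theorem D_ei (i : Option κ) (x : X.M) : F.D i (fun x => Complex.exp (f x * Complex.I)) x =
    F.D i f x • (Complex.I * Complex.exp (f x * Complex.I)) := by
  refine (dv_comp (md hf x) (((Complex.ofRealCLM.hasDerivAt (x := f x)).mul_const
    Complex.I).cexp.hasFDerivAt)).trans ?_
  simp [Pre.D_def, mul_comm]

theorem cb_ei (h : ∀ i, F.Cb (F.D i f)) : F.Cb fun x => Complex.exp (f x * Complex.I) := by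
  have h0 := fun x => (Complex.norm_exp_ofReal_mul_I (f x)).le
  have : ∀ k, ∃ K, F.CB k (fun x => Complex.exp (f x * Complex.I)) K := fun k => by
    induction k with
    | zero => exact ⟨_, CB_zero.2 h0⟩
    | succ k ih =>
      obtain ⟨K, hK⟩ := ih
      choose C hC using h
      have := fun i => CB_bil (ContinuousLinearMap.lsmul ℝ ℝ) (hC i).1
        ((ContinuousLinearMap.mul ℝ ℂ Complex.I).contMDiff.comp (sm_ei hf)) ((hC i).2 k)
        (CB_clm (ContinuousLinearMap.mul ℝ ℂ Complex.I) (sm_ei hf) hK)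
      choose A hA using fun i => (⟨_, this i⟩ : ∃ A, F.CB k _ A)
      have h2 : ∀ i, A i ≤ ∑ i, |A i| := fun i => (le_abs_self _).trans
        (Finset.single_le_sum (f := fun i => |A i|) (fun _ _ => abs_nonneg _) (Finset.mem_univ i))
      refine ⟨max 1 (∑ i, |A i|), CB_succ.2 ⟨fun x => (h0 x).trans (le_max_left _ _), fun i => ?_⟩⟩
      rw [funext (D_ei hf i)]
      exact CB_mono (hA i) ((h2 i).trans (le_max_right _ _))
  choose K hK using this
  exact ⟨K, sm_ei hf, hK⟩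

end exp

variable (hb : b.OK)
include hb

theorem cb_act {u : X.M → ℂ} {c : Cfg X.M κ ν} (hu : b.F.Cb u) (hc : b.F.Cb c.Φ) :
    b.F.Cb (b.act u c).Φ := Cb_bil (Pb50.cB b.m.J) hu hc

theorem ct_ta (j : Fin nc) {c : Cfg X.M κ ν} (hc : ∀ i, Sm X.I (c.a i)) : Continuous (b.ta j c) :=
  ((innerSL ℝ).continuous.comp ((PiLp.continuous_toLp 2 _).comp (continuous_pi fun k =>
    (hc k).continuous.comp (hb.ct j).sm.continuous))).clm_comp (hb.ct j).sθ.continuous

theorem int_lη (j : Fin nc) {c : Cfg X.M κ ν} (hc : ∀ i, Sm X.I (c.a i)) (hΦ : Sm X.I c.Φ)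
    {η : R4 → Eu ν} (h : b.Tst (b.ct j).Ξ η) : Integrable (fun y => Complex.exp
      (Kop92.K (leb R4) (b.ct j).ρ (b.ta j c) y * Complex.I) *
        hm b.m.J (η y) (c.Φ ((b.ct j).Ξ y))) (leb R4) := by
  obtain ⟨R, hR⟩ := Kop92.exists_sp (hb.ct j).cρ
  have h1 := Kop92.continuous_K (μ := leb R4) (hb.ct j).sρ.continuous hR (ct_ta hb j hc)
  simp only [← Kop92.hmL_apply]
  refine Continuous.integrable_of_hasCompactSupport ((by fun_prop : Continuous _).mul
    (((Kop92.hmL b.m.J).continuous.comp h.sm.continuous).clm_apply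
      (hΦ.continuous.comp (hb.ct j).sm.continuous))) (h.cpt.mono fun y hy e => hy ?_)
  simp [e]

theorem alg (g : Gm X κ lam Bool) : Alg b g := by
  have m := fun i j => Cb_bil (ContinuousLinearMap.mul ℝ _) (hb.cρ i) (hb.cρ j)
  have bil : ∃ B : X.M → Fm (Option κ) ℝ →L[ℝ] Eu ν →L[ℝ] Eu ν, b.F.Cb B ∧ ∀ a a' u x,
      b.eD ⟨a, u⟩ x = b.eD ⟨a', u⟩ x + B x (vc (a - a') x) (u x) := by
    refine ⟨fun x => ∑ i, ContinuousLinearMap.smulRightL ℝ _ _ (PiLp.proj 2 _ i)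
      (b.m.ρ i x * b.jp x), Cb_sum _ fun i _ => Cb_clm _ (Cb_bil (ContinuousLinearMap.mul ℝ _)
        (hb.cρ i) (Lw78.cb_jp hb)), fun a a' u x => ?_⟩
    simp [Bg.eD, Wz78.dir, Wz78.nab, Bg.W, vc, Finset.sum_add_distrib, sub_smul,
      -Fintype.sum_option]
    abel
  refine ⟨?_, bil.imp fun B h => ⟨h.1, fun a a' u x _ _ _ => h.2 a a' u x⟩, ⟨fun x => ∑ s,
    post (b.p2 x ∘L Map77.ij ℝ s) ((ContinuousLinearMap.compL ℝ _ _ ℝ).flip (b.m.J * (b.m.ρ s.1 x *
      b.m.ρ s.2 x)) ∘L ((1 / 8 : ℝ) • innerSL ℝ)), Cb_sum _ fun s _ => Cb_comp (Cb_clm _ (Cb_comp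
        (Lw78.cb_p2 hb) (Cb_const _))) (Cb_comp (Cb_clm _ (Cb_clm (ContinuousLinearMap.mul ℝ _ b.m.J)
          (m s.1 s.2))) (Cb_const _)),
    fun x u v => ?_⟩, fun x z u hz _ => ⟨congrArg _ (Pb50.qd_cs hb hz x u u),
      Pb50.norm_cs hb.m.Jsq hb.m.Jsk hz u⟩, fun a a' x h h' => d1_sub h.1 h'.1 x,
    fun a a' h h' => ⟨⟨S1.sub h.1 h'.1, fun i => Cb_sub (h.2 i) (h'.2 i)⟩, S1.add h.1 h'.1,
      fun i => Cb_add (h.2 i) (h'.2 i)⟩, fun a => ?_, fun j η η' a u h h' ha hu => ?_,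
    fun f a u hf h hu => ⟨⟨sm_ei hf, fun x => Complex.norm_exp_ofReal_mul_I _⟩, ?_,
      cb_act hb (cb_ei hf h) hu⟩⟩
  · obtain ⟨B, ⟨C, h⟩, e⟩ := bil
    refine ⟨C 0, fun a a' c u x _ _ _ => ?_⟩
    rw [Rad94.Dz, Rad94.Dz, e a a', ← mul_assoc]
    refine (congrArg norm (by abel)).trans_le (((B x).le_opNorm₂ (vc (a - a') x) (u x)).trans ?_)
    gcongr
    exact CB_bound (h.2 0) x
  · rw [Lw78.fm_sum (b.qd x u v), map_sum]
    simp [Bg.qd, real_inner_comm u, -Fintype.sum_option]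
    rfl
  · rw [cb_fm]
    refine ⟨fun h => ⟨h.2, fun x => fm_ext fun i => ?_⟩, fun h => ⟨⟨fun i => (h.1 i).choose_spec.1,
      fun i x => ?_⟩, h.1⟩⟩
    · exact (idx_apply ..).trans (h.1.2 i x)
    · exact (idx_apply ..).symm.trans (congrArg (· i) (h.2 x))
  · rw [Bg.lη, Bg.lη, Bg.lη, ← integral_sub (int_lη hb j ha.1 hu h) (int_lη hb j ha.1 hu h')]
    simp only [← Kop92.hmL_apply, Pi.sub_apply, map_sub, _root_.sub_apply, mul_sub]
  · funext i x
    have := Pb50.star_mul_one (Complex.norm_exp_ofReal_mul_I (f x))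
    simp only [Bg.act, D_ei hf, Pi.sub_apply, mul_smul_comm, mul_left_comm _ Complex.I, this]
    simp

omit hb in
theorem gm_ok {e : Bool → En3 κ lam ν} {Z : Pz X nc e} (z : Two Z) (h : Z.OK) : z.gm.OK := by
  refine ⟨h.bg.B, h.bg.G, h.bg.tame, h.vol, h.con, fun s => ⟨(h.en s).cyl.B, (h.en s).cyl.G⟩,
    fun s => (e s).con, fun s s' k => h.dj k _ (z.hK s) _ (z.hK s'), fun T =>
      (h.cpt (|T| + 1 + (|z.o false| + |z.o true|))).of_isClosed_subset (Ulc97.isClosed_cor _ _) ?_⟩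
  rintro _ hx i s K hK ho ⟨y, hy, rfl⟩
  obtain rfl := Option.mem_unique hK (z.hK i)
  have h1 := hx i
  have h2 : |T| + 1 + (|z.o false| + |z.o true|) < pm s * y.2 := hy.2.2
  rw [Gm.ht, (z.K i).tm_ψ y ((z.K i).mem_src.2 hy.2.1)] at h1
  have := z.hp i
  have := z.hq i
  cases i <;> cases s <;> simp_all [Nk.Inf, pm] <;>
    linarith [le_abs_self T, abs_nonneg (z.o false), abs_nonneg (z.o true), le_abs_self (z.o true),
      neg_abs_le (z.o false)]

omit hb in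
variable (κ lam ν) in
/-- **RAD-GM** -/
theorem algStmt : AlgStmt κ lam ν := fun _ _ _ _ z h => ⟨gm_ok z h, alg h.bg _⟩

end Crest.Agent.X212.Sw.Alg
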