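import Crest.Agent.X212.Sw.Wld
import Crest.Agent.X212.Cut71.Lit

/-!
# Row 212, layer AN-S (helper91): the world of a system of families over cubes

`Pw` : sites with families over cubes and splittings at the wall coordinates.  `Pw.wld` : the world
of all faces and all cylinders, with the walls at the ends.
-/

set_option autoImplicit false
set_option linter.unusedSectionVars false
noncomputable section
open scoped Manifold ContDiff Topology InnerProductSpace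
open MeasureTheory Set Function Filter

namespace Crest.Agent.X212.Sw
open An Cyf70 Prm93 En3
open Nd18 (Jv)
open M (Mf)

variable {κ lam ν : Type} [Fintype κ] [Fintype lam] [Fintype ν] [DecidableEq ν]

/-- selection of coordinates and constants -/
def sel {I J : Type} [Fintype I] [Fintype J] (h : J → I ⊕ ℝ) : (I → ℝ) →ᴬ[ℝ] (J → ℝ) where
  toFun t j := (h j).elim t id
  linear := LinearMap.pi fun j => (h j).elim LinearMap.proj fun _ => 0
  map_vadd' t v := funext fun j => by cases e : h j <;> simp [e]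
  cont := continuous_pi fun j => by
    cases e : h j <;> simp only [Sum.elim_inl, Sum.elim_inr] <;> fun_prop

/-- faces of a cube -/
abbrev Fa (k : ℕ) : Type := Fin k → Option Bool

namespace Fa
variable {k : ℕ} (f : Fa k)

/-- the free coordinates -/
abbrev I : Type := {c // f c = none}

/-- the face in the cube -/
def emb : (f.I → ℝ) →ᴬ[ℝ] (Fin k → ℝ) :=
  sel fun c => if h : f c = none then .inl ⟨c, h⟩ else .inr (if f c = some true then 1 else 0)

/-- the free coordinates of a point -/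
def rst : (Fin k → ℝ) →ᴬ[ℝ] (f.I → ℝ) := sel fun c => .inl c.1

/-- a facet -/
def fc (b : ℕ × Bool) : Fa k := fun c => if c.1 = b.1 ∧ f c = none then some b.2 else f c

/-- the function of a facet -/
def g (k : ℕ) (b : ℕ × Bool) : (Fin k → ℝ) →ᴬ[ℝ] ℝ :=
  if h : b.1 < k then
    bif b.2 then .const ℝ _ 1 - (ContinuousLinearMap.proj ⟨b.1, h⟩).toContinuousAffineMap
    else (ContinuousLinearMap.proj ⟨b.1, h⟩).toContinuousAffineMap
  else 0

theorem emb_free (t : f.I → ℝ) (c : f.I) : f.emb t c = t c := by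
  show Sum.elim t id (dite _ _ _) = _
  rw [dif_pos c.2]
  rfl

theorem emb_fix (t : f.I → ℝ) {c : Fin k} (h : f c ≠ none) :
    f.emb t c = if f c = some true then 1 else 0 := by
  show Sum.elim t id (dite _ _ _) = _
  rw [dif_neg h]
  rfl

theorem emb_rst {t : Fin k → ℝ} (h : ∀ c, f c ≠ none → t c = if f c = some true then 1 else 0) :
    f.emb (f.rst t) = t := funext fun c => by
  by_cases e : f c = none
  · exact f.emb_free _ ⟨c, e⟩
  · rw [f.emb_fix _ e, h c e]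

theorem fc_fix (b : ℕ × Bool) {c : Fin k} (h : f c ≠ none) : f.fc b c = f c := if_neg fun e => h e.2

theorem emb_fc (b : ℕ × Bool) (t : (f.fc b).I → ℝ) : f.emb (f.rst ((f.fc b).emb t)) = (f.fc b).emb t :=
  f.emb_rst fun c h => by rw [emb_fix _ _ ((f.fc_fix b h).trans_ne h), f.fc_fix b h]

end Fa

variable {d : Dt κ lam ν} [Fintype d.𝓔] {Sl : Type} [Fintype Sl]

section ends
variable {X : Mf 4} (s : StS d Sl X) (nc : ℕ) (T : Type) [NormedAddCommGroup T] [NormedSpace ℝ T]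
  (s₀ : Sl)

/-- the translated neck -/
def Nk.sh {e : En3 κ lam ν} {nc : ℕ} {b : Bg X.I X.M κ lam ν nc} (K : Nk e b) (δ : ℝ) :
    OpenPartialHomeomorph e.Z.M X.M := (Cut71.sH e δ).toOpenPartialHomeomorph.trans K.ψ

/-- the wall at an outgoing end -/
def Spl.out (i : d.𝓔 × Sl) (K : Nk (d.e i.1) s.bg) :
    Spl X X (d.e i.1).Z nc nc 0 d Sl T T (Empty → ℝ) :=
  ⟨i.1, i.2, i.2, s₀, some true, (ContinuousLinearMap.fst ℝ _ _).toContinuousAffineMap, {δ | δ.1 = 0},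
    fun _ => .refl _, fun δ => K.sh δ.2, fun _ => false, Prod.snd, Equiv.sumEmpty _ _⟩

/-- the wall at an incoming end -/
def Spl.inn (i : d.𝓔 × Sl) (K : Nk (d.e i.1) s.bg) :
    Spl X (d.e i.1).Z X nc 0 nc d Sl T (Empty → ℝ) T :=
  ⟨i.1, i.2, s₀, i.2, some false, ((ContinuousLinearMap.fst ℝ _ _).comp
    (ContinuousLinearMap.snd ℝ _ _)).toContinuousAffineMap, {δ | δ.2 = 0},
    fun δ => K.sh δ.1, fun _ => .refl _, fun _ => true, Prod.snd, Equiv.emptySum _ _⟩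

/-- the wall of a cylinder -/
def Spl.cyl (ε : d.𝓔) : Spl (d.e ε).Z (d.e ε).Z (d.e ε).Z 0 0 0 d Sl (Empty → ℝ) (Empty → ℝ)
    (Empty → ℝ) :=
  ⟨ε, s₀, s₀, s₀, some true, 0, univ, fun δ => (d.e ε).nk.sh δ.1, fun δ => (d.e ε).nk.sh δ.2,
    fun _ => false, Prod.snd, Equiv.sumEmpty _ _⟩

open Classical in
/-- the limits of a cylinder -/
def cb (ε : d.𝓔) (x y : (d.e ε).YC) : BC d Sl :=
  update (fun _ _ => ⟨0, 0⟩) (ε, s₀) fun b => bif b then y else x

open Classical in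
/-- another limit at one end -/
def BC.up (β : BC d Sl) (i : d.𝓔 × Sl) (b : Bool) (v : (d.e i.1).YC) : BC d Sl :=
  update β i (update (β i) b v)

end ends

variable (d Sl) in
/-- families over cubes; `iw a c` : the coordinate `c` is the length of a neck -/
structure Ps : Type 1 where
  S : Type
  X : S → Mf 4
  nc : S → ℕ
  s : ∀ a, StS d Sl (X a)
  k : S → ℕ
  fam : ∀ a, Fam (s a) (nc a) (Fin (k a) → ℝ)
  iw : ∀ a, Fin (k a) → Prop

/-- the splitting at a wall coordinate -/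
structure Ps.Wd (P : Ps d Sl) (a : P.S) : Type where
  aL : P.S
  aR : P.S
  ιL : Fin (P.k aL) → Fin (P.k a)
  ιR : Fin (P.k aR) → Fin (P.k a)
  p : Spl (P.X a) (P.X aL) (P.X aR) (P.nc a) (P.nc aL) (P.nc aR) d Sl (Fin (P.k a) → ℝ)
    (Fin (P.k aL) → ℝ) (Fin (P.k aR) → ℝ)
  bl : BC d Sl → (d.e p.ε).YC → BC d Sl
  br : BC d Sl → (d.e p.ε).YC → BC d Sl

variable (d Sl) in
/-- a pre-world; the cylinders use the slot `s₀` -/
structure Pw : Type 1 extends Ps d Sl where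
  wd : ∀ a, {c // iw a c} → toPs.Wd a
  s₀ : Sl

namespace Pw
variable (P : Pw d Sl)

/-- the cell over the whole cube -/
abbrev cel (a : P.S) (β : BC d Sl) : Cel (P.s a) (P.nc a) 0 (Fin (P.k a) → ℝ) :=
  ⟨P.fam a, β, fun _ _ => Fin.elim0⟩

/-- the cube -/
def dom (a : P.S) : Set (Fin (P.k a) → ℝ) := {t | ∀ c, 0 ≤ t c ∧ (¬P.iw a c → t c ≤ 1)}

/-- the limits are representatives -/
def VB (Γ : Ctx d) (a : P.S) (β : BC d Sl) : Prop := ∀ i b, (P.s a).Inf i b → β i b ∈ Γ.V i.1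

structure WOK (Γ : Ctx d) (a : P.S) (c : {c // P.iw a c}) (D : P.Wd a) : Prop where
  o : D.p.o = none
  nk : (P.s a).nk (D.p.ε, D.p.a) = none
  bij : Bijective (Sum.elim (Sum.elim D.ιL D.ιR) fun _ : Unit => c.1)
  j : ∃ r, ∀ x, D.p.j x ∘ D.ιL = x.1 ∧ D.p.j x ∘ D.ιR = x.2.1 ∧ D.p.j x c = x.2.2 + r
  iwL : ∀ c', P.iw D.aL c' ↔ P.iw a (D.ιL c')
  iwR : ∀ c', P.iw D.aR c' ↔ P.iw a (D.ιR c')
  len : ∀ t, (t c ≤ 0 → ((P.fam a).P t).len (D.p.ε, D.p.a) ≤ 5 / 2) ∧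
    (3 ≤ t c → ((P.fam a).P t).len (D.p.ε, D.p.a) = t c)
  hol : ∀ β, (∃ B, (P.cel a β).HolB (D.p.ε, D.p.a) B) ∧ (P.cel a β).FoN (D.p.ε, D.p.a) ∧
    (P.cel a β).Nul (D.p.ε, D.p.a)
  mid : ∀ β v, D.bl β v (D.p.ε, D.p.aL) true = v
  spl : ∀ β, ∀ v ∈ Γ.V D.p.ε, P.VB Γ a β →
    D.p.OK (P.cel a β) (P.cel D.aL (D.bl β v)) (P.cel D.aR (D.br β v))

structure OK (Γ : Ctx d) (a : P.S) : Prop where
  fam : (P.fam a).OK
  Q : (P.fam a).Q = univ
  inj : Injective fun c => ((P.wd a c).p.ε, (P.wd a c).p.a)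
  wd : ∀ c, P.WOK Γ a c (P.wd a c)
  sz : ∀ w, ∃ r, 0 ≤ r ∧ ∀ t, ((P.fam a).P t).Sz 6 w r

/-- sites -/
abbrev st : P.S ⊕ d.𝓔 → BSt d Sl
  | .inl a => ⟨P.X a, P.nc a, 0, P.s a, fun _ _ => Fin.elim0⟩
  | .inr ε => ⟨(d.e ε).Z, 0, 1, d.cs Prod.fst (ε, P.s₀),
      fun β c _ => (d.e ε).cen (β (ε, P.s₀) false) (β (ε, P.s₀) true) c⟩

abbrev Fm : P.S ⊕ d.𝓔 → Type
  | .inl a => Fa (P.k a)
  | .inr _ => Unit

abbrev I : ∀ a, P.Fm a → Type
  | .inl _, f => f.I
  | .inr _, _ => Empty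

abbrev fI : ∀ a f, Fintype (P.I a f)
  | .inl _, f => inferInstanceAs (Fintype f.I)
  | .inr _, _ => inferInstanceAs (Fintype Empty)

attribute [instance] fI

abbrev fm : ∀ a f, Fam (P.st a).s (P.st a).nc (P.I a f → ℝ)
  | .inl a, f => (P.fam a).res f.emb
  | .inr ε, _ => d.cf Prod.fst (ε, P.s₀) _

open Classical in
def wb : ∀ a, P.Fm a → Finset (ℕ × Bool)
  | .inl a, f => Finset.image (fun x : Fin (P.k a) × Bool => (x.1.1, x.2))
      {x | f x.1 = none ∧ (x.2 = true → ¬P.iw a x.1)}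
  | .inr _, _ => ∅

abbrev g : ∀ a f, ℕ × Bool → (P.I a f → ℝ) →ᴬ[ℝ] ℝ
  | .inl _, f, b => (Fa.g _ b).comp f.emb
  | .inr _, _, _ => 0

abbrev fc : ∀ a, P.Fm a → ℕ × Bool → P.Fm a
  | .inl _, f, b => f.fc b
  | .inr _, _, _ => ()

abbrev j : ∀ a f b, (P.I a (P.fc a f b) → ℝ) →ᴬ[ℝ] (P.I a f → ℝ)
  | .inl _, f, b => f.rst.comp (f.fc b).emb
  | .inr _, _, _ => .id ℝ _

/-- walls: finite necks, outgoing ends, incoming ends -/
abbrev Wl : ∀ a, P.Fm a → Type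
  | .inl a, f => {c : {c // P.iw a c} // f c = none} ⊕ {i // (P.s a).Inf i true} ⊕
      {i // (P.s a).Inf i false}
  | .inr _, _ => Unit

abbrev aL : ∀ a f, P.Wl a f → P.S ⊕ d.𝓔
  | .inl a, _, .inl c => .inl (P.wd a c).aL
  | .inl a, _, .inr (.inl _) => .inl a
  | .inl _, _, .inr (.inr i) => .inr i.1.1
  | .inr ε, _, _ => .inr ε

abbrev aR : ∀ a f, P.Wl a f → P.S ⊕ d.𝓔
  | .inl a, _, .inl c => .inl (P.wd a c).aR
  | .inl _, _, .inr (.inl i) => .inr i.1.1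
  | .inl a, _, .inr (.inr _) => .inl a
  | .inr ε, _, _ => .inr ε

abbrev fL : ∀ a f w, P.Fm (P.aL a f w)
  | .inl a, f, .inl c => f ∘ (P.wd a c).ιL
  | .inl _, f, .inr (.inl _) => f
  | .inl _, _, .inr (.inr _) => ()
  | .inr _, _, _ => ()

abbrev fR : ∀ a f w, P.Fm (P.aR a f w)
  | .inl a, f, .inl c => f ∘ (P.wd a c).ιR
  | .inl _, _, .inr (.inl _) => ()
  | .inl _, f, .inr (.inr _) => f
  | .inr _, _, _ => ()

abbrev p : ∀ a f w, Spl (P.st a).X (P.st (P.aL a f w)).X (P.st (P.aR a f w)).X (P.st a).nc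
    (P.st (P.aL a f w)).nc (P.st (P.aR a f w)).nc d Sl (P.I a f → ℝ) (P.I _ (P.fL a f w) → ℝ)
    (P.I _ (P.fR a f w) → ℝ)
  | .inl a, f, .inl c => { (P.wd a c).p with
      j := f.rst.comp ((P.wd a c).p.j.comp ((Fa.emb _).prodMap ((Fa.emb _).prodMap (.id ℝ ℝ)))) }
  | .inl a, _, .inr (.inl i) => .out (P.s a) _ _ P.s₀ i i.2.choose
  | .inl a, _, .inr (.inr i) => .inn (P.s a) _ _ P.s₀ i i.2.choose
  | .inr ε, _, _ => .cyl P.s₀ ε

abbrev bl : ∀ a f w, BC d Sl → (d.e (P.p a f w).ε).YC → BC d Sl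
  | .inl a, _, .inl c => (P.wd a c).bl
  | .inl _, _, .inr (.inl i) => fun β v => β.up i true v
  | .inl _, _, .inr (.inr i) => fun β v => cb P.s₀ i.1.1 (β i false) v
  | .inr ε, _, _ => fun β v => cb P.s₀ ε (β (ε, P.s₀) false) v

abbrev br : ∀ a f w, BC d Sl → (d.e (P.p a f w).ε).YC → BC d Sl
  | .inl a, _, .inl c => (P.wd a c).br
  | .inl _, _, .inr (.inl i) => fun β v => cb P.s₀ i.1.1 v (β i true)
  | .inl _, _, .inr (.inr i) => fun β v => β.up i false v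
  | .inr ε, _, _ => fun β v => cb P.s₀ ε v (β (ε, P.s₀) true)

open Classical in
/-- **the world** -/
abbrev wld : Wld d Sl where
  S := P.S ⊕ d.𝓔
  st := P.st
  Fm := P.Fm
  I := P.I _
  fam := P.fm _
  B := ℕ × Bool
  wb := P.wb _
  g := P.g _
  fc := P.fc _
  j := P.j _
  res {a} f b := by
    cases a with
    | inl a =>
      have : ∀ t, f.emb (P.j (.inl a) f b t) = (f.fc b).emb t := f.emb_fc b
      simp only [Fam.res, this, preimage, mem_ofPred_eq]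
    | inr ε => rfl
  Wl := P.Wl _
  fW a f := by cases a <;> infer_instance
  aL := P.aL _ _
  aR := P.aR _ _
  fL := P.fL _ _
  fR := P.fR _ _
  p := P.p _ _
  bl := P.bl _ _
  br := P.br _ _

/-- faces with limits -/
abbrev pc (a : P.S) (f : Fa (P.k a)) (β : BC d Sl) : P.wld.Cl := ⟨.inl a, f, β⟩

/-- centred trajectories from `x` to `y` -/
abbrev cy (ε : d.𝓔) (x y : (d.e ε).YC) : P.wld.Cl := ⟨.inr ε, (), cb P.s₀ ε x y⟩

end Pw

end Crest.Agent.X212.Sw
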