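import Crest.Agent.X212.Sw.End
import Crest.Agent.X212.Sw.Wld2
import Crest.Agent.X212.Sw21.Fac

/-!
# Row 212, layer AN-S (helper91): faces, ranks, the cells of a pre-world
-/

set_option autoImplicit false
set_option linter.unusedSectionVars false
noncomputable section
open scoped Manifold ContDiff Topology InnerProductSpace
open MeasureTheory Set Function Filter

namespace Crest.Agent.X212.Sw
open An Cyf70 Prm93 En3
open Nd18 (Jv)
open M (Mf)

variable {κ lam ν : Type} [Fintype κ] [Fintype lam] [Fintype ν] [DecidableEq ν]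
  {d : Dt κ lam ν} [Fintype d.𝓔] {Sl : Type} [Fintype Sl]

theorem En3.YT.sz {e : En3 κ lam ν} (he : e.OK) (T : e.YT) (k : ℕ) : ∃ s, 0 ≤ s ∧ T.Sz k s := by
  obtain ⟨C, -, hC⟩ := Sob92.Cb_of_compact (F := e.D.F.toPre) T.sf
  have hb : HasCompactSupport T.b := .of_support_subset_isCompact he.S T.S
  have h1 : ∀ j, ∃ B, ∀ r, ‖iteratedDeriv j T.b r‖ ≤ B := fun j => by
    simpa only [norm_iteratedFDeriv_eq_norm_iteratedDeriv] using
      (T.sb.continuous_iteratedFDeriv (m := j) (mod_cast le_top)).bounded_above_of_compact_support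
        (hb.iteratedFDeriv j)
  choose B hB using h1
  refine ⟨(∑ j ∈ Finset.range (k + 1), |B j|) * |C k|, by positivity, fun j hj r w hw y => ?_⟩
  rw [show (fun y => iteratedDeriv j T.b r • T.fo y) = iteratedDeriv j T.b r • T.fo from rfl,
    Prm93.Dw_smul _ _ T.sf, Pi.smul_apply, norm_smul]
  exact mul_le_mul (((hB j r).trans (le_abs_self _)).trans (Finset.single_le_sum
    (f := fun j => |B j|) (fun _ _ => abs_nonneg _) (Finset.mem_range.2 (by omega))))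
    ((hC k w hw y).trans (le_abs_self _)) (norm_nonneg _) (by positivity)

theorem cf_sz (he : ∀ ε, (d.e ε).OK) (i : d.𝓔 × Sl) (T : Type) (k : ℕ) (w : d.W) :
    ∃ r, 0 ≤ r ∧ ∀ t, ((d.cf Prod.fst i T).P t).Sz k w r := by
  have : ∀ ε, ∃ r, 0 ≤ r ∧ ∀ T ∈ d.yt w ε, T.Sz k r := fun ε => by
    cases d.yt w ε with
    | none => exact ⟨0, le_rfl, by simp⟩
    | some T => simpa using T.sz (he ε) k
  choose r h0 hr using this
  have h1 : 0 ≤ ∑ ε, r ε := Finset.sum_nonneg fun _ _ => h0 _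
  refine ⟨_, h1, fun t => ⟨fun v _ x => ?_, ?_, fun j => j.elim0, fun j T hT m hm x =>
    Sob92.CB_mono (hr _ T hT m hm x) (Finset.single_le_sum (f := r) (fun _ _ => h0 _) (Finset.mem_univ _))⟩⟩
  · have := Prm93.Dw_smul (F := (d.e i.1).cyl.F.toPre) (N := F2 κ) 0 v (u := 0) contMDiff_const
    rw [zero_smul, zero_smul] at this
    exact (congrArg (‖· x‖) this).trans_le (norm_zero.trans_le h1)
  · exact le_trans (by simp [Pre.nrm, Pre.ip, Dt.cf]) h1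

section res
variable {X XL XR : Mf 4} {nc ncL ncR nr : ℕ} {T TL TR T' TL' TR' : Type}
  [NormedAddCommGroup T] [NormedSpace ℝ T] [FiniteDimensional ℝ T]
  [NormedAddCommGroup TL] [NormedSpace ℝ TL] [FiniteDimensional ℝ TL]
  [NormedAddCommGroup TR] [NormedSpace ℝ TR] [FiniteDimensional ℝ TR]
  [NormedAddCommGroup T'] [NormedSpace ℝ T'] [FiniteDimensional ℝ T']
  [NormedAddCommGroup TL'] [NormedSpace ℝ TL'] [FiniteDimensional ℝ TL']
  [NormedAddCommGroup TR'] [NormedSpace ℝ TR'] [FiniteDimensional ℝ TR']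
  {s : StS d Sl X} {sL : StS d Sl XL} {sR : StS d Sl XR}

theorem Spl.OK.bij {p : Spl X XL XR nc ncL ncR d Sl T TL TR} {σ : Cel s nc 0 T}
    {σL : Cel sL ncL 0 TL} {σR : Cel sR ncR 0 TR} (h : p.OK σ σL σR) (ho : p.o = none) :
    Bijective p.j := by
  rcases h.kind with ⟨-, -, -, -, -, h, -⟩ | ⟨e, -⟩ | ⟨e, -⟩ | ⟨e, -⟩
  exacts [h, by simp [ho] at e, by simp [ho] at e, by simp [ho] at e]

theorem Spl.OK.res {p : Spl X XL XR nc ncL ncR d Sl T TL TR} {σ : Cel s nc 0 T}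
    {σL : Cel sL ncL 0 TL} {σR : Cel sR ncR 0 TR} (h : p.OK σ σL σR) (ho : p.o = none)
    {e : T' →ᴬ[ℝ] T} {eL : TL' →ᴬ[ℝ] TL} {eR : TR' →ᴬ[ℝ] TR} {j : TL' × TR' × ℝ →ᴬ[ℝ] T'}
    (hj : ∀ x, e (j x) = p.j (eL x.1, eR x.2.1, x.2.2)) (hb : Bijective j) (h0 : (σ.res e).OK)
    (hL : (σL.res eL).OK) (hR : (σR.res eR).OK) :
    ({ p with j := j } : Spl X XL XR nc ncL ncR d Sl T' TL' TR').OK (σ.res e) (σL.res eL)
      (σR.res eR) := by
  refine ⟨h0, hL, hR, ?_, fun J => (h.cut J).imp fun l hl δ h1 h2 tL h3 tR h4 => ?_, h.mid, h.βL,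
    h.βR, h.lvL, h.lvR, h.βo⟩
  · rcases h.kind with ⟨a1, a2, a3, a4, a5, a6, a7, a8⟩ | ⟨e, -⟩ | ⟨e, -⟩ | ⟨e, -⟩
    · refine .fin a1 a2 a3 a4 a5 hb a7 fun l₀ => (a8 l₀).imp fun l hl t ht h1 => ?_
      obtain ⟨tL, b1, tR, b2, δ, b3, b4, b5⟩ := hl _ ht h1
      obtain ⟨x, rfl⟩ := hb.2 t
      have b6 := a6.1 ((hj x).symm.trans b5)
      have b7 : eL x.1 = tL := congrArg (·.1) b6
      have b8 : eR x.2.1 = tR := congrArg (·.2.1) b6
      have b9 : x.2.2 = δ.2 - δ.1 := congrArg (·.2.2) b6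
      exact ⟨x.1, show eL x.1 ∈ _ from b7 ▸ b1, x.2.1, show eR x.2.1 ∈ _ from b8 ▸ b2, δ, b3, b4,
        congrArg j (Prod.ext rfl (Prod.ext rfl b9))⟩
    all_goals simp [ho] at e
  · have := hl δ h1 h2 _ h3 _ h4
    rw [Spl.par, ← hj (tL, tR, δ.2 - δ.1)] at this
    exact this

theorem ind_res (hP : PtStmt d (Prod.fst : d.𝓔 × Sl → _) X nc nr T')
    (hR : RepStmt d (Prod.fst : d.𝓔 × Sl → _) X nc nr T)
    {σ : Cel s nc nr T} (h : σ.OK) {j : T' →ᴬ[ℝ] T} (h' : (σ.res j).OK) {n} (hn : σ.Ind n) :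
    (σ.res j).Ind (n + (Module.finrank ℝ T' - Module.finrank ℝ T)) := fun k hk q y => by
  have : CompleteSpace T := FiniteDimensional.complete ℝ T
  have : CompleteSpace T' := FiniteDimensional.complete ℝ T'
  obtain ⟨r, h1, h2⟩ := hn k hk q (σ.inc j y)
  refine ⟨r.comp (Sw21.iL σ j k), fun v => h1 (Sw21.iL σ j k v), ?_⟩
  rw [Sw21.fderiv_res hP hR h h' hk]
  exact (h2.comp (Fred93.Fr.id_prodMap (Fred93.Fr.id_prodMap (Fred93.Fr.fin j.contLinear)))).congr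
    fun _ => rfl

end res

namespace Fa
variable {k : ℕ} (f : Fa k)

theorem rst_emb (t : f.I → ℝ) : f.rst (f.emb t) = t := funext fun c => f.emb_free t c

theorem emb_inj : Injective f.emb := LeftInverse.injective f.rst_emb

theorem g_eq (c : Fin k) (s : Bool) (t : Fin k → ℝ) : g k (c, s) t = bif s then 1 - t c else t c := by
  rw [g, dif_pos c.2]
  cases s <;> rfl

variable {f} {c : Fin k}

theorem fc_self (h : f c = none) (s : Bool) : f.fc (c, s) c = some s := if_pos ⟨rfl, h⟩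

theorem fc_ne {c' : Fin k} (h : c' ≠ c) (s : Bool) : f.fc (c, s) c' = f c' :=
  if_neg fun e => h (Fin.ext e.1)

theorem emb_self (h : f c = none) (s : Bool) (t) :
    (f.fc (c, s)).emb t c = bif s then 1 else 0 := by
  rw [emb_fix _ _ (by simp [fc_self h]), fc_self h]
  cases s <;> simp

theorem emb_comp {k' : ℕ} (ι : Fin k' → Fin k) (t : f.I → ℝ) :
    Fa.emb (f ∘ ι) (Fa.rst (f ∘ ι) (f.emb t ∘ ι)) = f.emb t ∘ ι :=
  emb_rst _ fun _ h => f.emb_fix t h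

theorem card_lt {k' : ℕ} {ι : Fin k' → Fin k} (hι : Injective ι) (h : f c = none)
    (hc : ∀ c', ι c' ≠ c) : Fintype.card (Fa.I (f ∘ ι)) < Fintype.card f.I :=
  Fintype.card_lt_of_injective_of_notMem (fun x => ⟨ι x.1, x.2⟩)
    (fun _ _ e => Subtype.ext (hι (congrArg Subtype.val e))) (b := ⟨c, h⟩)
    fun ⟨_, e⟩ => hc _ (congrArg Subtype.val e)

theorem card_fc (h : f c = none) (s : Bool) : Fintype.card (f.fc (c, s)).I < Fintype.card f.I :=
  Fintype.card_lt_of_injective_of_notMem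
    (fun x => ⟨x.1, by_contra fun e => e ((f.fc_fix _ e).symm.trans x.2)⟩)
    (fun _ _ e => Subtype.ext (congrArg Subtype.val e :)) (b := ⟨c, h⟩) fun ⟨x, e⟩ => by
      have := x.2
      rw [show x.1 = c from congrArg Subtype.val e, fc_self h] at this
      cases this

end Fa

/-! ### ranks -/

namespace Ctx
variable (Γ : Ctx d)

/-- the number of levels beyond `v` -/
def lc {ε : d.𝓔} (b : Bool) (v : (d.e ε).YC) : ℕ :=
  {o | 0 < M.pm b * (L ((Γ.g ε).pt o) - L v)}.ncard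

variable (Sl) in
/-- a bound -/
def A : ℕ := (∑ x : (d.𝓔 × Sl) × Bool, Nat.card ((Γ.g x.1.1).ι ⊕ (Γ.g x.1.1).ρ)) + 1

open Classical in
/-- the levels beyond the limits -/
def cnt {X : Mf 4} (s : StS d Sl X) (β : BC d Sl) : ℕ :=
  ∑ x : (d.𝓔 × Sl) × Bool, if s.Inf x.1 x.2 then Γ.lc x.2 (β x.1 x.2) else 0

/-- the rank -/
def rank {W : Wld d Sl} (σ : W.Cl) : ℕ :=
  Γ.A Sl * (Fintype.card (W.I σ.f) + 1 - (W.st σ.a).nr) + Γ.cnt (W.st σ.a).s σ.β

theorem cnt_lt {X : Mf 4} (s : StS d Sl X) (β : BC d Sl) : Γ.cnt s β < Γ.A Sl :=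
  Nat.lt_succ_of_le (Finset.sum_le_sum fun x _ => by
    split_ifs
    exacts [ncard_le_card _, Nat.zero_le _])

theorem lc_lt {ε : d.𝓔} {b : Bool} {v y : (d.e ε).YC} (hv : v ∈ Γ.V ε)
    (h : 0 < M.pm b * (L v - L y)) : Γ.lc b v < Γ.lc b y := by
  have h1 := (Γ.rs ε).gd v hv
  obtain ⟨o, ho⟩ := (Γ.ok ε).all v h1.crit
  have e := h1.inv _ _ ((Γ.ok ε).crit o).1 ho
  refine ncard_lt_ncard ⟨fun o' h' => ?_, fun h' => ?_⟩
  · have h' : 0 < M.pm b * (L ((Γ.g ε).pt o') - L v) := h'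
    show 0 < M.pm b * (L ((Γ.g ε).pt o') - L y)
    linarith
  · have : 0 < M.pm b * (L ((Γ.g ε).pt o) - L v) := h' (show (0 : ℝ) < _ * (_ - _) from e ▸ h)
    simp [e] at this

theorem lc_true {ε : d.𝓔} {v y : (d.e ε).YC} (hv : v ∈ Γ.V ε) (h : L y < L v) :
    Γ.lc true v < Γ.lc true y := Γ.lc_lt hv (by simpa [M.pm] using h)

theorem lc_false {ε : d.𝓔} {v y : (d.e ε).YC} (hv : v ∈ Γ.V ε) (h : L v < L y) :
    Γ.lc false v < Γ.lc false y := Γ.lc_lt hv (by simpa [M.pm] using h)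

theorem cnt_lt' {X : Mf 4} {s : StS d Sl X} {β β' : BC d Sl} {i b} (hi : s.Inf i b)
    (h : Γ.lc b (β' i b) < Γ.lc b (β i b))
    (h' : ∀ j b', s.Inf j b' → j ≠ i ∨ b' ≠ b → β' j b' = β j b') : Γ.cnt s β' < Γ.cnt s β := by
  refine Finset.sum_lt_sum (fun x _ => ?_) ⟨(i, b), Finset.mem_univ _, by simpa [hi] using h⟩
  split_ifs with hx
  · by_cases e : x.1 = i ∧ x.2 = b
    · obtain ⟨rfl, rfl⟩ := e
      exact h.le
    · rw [h' _ _ hx (not_and_or.1 e)]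
  · rfl

theorem rank_lt {a b m n : ℕ} (h : a < b) (hm : m < Γ.A Sl) : Γ.A Sl * a + m < Γ.A Sl * b + n := by
  nlinarith [Nat.mul_le_mul_left (Γ.A Sl) h]

end Ctx

theorem cs_inf {i j : d.𝓔 × Sl} {b} (h : (d.cs Prod.fst i).Inf j b) : j = i :=
  by_contra fun e => h.elim fun _ hK => absurd ((cs_ne _ e).symm.trans hK.1) (by simp)

theorem Lvs.cc1 (L : Lvs d Sl) (Γ : Ctx d) (i : d.𝓔 × Sl) {β} (h : ∀ b, β i b ∈ Γ.V i.1) :
    (d.cc Prod.fst i (Empty → ℝ) 1 β).OK := by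
  have h0 := L.cc i β (fun j => (Γ.ok _).ok) (Γ.ok _).w fun b => (Γ.rs _).gd _ (h b)
  refine ⟨h0.toOK, h0.gd, fun j => ?_⟩
  have h1 := ((L.map _ _ 1 Empty).mo _ (d.cc Prod.fst i (Empty → ℝ) 1 β) h0.toOK h0.gd).1 i
  have a1 := h1 false ⟨_, cs_self _ _, rfl⟩
  have a2 := h1 true ⟨_, cs_self _ _, rfl⟩
  have e := (cc_cen i β).2.2.2.2.2.2
  simp only [e]
  exact ⟨fun k hk => (a1.1 k hk).elim fun f hf => (a2.1 k hk).elim fun f' hf' =>
    ⟨f - f', hf.1.sub hf'.1, fun y => congrArg₂ (· - ·) (hf.2 y) (hf'.2 y)⟩,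
    fun y y' b1 b2 => congrArg₂ (· - ·) (a1.2 y y' b1 b2) (a2.2 y y' b1 b2)⟩

theorem cb_mem (Γ : Ctx d) (s₀ : Sl) {ε} {x y} (hx : x ∈ Γ.V ε) (hy : y ∈ Γ.V ε) (b) :
    cb s₀ ε x y (ε, s₀) b ∈ Γ.V ε := by
  cases b
  exacts [(cb_false s₀ ε x y).symm ▸ hx, (cb_true s₀ ε x y).symm ▸ hy]

namespace Pw
variable {P : Pw d Sl} {Γ : Ctx d} {G : P.wld.Cl → Prop} {a : P.S} {f : Fa (P.k a)} {β : BC d Sl}

theorem mem_wb {b : ℕ × Bool} : b ∈ P.wb (.inl a) f ↔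
    ∃ (c : Fin (P.k a)) (s : Bool), f c = none ∧ (s = true → ¬P.iw a c) ∧ (c.1, s) = b := by
  simp [wb, and_assoc]

theorem dom_iff {t} : (P.pc a f β).Dom t ↔ f.emb t ∈ P.dom a := by
  refine ⟨fun h c => ?_, fun h b hb => ?_⟩
  · by_cases e : f c = none
    · refine ⟨(h _ (mem_wb.2 ⟨c, false, e, by simp, rfl⟩)).trans_eq (Fa.g_eq c false _), fun e' => ?_⟩
      exact sub_nonneg.1 ((h _ (mem_wb.2 ⟨c, true, e, fun _ => e', rfl⟩)).trans_eq (Fa.g_eq c true _))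
    · rw [f.emb_fix _ e]
      split_ifs <;> simp
  · obtain ⟨c, s, -, h2, rfl⟩ := mem_wb.1 hb
    refine le_of_le_of_eq ?_ (Fa.g_eq c s _).symm
    cases s
    exacts [(h c).1, sub_nonneg.2 ((h c).2 (h2 rfl))]

theorem dom_cy {ε β t} : Wld.Cl.Dom (W := P.wld) ⟨.inr ε, (), β⟩ t := fun _ hb =>
  absurd hb (Finset.notMem_empty _)

theorem res_ok (hQ : (P.fam a).Q = univ) (h : (P.cel a β).OK) : (P.pc a f β).cel.OK :=
  Sw21.ok_res (j := f.emb) h (by rw [hQ]; exact isPreconnected_univ) (by rw [hQ]; exact univ_nonempty)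

theorem cel_ok (h : P.OK Γ a) (hβ : P.VB Γ a β) : (P.cel a β).OK :=
  ⟨h.fam, fun i b hi => (Γ.rs _).gd _ (hβ i b hi), fun j => j.elim0⟩

/-- the index of a face -/
theorem n_pc (L : Lvs d Sl) (h : P.OK Γ a) (hβ : P.VB Γ a β) {n} (hn : (P.cel a β).Ind n) :
    (P.pc a f β).n = n + (Fintype.card f.I - P.k a) := by
  have := ind_res (L.pt _ _ _ _) (L.rep _ _ _ _) (cel_ok h hβ) (j := f.emb)
    (res_ok h.Q (cel_ok h hβ)) hn
  rw [Module.finrank_fintype_fun_eq_card, Module.finrank_fin_fun] at this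
  exact L.n_eq (res_ok h.Q (cel_ok h hβ)) this

theorem WOK.emb_j {c D} (h : P.WOK Γ a c D) (hc : f c = none)
    (x : (Fa.I (f ∘ D.ιL) → ℝ) × (Fa.I (f ∘ D.ιR) → ℝ) × ℝ) :
    f.emb (f.rst (D.p.j (Fa.emb (f ∘ D.ιL) x.1, Fa.emb (f ∘ D.ιR) x.2.1, x.2.2))) =
      D.p.j (Fa.emb (f ∘ D.ιL) x.1, Fa.emb (f ∘ D.ιR) x.2.1, x.2.2) := by
  obtain ⟨r, hr⟩ := h.j
  refine f.emb_rst fun c' e => ?_
  obtain ⟨(c' | c') | _, rfl⟩ := h.bij.2 c'
  · exact (congrFun (hr _).1 c').trans (Fa.emb_fix _ _ e)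
  · exact (congrFun (hr _).2.1 c').trans (Fa.emb_fix _ _ e)
  · exact absurd hc e

theorem WOK.dom {c D} (h : P.WOK Γ a c D) : ∃ l, ∀ x, l ≤ x.2.2 →
    (D.p.j x ∈ P.dom a ↔ x.1 ∈ P.dom D.aL ∧ x.2.1 ∈ P.dom D.aR) := by
  obtain ⟨r, hr⟩ := h.j
  refine ⟨-r, fun x hx => ⟨fun h1 => ⟨fun c' => ?_, fun c' => ?_⟩, fun h1 c' => ?_⟩⟩
  · rw [← congrFun (hr x).1 c', h.iwL]
    exact h1 _
  · rw [← congrFun (hr x).2.1 c', h.iwR]
    exact h1 _
  obtain ⟨(c' | c') | _, rfl⟩ := h.bij.2 c'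
  · have := h1.1 c'
    rwa [← congrFun (hr x).1 c', h.iwL] at this
  · have := h1.2 c'
    rwa [← congrFun (hr x).2.1 c', h.iwR] at this
  · exact ⟨(by linarith : 0 ≤ x.2.2 + r).trans_eq (hr x).2.2.symm, fun e => absurd c.2 e⟩

/-- **faces** -/
theorem ok_pc (L : Lvs d Sl) (H : ∀ a, P.OK Γ a) (hβ : P.VB Γ a β) (hn : (P.pc a f β).n ≤ 1)
    (hG : ∀ c s, f c = none → (s = true → ¬P.iw a c) → G (P.pc a (f.fc (c.1, s)) β)) :
    (P.pc a f β).Ok Γ G Γ.rank := by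
  have h := H a
  have h0 : (P.pc a f β).cel.OK := res_ok h.Q (cel_ok h hβ)
  refine ⟨h0, hn, .inl rfl, fun b hb => ?_, ?_, ?_, fun _ i b hi => ?_, fun r => ?_, ?_, ?_, ?_,
    fun w => (h.sz w).imp fun r hr => ⟨hr.1, fun t _ => hr.2 _⟩⟩
  · obtain ⟨c, s, h1, h2, rfl⟩ := mem_wb.1 hb
    have e : ∀ t, f.emb (P.wld.j (P.pc a f β).f (c.1, s) t) = (f.fc (c.1, s)).emb t :=
      f.emb_fc (c.1, s)
    have e' : ∀ t, P.wld.g (P.pc a f β).f (c.1, s) t = bif s then 1 - f.emb t c else f.emb t c :=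
      fun t => Fa.g_eq c s _
    refine ⟨hG c s h1 h2, Γ.rank_lt (Nat.succ_lt_succ (Fa.card_fc h1 s)) (Γ.cnt_lt _ _),
      fun t t' h3 => Fa.emb_inj _ ((e t).symm.trans ((congrArg f.emb h3).trans (e t'))), ?_,
      fun h3 => ?_, fun t => dom_iff.trans (by rw [← e]; exact dom_iff.symm), fun b' hb' hne t h3 => ?_,
      ?_⟩
    · ext t
      rw [mem_preimage, e', mem_singleton_iff]
      constructor
      · rintro ⟨t, rfl⟩
        rw [e, Fa.emb_self h1]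
        cases s <;> simp
      · refine fun h3 => ⟨Fa.rst _ (f.emb t), ?_⟩
        refine (congrArg f.rst (Fa.emb_rst _ fun c' h4 => ?_)).trans (f.rst_emb t)
        by_cases e1 : c' = c
        · subst e1
          rw [Fa.fc_self h1]
          cases s
          · simpa using h3
          · exact (sub_eq_zero.1 h3).symm
        · rw [Fa.fc_ne e1] at h4 ⊢
          exact f.emb_fix t h4
    · have := Sw21.lin_eq (P.wld.g (P.pc a f β).f (c.1, s)) 1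
      rw [h3, e', e', f.emb_free _ ⟨c, h1⟩, f.emb_free _ ⟨c, h1⟩] at this
      cases s <;> simp at this
    · obtain ⟨c', s', h4, h5, rfl⟩ := mem_wb.1 hb'
      have h6 : Fa.g _ (c'.1, s') ((f.fc (c.1, s)).emb t) = 0 := by rw [← e]; exact h3
      by_cases e1 : c' = c
      · subst e1
        rw [Fa.g_eq, Fa.emb_self h1] at h6
        cases s <;> cases s' <;> simp at h6 hne
      · exact ⟨_, mem_wb.2 ⟨c', s', (Fa.fc_ne e1 s).trans h4, h5, rfl⟩, h6⟩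
    · rintro (c' | i | i)
      · by_cases e1 : c'.1.1 = c
        · refine .inr ⟨(h.wd _).o, fun t _ => ((h.wd c'.1).len _).1 ?_⟩
          refine (congrFun (e t) _).trans_le ?_
          rw [e1, Fa.emb_self h1]
          cases s
          exacts [le_rfl, absurd (e1 ▸ c'.1.2) (h2 rfl)]
        · exact .inl ⟨.inl ⟨c'.1, (Fa.fc_ne e1 s).trans c'.2⟩, rfl⟩
      exacts [.inl ⟨.inr (.inl i), rfl⟩, .inl ⟨.inr (.inr i), rfl⟩]
  · rintro (c | i | i) (c' | i' | i') e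
    · exact congrArg _ (Subtype.ext (h.inj (congrArg Prod.fst e)))
    · cases (h.wd _).o.symm.trans (congrArg Prod.snd e)
    · cases (h.wd _).o.symm.trans (congrArg Prod.snd e)
    · cases (h.wd _).o.symm.trans (congrArg Prod.snd e).symm
    · exact congrArg (Sum.inr <| Sum.inl ·) (Subtype.ext (congrArg Prod.fst e))
    · cases congrArg Prod.snd e
    · cases (h.wd _).o.symm.trans (congrArg Prod.snd e).symm
    · cases congrArg Prod.snd e
    · exact congrArg (Sum.inr <| Sum.inr ·) (Subtype.ext (congrArg Prod.fst e))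
  · rintro (c | i | i)
    · show (P.wd a c).p.o.elim _ _
      rw [(h.wd _).o]
      exact (h.wd _).nk
    exacts [i.2, i.2]
  · cases b
    exacts [⟨.inr (.inr ⟨i, hi⟩), rfl⟩, ⟨.inr (.inl ⟨i, hi⟩), rfl⟩]
  · refine ⟨Icc 0 fun _ => max 3 r, isCompact_Icc, fun t _ => h.Q.ge trivial,
      fun t _ h1 h2 => ?_⟩
    have h1 := dom_iff.1 h1
    refine ⟨fun c => (h1 c).1.trans_eq (f.emb_free t c), fun c => (f.emb_free t c).ge.trans ?_⟩
    by_cases e : P.iw a c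
    · refine (le_total (f.emb t c) 3).elim le_max_of_le_left fun e' => le_max_of_le_right ?_
      exact (((h.wd ⟨c, e⟩).len _).2 e').ge.trans (h2 (.inl ⟨⟨c, e⟩, c.2⟩) (h.wd _).o)
    · exact le_max_of_le_left (((h1 c).2 e).trans (by norm_num))
  · rintro (c | i | i) e
    · obtain ⟨⟨B, h1⟩, h2, h3⟩ := (h.wd c.1).hol β
      have q : ∀ t, t ∈ (P.fam a).Q := fun _ => h.Q ▸ trivial
      exact ⟨⟨B, fun t _ => h1 _ (q _)⟩, fun w => (h2 w).imp fun r hr t _ => hr _ (q _),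
        fun t _ => h3 _ (q _)⟩
    all_goals cases e
  · rintro (c | i | i) v
    exacts [(h.wd _).mid β v, up_self β i true v, cb_true _ _ _ _]
  · rintro (c | i | i) v hv
    · have w := h.wd c.1
      have h1 := w.spl β v hv.V hβ
      have h2 := h1.bij w.o
      obtain ⟨l, hl⟩ := w.dom
      have e := w.emb_j c.2
      refine ⟨h1.res w.o e ⟨fun x y h3 => ?_, fun t => ?_⟩ h0 (res_ok (H _).Q h1.okL)
        (res_ok (H _).Q h1.okR), Γ.rank_lt (Nat.succ_lt_succ (Fa.card_lt (fun _ _ e => by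
          simpa using w.bij.1 (a₁ := .inl (.inl _)) (a₂ := .inl (.inl _)) e) c.2 fun _ e => by
          simpa using w.bij.1 (a₁ := .inl (.inl _)) (a₂ := .inr ()) e)) (Γ.cnt_lt _ _),
        Γ.rank_lt (Nat.succ_lt_succ (Fa.card_lt (fun _ _ e => by
          simpa using w.bij.1 (a₁ := .inl (.inr _)) (a₂ := .inl (.inr _)) e) c.2 fun _ e => by
          simpa using w.bij.1 (a₁ := .inl (.inr _)) (a₂ := .inr ()) e)) (Γ.cnt_lt _ _),
        l, fun δ _ h3 tL tR => dom_iff.trans ?_⟩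
      · have h4 := h2.1 ((e x).symm.trans ((congrArg f.emb h3).trans (e y)))
        exact Prod.ext (Fa.emb_inj _ (congrArg (·.1) h4))
          (Prod.ext (Fa.emb_inj _ (congrArg (·.2.1) h4)) (congrArg (·.2.2) h4))
      · obtain ⟨x, hx⟩ := h2.2 (f.emb t)
        obtain ⟨r, hr⟩ := w.j
        refine ⟨(Fa.rst _ x.1, Fa.rst _ x.2.1, x.2.2),
          (congrArg (fun y => f.rst ((P.wd a c).p.j y)) (?_ : _ = x)).trans (hx ▸ f.rst_emb t)⟩
        refine Prod.ext ?_ (Prod.ext ?_ rfl)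
        · rw [← (hr x).1, hx]
          exact Fa.emb_comp _ t
        · rw [← (hr x).2.1, hx]
          exact Fa.emb_comp _ t
      · exact (iff_of_eq (congrArg (· ∈ _) (e (tL, tR, δ.2 - δ.1)))).trans
          ((hl _ h3).trans (and_congr dom_iff.symm dom_iff.symm))
    · have h1 := hv.R rfl
      exact ⟨out_ok h0 P.s₀ i.2.choose_spec.1 i.2.choose_spec.2 ((Γ.rs _).gd v hv.V) h1 _
        (L.cc1 Γ _ (cb_mem Γ _ hv.V (hβ _ _ i.2))), Nat.add_lt_add_left (Γ.cnt_lt' i.2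
          ((congrArg _ (up_self β i true v)).trans_lt (Γ.lc_true hv.V h1))
          fun _ _ _ => up_ne β v) _, Γ.rank_lt (Nat.succ_pos _) (Γ.cnt_lt _ _), 0, fun _ _ _ _ _ => (and_iff_left dom_cy).symm⟩
    · have h1 := hv.L (.inl rfl)
      exact ⟨inn_ok h0 P.s₀ i.2.choose_spec.1 i.2.choose_spec.2 ((Γ.rs _).gd v hv.V) h1 _
        (L.cc1 Γ _ (cb_mem Γ _ (hβ _ _ i.2) hv.V)), Γ.rank_lt (Nat.succ_pos _) (Γ.cnt_lt _ _),
        Nat.add_lt_add_left (Γ.cnt_lt' i.2 ((congrArg _ (up_self β i false v)).trans_lt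
          (Γ.lc_false hv.V h1)) fun _ _ _ => up_ne β v) _,
        0, fun _ _ _ _ _ => (and_iff_right dom_cy).symm⟩

/-- **cylinders** -/
theorem ok_cy (L : Lvs d Sl) {ε x y} (hx : x ∈ Γ.V ε) (hy : y ∈ Γ.V ε) (hn : (P.cy ε x y).n ≤ 1) :
    (P.cy ε x y).Ok Γ G Γ.rank := by
  have h0 := L.cc1 Γ (ε, P.s₀) (cb_mem Γ P.s₀ hx hy)
  refine ⟨h0, hn, .inr ⟨_, cc_cen _ _, ⟨()⟩, fun _ => rfl⟩, fun b hb => absurd hb (Finset.notMem_empty _),
    fun _ _ _ => rfl, fun _ => ⟨_, cs_self _ _, rfl⟩, fun e => (by cases e),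
    fun _ => ⟨univ, Subsingleton.isCompact (subsingleton_univ), subset_rfl, fun _ _ _ _ => trivial⟩,
    fun _ e => (by cases e), fun _ _ => cb_true _ _ _ _, fun _ v hv => ?_,
    fun w => (cf_sz (fun ε => (Γ.ok ε).ok) _ _ 6 w).imp fun r hr => ⟨hr.1, fun t _ => hr.2 t⟩⟩
  have h1 := hv.R rfl
  have h2 := hv.L (.inr rfl)
  have m := cb_mem Γ P.s₀ hx hy
  refine ⟨cyl_ok P.s₀ h0 h1 h2 (L.cc1 Γ _ (cb_mem Γ _ (m _) hv.V)) (L.cc1 Γ _ (cb_mem Γ _ hv.V (m _))),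
    Nat.add_lt_add_left (Γ.cnt_lt' (b := true) ⟨_, cs_self _ _, rfl⟩ ?_ fun j b hj e => ?_) _,
    Nat.add_lt_add_left (Γ.cnt_lt' (b := false) ⟨_, cs_self _ _, rfl⟩ ?_ fun j b hj e => ?_) _,
    0, fun _ _ _ _ _ => iff_of_true dom_cy ⟨dom_cy, dom_cy⟩⟩
  · exact (congrArg _ (cb_true _ _ _ v)).trans_lt (Γ.lc_true hv.V h1)
  · obtain rfl := cs_inf hj
    obtain rfl : b = false := by simpa using e
    exact cb_false _ _ _ _
  · exact (congrArg _ (cb_false _ _ v _)).trans_lt (Γ.lc_false hv.V h2)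
  · obtain rfl := cs_inf hj
    obtain rfl : b = true := by simpa using e
    exact cb_true _ _ _ _

end Pw

end Crest.Agent.X212.Sw
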