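import Crest.Agent.X212.Nd18.Defs
import Crest.Agent.X212.Lab56.Defs
import Crest.Agent.X212.M.Band
import Crest.Agent.X212.Kop92.Core

/-!
# Row 212, layer AN-S (helper91): the Seiberg-Witten equations with a radial mass

Function level format.  `Bg` : background with one module `m`, a reference connection `A`;
`Cfg` : a real one-form and a spinor; `En3` : data of a cross-section; `Nk` : literal necks;
`Pc` : a piece with its necks; `BC` : conditions at the infinite ends; `Pc.Md` : moduli spaces.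
-/

set_option autoImplicit false
set_option linter.unusedSectionVars false
noncomputable section
open scoped Manifold ContDiff Topology InnerProductSpace
open MeasureTheory Set Function Filter

namespace Crest.Agent.X212.Sw
open An Cyf70
open Wz78 (dir curv CC)
open Lab56 (M8)
open Nd18 (YD ca Jv ct)
open M (Mf)

/-- the fixed probability density, supported in `[0, 1]` -/
def bp : ℝ → ℝ := deriv Real.smoothTransition

/-- average -/
def av (f : ℝ → ℝ) : ℝ := ∫ p, bp p * f p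

/-- coordinates of a box -/
abbrev R4 : Type := EuclideanSpace ℝ (Fin 4)

/-- real two-forms -/
abbrev F2 (κ : Type) : Type := Fm (Option κ × Option κ) ℝ

variable {κ lam ν : Type} [Fintype κ] [Fintype lam] [Fintype ν] [DecidableEq ν]

/-! ### backgrounds and configurations -/

section bg
variable {E : Type} [NormedAddCommGroup E] [NormedSpace ℝ E] [FiniteDimensional ℝ E]
  [MeasurableSpace E] [BorelSpace E]
  {HM : Type} [TopologicalSpace HM] {I : ModelWithCorners ℝ E HM}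
  {M : Type} [TopologicalSpace M] [ChartedSpace HM M] [IsManifold I ∞ M] [MeasurableSpace M]

/-- a real one-form (frame components) and a spinor -/
@[ext] structure Cfg (M κ ν : Type) where
  a : Option κ → M → ℝ
  Φ : M → Eu ν

/-- literal pull-back -/
def Cfg.pb {M' : Type} (f : M' → M) (c : Cfg M κ ν) : Cfg M' κ ν :=
  ⟨fun a x => c.a a (f x), fun x => c.Φ (f x)⟩

/-- a chart with a density `ρ` and a test spinor `η`; `θ` are frame components of vectors -/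
structure Cut (M κ ν : Type) [TopologicalSpace M] [Fintype κ] where
  Ξ : OpenPartialHomeomorph R4 M
  θ : R4 → CL R4 (Eu (Option κ))
  ρ : R4 → ℝ
  η : R4 → Eu ν

/-- the background: geometry, module, reference connection, mass, forcing form, scale, cuts -/
structure Bg (I : ModelWithCorners ℝ E HM) (M : Type) [TopologicalSpace M] [ChartedSpace HM M]
    [IsManifold I ∞ M]
    [MeasurableSpace M] (κ lam ν : Type) [Fintype κ] [Fintype lam] [Fintype ν] (nc : ℕ) where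
  B : Base M (Option κ) lam
  G : Geo I M (Option κ) lam
  m : M8 M (Option κ) ν
  A : Option κ → M → En ν
  ms : M → En ν
  om : M → F2 κ
  w : ℝ
  ct : Fin nc → Cut M κ ν

/-- perturbations -/
structure Pt (M κ ν : Type) (nc : ℕ) where
  D : Cfg M κ ν → M → Eu ν
  C : Cfg M κ ν → M → F2 κ
  S : Cfg M κ ν → Fin nc → ℂ

namespace Bg
variable {nc : ℕ} (b : Bg I M κ lam ν nc)

abbrev F : Fr I M (Option κ) := b.G.F

/-- the Clifford volume element -/
def vol (x : M) : En ν := (1 / 24 : ℝ) • ∑ i, ∑ j, ∑ k, ∑ l,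
  b.B.o i j k l x • (b.m.ρ i x * b.m.ρ j x * b.m.ρ k x * b.m.ρ l x)

/-- positive spinors -/
def pp (x : M) : En ν := (1 / 2 : ℝ) • (b.m.p x - b.vol x)

/-- negative spinors -/
def pm (x : M) : En ν := (1 / 2 : ℝ) • (b.m.p x + b.vol x)

/-- the generator of the gauge algebra -/
def jp (x : M) : En ν := b.m.J * b.m.p x

/-- one-forms -/
def p1 (x : M) : CL (Fm (Option κ) ℝ) (Fm (Option κ) ℝ) :=
  idx (fun i j => b.B.P i j x) (ContinuousLinearMap.id ℝ ℝ)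

/-- self-dual two-forms -/
def p2 (x : M) : CL (F2 κ) (F2 κ) := idx (b.B.sd x) (ContinuousLinearMap.id ℝ ℝ)

/-- the connection of a configuration -/
def W (c : Cfg M κ ν) : Option κ → M → En ν := fun i x => b.A i x + c.a i x • b.jp x

/-- the `u(1)` part of the curvature -/
def fc (c : Cfg M κ ν) (x : M) : F2 κ := WithLp.toLp 2 fun s =>
  (1 / 8 : ℝ) * ⟪hsL (b.jp x), hsL (curv I b.F.e b.F.c (b.W c) s.1 s.2 x)⟫_ℝ

/-- the bilinear moment map -/
def qd (x : M) (u v : Eu ν) : F2 κ := WithLp.toLp 2 fun s =>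
  (1 / 8 : ℝ) * ⟪b.m.J (b.m.ρ s.1 x (b.m.ρ s.2 x v)), u⟫_ℝ

/-- the Dirac equation -/
def eD (c : Cfg M κ ν) (x : M) : Eu ν := dir I b.F.e b.m.ρ (b.W c) c.Φ x + b.ms x (c.Φ x)

/-- the curvature equation -/
def eC (c : Cfg M κ ν) (x : M) : F2 κ :=
  b.p2 x (b.fc c x - b.w • b.qd x (c.Φ x) (c.Φ x)) - b.om x

/-- the one-form in the coordinates of the box `j` -/
def ta (j : Fin nc) (c : Cfg M κ ν) (y : R4) : CL R4 ℝ :=
  innerSL ℝ (WithLp.toLp 2 fun k => c.a k ((b.ct j).Ξ y) : Eu (Option κ)) ∘L (b.ct j).θ y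

/-- the cut function of the test spinor `η`, of weight one -/
def lη (j : Fin nc) (η : R4 → Eu ν) (c : Cfg M κ ν) : ℂ :=
  ∫ y, Complex.exp (Kop92.K (leb R4) (b.ct j).ρ (b.ta j c) y * Complex.I) *
    hm b.m.J (η y) (c.Φ ((b.ct j).Ξ y)) ∂leb R4

/-- the cut function -/
abbrev l (j : Fin nc) : Cfg M κ ν → ℂ := b.lη j (b.ct j).η

/-- the density of `c₁²` (of the determinant connection), without the factor -/
def kd (c : Cfg M κ ν) (x : M) : ℝ :=
  ⟪b.fc c x, idx (b.B.st x) (ContinuousLinearMap.id ℝ ℝ) (b.fc c x)⟫_ℝ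

/-- test spinors -/
structure Tst (Ξ : R4 → M) (η : R4 → Eu ν) : Prop where
  sm : ContDiff ℝ ∞ η
  cpt : HasCompactSupport η
  pos : ∀ y, b.pp (Ξ y) (η y) = η y

structure CutOK (C : Cut M κ ν) : Prop where
  src : C.Ξ.source = univ
  sm : ContMDiff 𝓘(ℝ, R4) I ∞ C.Ξ
  sm' : ContMDiffOn I 𝓘(ℝ, R4) ∞ C.Ξ.symm C.Ξ.target
  sθ : ContDiff ℝ ∞ C.θ
  θ : ∀ y v, mfderiv 𝓘(ℝ, R4) I C.Ξ y v = ∑ k, C.θ y v k • b.F.e k (C.Ξ y)
  sρ : ContDiff ℝ ∞ C.ρ
  cρ : HasCompactSupport C.ρ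
  one : ∫ y, C.ρ y ∂leb R4 = 1
  η : b.Tst C.Ξ C.η

/-- a background of bounded geometry -/
structure OK : Prop where
  B : b.B.OK I
  G : b.G.OK b.B
  tame : ∃ C, b.F.Tame C
  m : b.m.On I b.B.P univ
  cc : CC I b.F.e b.B.P b.F.Gam b.m.p b.m.ρ b.A
  sk : ∀ i x, Skw (b.A i x)
  AJ : ∀ i x, b.m.J * b.A i x = b.A i x * b.m.J
  co : ∀ i j k l, b.F.Cb (b.B.o i j k l)
  cp : b.F.Cb b.m.p
  cρ : ∀ i, b.F.Cb (b.m.ρ i)
  cA : ∀ i, b.F.Cb (b.A i)
  cms : b.F.Cb b.ms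
  com : b.F.Cb b.om
  msJ : ∀ x, b.m.J * b.ms x = b.ms x * b.m.J
  msp : ∀ x, b.pm x * b.ms x * b.pp x = b.ms x
  omp : ∀ x, b.p2 x (b.om x) = b.om x
  w : 0 ≤ b.w
  ct : ∀ j, b.CutOK (b.ct j)

/-- smooth configurations -/
structure Adm (c : Cfg M κ ν) : Prop where
  sa : ∀ i, Sm I (c.a i)
  sΦ : Sm I c.Φ
  pa : ∀ i x, ∑ j, b.B.P i j x * c.a j x = c.a i x
  pΦ : ∀ x, b.pp x (c.Φ x) = c.Φ x

/-- configurations that are smooth on `O` -/
structure AdmOn (c : Cfg M κ ν) (O : Set M) : Prop where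
  sa : ∀ i, ContMDiffOn I 𝓘(ℝ, ℝ) ∞ (c.a i) O
  sΦ : ContMDiffOn I 𝓘(ℝ, Eu ν) ∞ c.Φ O
  pa : ∀ i, ∀ x ∈ O, ∑ j, b.B.P i j x * c.a j x = c.a i x
  pΦ : ∀ x ∈ O, b.pp x (c.Φ x) = c.Φ x

/-- the field equations on the set `O` -/
def EqOn (τ : Pt M κ ν nc) (c : Cfg M κ ν) (O : Set M) : Prop :=
  ∀ x ∈ O, b.eD c x = τ.D c x ∧ b.eC c x = τ.C c x

/-- solutions -/
structure Sol (τ : Pt M κ ν nc) (c : Cfg M κ ν) : Prop extends b.Adm c where
  eq : b.EqOn τ c univ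
  l : ∀ j, b.l j c = τ.S c j

/-- the action of a circle valued function -/
def act (u : M → ℂ) (c : Cfg M κ ν) : Cfg M κ ν :=
  ⟨fun i x => c.a i x - (star (u x) * b.F.D i u x).im, fun x => cs b.m.J (u x) (c.Φ x)⟩

end Bg

variable (I) in
/-- gauge transformations -/
def Gau (u : M → ℂ) : Prop := Sm I u ∧ ∀ x, ‖u x‖ = 1

variable (I) in
/-- gauge transformations over `O` -/
def GauOn (u : M → ℂ) (O : Set M) : Prop := ContMDiffOn I 𝓘(ℝ, ℂ) ∞ u O ∧ ∀ x ∈ O, ‖u x‖ = 1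

/-- all derivatives are square integrable over `O` -/
def Hh {V : Type} [NormedAddCommGroup V] [NormedSpace ℝ V] {ι : Type} (F : Pre I M ι) (O : Set M)
    (f : M → V) : Prop :=
  ∀ w : List ι, IntegrableOn (fun x => ‖F.Dw w f x‖ ^ 2) O F.μ

/-- smooth convergence on compact subsets of `O` -/
def Cv {V : Type} [NormedAddCommGroup V] [NormedSpace ℝ V] {ι J : Type} (F : Pre I M ι) (O : Set M)
    (l : Filter J) (f : J → M → V) (g : M → V) : Prop :=
  ∀ w : List ι, TendstoLocallyUniformlyOn (fun n => F.Dw w (f n)) (F.Dw w g) l O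

end bg

/-! ### cross-sections -/

/-- the data of a cross-section: geometry, module, connection, mass `h`, forcing form, scale `w`,
radial mass `b`, holonomy term `f (hol)`, the set `S` of levels of the transversality terms, the
flattening `ψ` -/
structure En3 (κ lam ν : Type) [Fintype κ] [Fintype lam] [Fintype ν] : Type 1 where
  Y : Mf 3
  [cpt : CompactSpace Y.M]
  [con : ConnectedSpace Y.M]
  D : YD Y.I Y.M κ lam
  m : M8 Y.M (Option κ) ν
  A : κ → Y.M → En ν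
  h : Y.M → En ν
  om : Y.M → F2 κ
  ζ : Y.M → F2 κ
  f : ℝ → ℝ
  w : ℝ
  b : ℝ → ℝ
  S : Set ℝ
  ψ : ℝ → ℝ

attribute [instance] En3.cpt En3.con

namespace En3
variable (e : En3 κ lam ν)

/-- the same cross-section with other scale, radial mass, levels -/
abbrev re (w : ℝ) (b : ℝ → ℝ) (S : Set ℝ) (ψ : ℝ → ℝ) : En3 κ lam ν :=
  { e with w := w, b := b, S := S, ψ := ψ }

/-- the cylinder -/
abbrev Z : Mf 4 := Mf.of 4 (IC e.Y.I) (e.Y.M × ℝ) (by
  rw [Module.finrank_prod, e.Y.dim, Module.finrank_self])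

/-- the background of the cylinder -/
def cyl : Bg (IC e.Y.I) (e.Y.M × ℝ) κ lam ν 0 where
  B := e.D.B
  G := e.D.G
  m := ⟨e.m.J, fun x => e.m.p x.1, fun i x => e.m.ρ i x.1⟩
  A := ca e.A
  ms x := e.m.ρ none x.1 * e.h x.1
  om x := e.om x.1
  w := e.w
  ct := Fin.elim0

/-- configurations on the cross-section -/
@[ext] structure YC where
  a : κ → e.Y.M → ℝ
  Φ : e.Y.M → Eu ν

variable {e}

/-- the static configuration -/
def fz (v : e.YC) : Cfg (e.Y.M × ℝ) κ ν := ⟨ca v.a, fun x => v.Φ x.1⟩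

/-- the slice at time `s` -/
def sl (c : Cfg (e.Y.M × ℝ) κ ν) (s : ℝ) : e.YC :=
  ⟨fun k y => c.a (some k) (y, s), fun y => c.Φ (y, s)⟩

/-- scaling -/
def YC.smul (r : ℝ) (v : e.YC) : e.YC := ⟨fun k y => r * v.a k y, fun y => r • v.Φ y⟩

/-- the square of the `L²` norm of the spinor -/
def nm (v : e.YC) : ℝ := ∫ y, ‖v.Φ y‖ ^ 2 ∂e.D.F.μ

/-- the metric on tangent vectors -/
def ip (u v : e.YC) : ℝ := ∫ y, (2 * ∑ k, u.a k y * v.a k y + e.w * ⟪u.Φ y, v.Φ y⟫_ℝ) ∂e.D.F.μ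

/-- the holonomy parameter -/
def hol (v : e.YC) : ℝ := ∫ y, 4 * ∑ k, e.ζ y (none, some k) * v.a k y ∂e.D.F.μ

/-- the gradient -/
def gr (v : e.YC) : e.YC :=
  ⟨fun k y => 2 * (e.cyl.eC (fz v) (y, 0) + deriv e.f (hol v) • e.ζ y) (none, some k),
    fun y => -e.m.ρ none y (e.cyl.eD (fz v) (y, 0)) - e.b (nm v) • v.Φ y⟩

/-- the functional -/
def L (v : e.YC) : ℝ := ∫ r in (0 : ℝ)..1, ip (gr (v.smul r)) v

/-- the averaged level at time `s` -/
def lb (c : Cfg (e.Y.M × ℝ) κ ν) (s : ℝ) : ℝ := av fun p => L (sl c (s + p - 1 / 2))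

/-- critical points -/
def Crit (v : e.YC) : Prop := e.cyl.Adm (fz v) ∧ (∀ k y, (gr v).a k y = 0) ∧ ∀ y, (gr v).Φ y = 0

/-- gauge equivalence on the cross-section -/
def Eqv (v v' : e.YC) : Prop :=
  ∃ u : e.Y.M → ℂ, Gau e.Y.I u ∧ fz v' = e.cyl.act (fun x => u x.1) (fz v)

/-- the variation `v + r u` -/
def YC.vr (v u : e.YC) (r : ℝ) : e.YC :=
  ⟨fun k y => v.a k y + r * u.a k y, fun y => v.Φ y + r • u.Φ y⟩

/-- the kernel of the Hessian consists of infinitesimal gauge transformations -/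
def Nd (v : e.YC) : Prop := ∀ u : e.YC, e.cyl.Adm (fz u) →
  (∀ k y, HasDerivAt (fun r => (gr (v.vr u r)).a k y) 0 0) →
  (∀ y, HasDerivAt (fun r => (gr (v.vr u r)).Φ y) 0 0) →
  ∃ χ : e.Y.M → ℝ, Sm e.Y.I χ ∧ (∀ k y, u.a k y = -e.D.F.D k χ y) ∧
    ∀ y, u.Φ y = χ y • e.m.J (v.Φ y)

variable (e)

/-- closed one-forms on the cross-section -/
structure Clo (a : κ → e.Y.M → ℝ) : Prop where
  sm : ∀ k, Sm e.Y.I (a k)
  pr : ∀ k y, ∑ j, e.D.F.P k j y * a j y = a k y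
  cl : ∀ i j y, e.D.F.D i (a j) y - e.D.F.D j (a i) y = ∑ k, e.D.F.c i j k y * a k y

/-- the functional is gauge invariant -/
def Inv : Prop := ∀ v v' : e.YC, e.cyl.Adm (fz v) → Eqv v v' → L v' = L v

structure OK : Prop where
  cyl : e.cyl.OK
  vol : e.D.F.IsVol
  hs : ∀ y, Sym (e.h y)
  cl : ∀ χ : e.Y.M → ℝ, Sm e.Y.I χ → ∫ y, ∑ k, e.om y (none, some k) * e.D.F.D k χ y ∂e.D.F.μ = 0
  sζ : Sm e.Y.I e.ζ
  pζ : ∀ y, e.cyl.p2 (y, 0) (e.ζ y) = e.ζ y
  clζ : ∀ χ : e.Y.M → ℝ, Sm e.Y.I χ → ∫ y, ∑ k, e.ζ y (none, some k) * e.D.F.D k χ y ∂e.D.F.μ = 0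
  sf : ContDiff ℝ ∞ e.f
  bf : ∀ j, ∃ C, ∀ r, |iteratedDeriv j e.f r| ≤ C
  per : ∀ v v' : e.YC, e.cyl.Adm (fz v) → Eqv v v' → deriv e.f (hol v') = deriv e.f (hol v)
  sp : ∃ (n : ℕ) (u : Fin n → e.Y.M → ℂ), (∀ i, Gau e.Y.I (u i)) ∧ ∀ a, e.Clo a →
    ∃ (χ : e.Y.M → ℝ) (r : Fin n → ℝ), Sm e.Y.I χ ∧
      ∀ k y, a k y = e.D.F.D k χ y + ∑ i, r i * (star (u i y) * e.D.F.D k (u i) y).im
  sb : ContDiff ℝ ∞ e.b
  b0 : ∀ r, 0 ≤ e.b r
  b1 : ∀ r, 1 ≤ r → e.b r = 0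
  S : IsCompact e.S
  sψ : ContDiff ℝ ∞ e.ψ
  mψ : Monotone e.ψ

/-- `b₁ (Y) = 0` : closed one-forms are exact, circle valued functions have logarithms -/
structure H1 : Prop where
  ex : ∀ a, e.Clo a → ∃ χ, Sm e.Y.I χ ∧ ∀ k y, a k y = e.D.F.D k χ y
  lg : ∀ u : e.Y.M → ℂ, Gau e.Y.I u →
    ∃ χ : e.Y.M → ℝ, Sm e.Y.I χ ∧ ∀ y, u y = Complex.exp (χ y * Complex.I)

/-- the critical points: generators `x i` and reducible points `θ j` -/
structure Gen : Type 1 where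
  ι : Type
  ρ : Type
  [fin : Fintype ι]
  [dec : DecidableEq ι]
  [finr : Fintype ρ]
  x : ι → e.YC
  θ : ρ → e.YC

attribute [instance] Gen.fin Gen.dec Gen.finr

variable {e}

/-- all critical points -/
def Gen.pt (g : e.Gen) : g.ι ⊕ g.ρ → e.YC := Sum.elim g.x g.θ

structure Gen.OK (g : e.Gen) : Prop where
  ok : e.OK
  w : 0 < e.w
  inv : Nonempty (g.ι ⊕ g.ρ) → e.Inv
  crit : ∀ o, Crit (g.pt o)
  nd : ∀ o, Nd (g.pt o)
  irr : ∀ i, ∃ y, (g.x i).Φ y ≠ 0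
  red : ∀ j y, (g.θ j).Φ y = 0
  all : ∀ v, Crit v → ∃ o, Eqv (g.pt o) v
  inj : ∀ o o', Eqv (g.pt o) (g.pt o') → o = o'
  S : ∀ o, L (g.pt o) ∉ e.S
  gap : ∀ o o', L (g.pt o) < L (g.pt o') → ∃ r ∈ interior e.S, L (g.pt o) < r ∧ r < L (g.pt o')
  flat : ∀ o, ∀ᶠ r in 𝓝 (L (g.pt o)), e.ψ r = e.ψ (L (g.pt o))
  sep : ∀ o o', L (g.pt o) < L (g.pt o') → e.ψ (L (g.pt o)) < e.ψ (L (g.pt o'))

variable (e) in
/-- transversality terms on necks -/
structure YT where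
  b : ℝ → ℝ
  fo : e.Y.M → F2 κ
  sb : ContDiff ℝ ∞ b
  S : support b ⊆ e.S
  sf : Sm e.Y.I fo
  pf : ∀ y, e.cyl.p2 (y, 0) (fo y) = fo y
  inv : e.Inv

/-- the size of a term up to order `k` -/
def YT.Sz (T : e.YT) (k : ℕ) (s : ℝ) : Prop :=
  ∀ j ≤ k, ∀ r, e.D.F.CB k (fun y => iteratedDeriv j T.b r • T.fo y) s

end En3

/-! ### necks and pieces -/

section pc
variable {X : Mf 4} {nc : ℕ}

/-- a literal neck -/
structure Nk (e : En3 κ lam ν) (b : Bg X.I X.M κ lam ν nc) extends Nd18.Nk e.D b.B b.G where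
  hJ : b.m.J = e.m.J
  hw : b.w = e.w
  hp : ∀ x ∈ ψ.source, b.m.p (ψ x) = e.m.p x.1
  hρ : ∀ i, ∀ x ∈ ψ.source, b.m.ρ i (ψ x) = e.m.ρ i x.1
  hA : ∀ i, ∀ x ∈ ψ.source, b.A i (ψ x) = e.cyl.A i x
  hms : ∀ x ∈ ψ.source, b.ms (ψ x) = e.cyl.ms x
  hom : ∀ x ∈ ψ.source, b.om (ψ x) = e.om x.1

namespace Nk
variable {e : En3 κ lam ν} {b : Bg X.I X.M κ lam ν nc} (K : Nk e b)

/-- the configuration in the coordinates of the neck -/
abbrev pb (c : Cfg X.M κ ν) : Cfg (e.Y.M × ℝ) κ ν := c.pb K.ψ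

/-- the radial mass -/
def rad (c : Cfg X.M κ ν) (x : X.M) : Eu ν :=
  (K.χ x * e.b (En3.nm (En3.sl (K.pb c) (K.tm x)))) • b.m.ρ none x (c.Φ x)

/-- the holonomy term -/
def hl (c : Cfg X.M κ ν) (x : X.M) : F2 κ :=
  -deriv e.f (En3.hol (En3.sl (K.pb c) (K.tm x))) • K.ext e.ζ x

/-- a transversality term -/
def ms (T : e.YT) (c : Cfg X.M κ ν) (x : X.M) : F2 κ :=
  T.b (En3.lb (K.pb c) (K.tm x)) • K.ext T.fo x

/-- the side `s` (`true` = future) is infinite -/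
def Inf (s : Bool) : Prop := if s then K.q = none else K.p = none

/-- the cut-off of the moments -/
def β (s : Bool) (t : ℝ) : ℝ :=
  if s then Real.smoothTransition (t - (K.p.getD (-3) + 3))
  else 1 - Real.smoothTransition (t - (K.q.getD 4 - 4))

/-- the moment at the side `s` with the limit level `r` -/
def mo (s : Bool) (r : ℝ) (c : Cfg X.M κ ν) : ℝ :=
  ∫ t, K.β s t * (M.pm s * (e.ψ (En3.lb (K.pb c) t) - e.ψ r))

/-- the times beyond `T` on the side `s` -/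
def far (s : Bool) (T : ℝ) : Set ℝ := K.J ∩ {t | T < M.pm s * t}

/-- the times at depth more than `d` -/
def deep (d : ℝ) : Set ℝ := Jv (K.p.map (· + d)) (K.q.map (· - d))

/-- convergence to `v` at the side `s` -/
def Asy (s : Bool) (v : e.YC) (c : Cfg X.M κ ν) : Prop := ∃ T,
  (∀ i, Hh e.D.Z.toPre (univ ×ˢ K.far s T) fun x => (K.pb c).a i x - (En3.fz v).a i x) ∧
  Hh e.D.Z.toPre (univ ×ˢ K.far s T) fun x => (K.pb c).Φ x - v.Φ x.1

/-- convergence of a gauge transformation to `1` -/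
def AsyG (s : Bool) (u : X.M → ℂ) : Prop := ∃ T,
  Hh e.D.Z.toPre (univ ×ˢ K.far s T) fun x => u (K.ψ x) - 1

/-- the same neck for other scale, radial mass, levels -/
def re (w : ℝ) (β : ℝ → ℝ) (S : Set ℝ) (ψ : ℝ → ℝ) : Nk (e.re w β S ψ) { b with w := w } :=
  ⟨K.toNk, K.hJ, rfl, K.hp, K.hρ, K.hA, K.hms, K.hom⟩

end Nk

/-- a background with necks of the types `e i`; a neck may be absent -/
structure Pz (X : Mf 4) (nc : ℕ) {N : Type} (e : N → En3 κ lam ν) where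
  bg : Bg X.I X.M κ lam ν nc
  nk : ∀ i, Option (Nk (e i) bg)

/-- limits at all ends -/
abbrev BCs {N : Type} (e : N → En3 κ lam ν) : Type := ∀ i, Bool → (e i).YC

namespace Pz
variable {N : Type} [Fintype N] {e : N → En3 κ lam ν} (P : Pz X nc e)

/-- the same piece for other scale, radial masses, levels -/
def re (w : ℝ) (β : N → ℝ → ℝ) (S : N → Set ℝ) (ψ : N → ℝ → ℝ) :
    Pz X nc fun i => (e i).re w (β i) (S i) (ψ i) :=
  ⟨{ P.bg with w := w }, fun i => (P.nk i).map fun K => K.re w (β i) (S i) (ψ i)⟩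

/-- the side `s` of the neck `i` is an infinite end -/
def Inf (i : N) (s : Bool) : Prop := ∃ K ∈ P.nk i, K.Inf s

/-- the part of the piece within depth `T` of the infinite ends -/
def core (T : ℝ) : Set X.M :=
  {x | ∀ i s, ∀ K ∈ P.nk i, K.Inf s → x ∉ K.ψ '' (univ ×ˢ K.far s T)}

/-- the complement of the parts of the necks at depth more than `d` -/
def thick (d : ℝ) : Set X.M := {x | ∀ i, ∀ K ∈ P.nk i, x ∉ K.ψ '' (univ ×ˢ K.deep d)}

structure OK : Prop where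
  bg : P.bg.OK
  vol : P.bg.F.IsVol
  con : ConnectedSpace X.M
  en : ∀ i, (e i).OK
  dj : Pairwise fun i j => ∀ K ∈ P.nk i, ∀ K' ∈ P.nk j, Disjoint K.ψ.target K'.ψ.target
  cpt : ∀ T, IsCompact (P.core T)

/-- the fixed terms on the necks -/
def p0 : Pt X.M κ ν nc where
  D c x := ∑ i, (P.nk i).elim 0 fun K => K.rad c x
  C c x := ∑ i, (P.nk i).elim 0 fun K => K.hl c x
  S _ := 0

/-- the limits are critical points -/
def Cr (β : BCs e) : Prop := ∀ i s, P.Inf i s → En3.Crit (β i s)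

/-- smooth configurations with the limits `β` -/
def As (β : BCs e) (c : Cfg X.M κ ν) : Prop :=
  P.bg.Adm c ∧ ∀ i s, ∀ K ∈ P.nk i, K.Inf s → K.Asy s (β i s) c

/-- irreducible ones -/
def In (β : BCs e) (c : Cfg X.M κ ν) : Prop := P.As β c ∧ ∃ x, c.Φ x ≠ 0

/-- allowed gauge transformations -/
def Al (u : X.M → ℂ) : Prop := Gau X.I u ∧ ∀ i s, ∀ K ∈ P.nk i, K.Inf s → K.AsyG s u

/-- gauge equivalence -/
def Eqv (c c' : Cfg X.M κ ν) : Prop := ∃ u, P.Al u ∧ c' = P.bg.act u c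

end Pz

/-- cross-sections `e`, index set `W` of the perturbation terms, terms on the necks -/
structure Dt (κ lam ν : Type) [Fintype κ] [Fintype lam] [Fintype ν] [DecidableEq ν] : Type 1 where
  𝓔 : Type
  e : 𝓔 → En3 κ lam ν
  W : Type
  yt : W → ∀ ε, Option (e ε).YT

/-- a piece with necks of the types `ty`; `fo`, `η` are the compactly supported terms -/
structure Pc (d : Dt κ lam ν) (X : Mf 4) (nc : ℕ) {N : Type} (ty : N → d.𝓔) extends
    Pz X nc fun i => d.e (ty i) where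
  fo : d.W → X.M → F2 κ
  η : d.W → Fin nc → R4 → Eu ν

namespace Pc
variable {d : Dt κ lam ν} {N : Type} [Fintype N] {ty : N → d.𝓔} (P : Pc d X nc ty)

/-- the term `w` -/
def tm (w : d.W) (c : Cfg X.M κ ν) (x : X.M) : F2 κ :=
  P.fo w x + ∑ i, (P.nk i).elim 0 fun K => (d.yt w (ty i)).elim 0 fun T => K.ms T c x

/-- the perturbation -/
def pt (q : d.W →₀ ℝ) : Pt X.M κ ν nc where
  D := P.p0.D
  C c x := P.p0.C c x + q.sum fun w r => r • P.tm w c x
  S c j := q.sum fun w r => r • P.bg.lη j (P.η w j) c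

structure OK : Prop extends P.toPz.OK where
  sf : ∀ w, Sm X.I (P.fo w)
  cf : ∀ w, HasCompactSupport (P.fo w)
  pf : ∀ w x, P.bg.p2 x (P.fo w x) = P.fo w x
  η : ∀ w j, P.bg.Tst (P.bg.ct j).Ξ (P.η w j)

/-- the terms are bounded by `s` up to order `k` -/
def Sz (k : ℕ) (w : d.W) (s : ℝ) : Prop :=
  P.bg.F.CB k (P.fo w) s ∧ P.bg.F.nrm 0 (P.fo w) ≤ s ∧ (∀ j, ∫ y, ‖P.η w j y‖ ∂leb R4 ≤ s) ∧
    ∀ i, ∀ T ∈ d.yt w (ty i), T.Sz k s

/-- the perturbation `q` has size at most `η` up to order `k` -/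
def Small (k : ℕ) (η : ℝ) (q : d.W →₀ ℝ) : Prop :=
  ∃ s : d.W → ℝ, (q.sum fun w r => |r| * s w) ≤ η ∧ ∀ w ∈ q.support, 0 ≤ s w ∧ P.Sz k w (s w)

/-- irreducible solutions with the limits `β` -/
def Sol (β : BCs fun i => d.e (ty i)) (q : d.W →₀ ℝ) (c : Cfg X.M κ ν) : Prop :=
  P.In β c ∧ P.bg.Sol (P.pt q) c

end Pc

/-- classes of solutions in a family, subject to the invariant condition `R` -/
def Md {d : Dt κ lam ν} {N T : Type} [Fintype N] {ty : N → d.𝓔} (P : T → Pc d X nc ty)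
    (β : BCs fun i => d.e (ty i)) (q : d.W →₀ ℝ) (R : T → Cfg X.M κ ν → Prop) : Type :=
  Quot fun x y : {x : T × Cfg X.M κ ν // (P x.1).Sol β q x.2 ∧ R x.1 x.2} =>
    x.1.1 = y.1.1 ∧ (P x.1.1).Eqv x.1.2 y.1.2

/-- the cylinder as a neck of itself -/
def En3.nk (e : En3 κ lam ν) : Nk (X := e.Z) e e.cyl :=
  ⟨e.D.nk, rfl, rfl, fun _ _ => rfl, fun _ _ _ => rfl, fun _ _ _ => rfl, fun _ _ => rfl,
    fun _ _ => rfl⟩

/-- the cylinder as a piece -/
def Dt.cyl (d : Dt κ lam ν) (ε : d.𝓔) : Pc d (d.e ε).Z 0 fun _ : Unit => ε where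
  bg := (d.e ε).cyl
  nk _ := some (d.e ε).nk
  fo _ _ := 0
  η _ := Fin.elim0

/-- trajectories are centred by the equality of the two moments -/
def En3.cen (e : En3 κ lam ν) (x y : e.YC) (c : Cfg e.Z.M κ ν) : ℝ :=
  e.nk.mo false (En3.L x) c - e.nk.mo true (En3.L y) c

end pc

end Crest.Agent.X212.Sw
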