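import Crest.Agent.X212.Rad94.Mrk
import Crest.Agent.X212.Sw.Wld2

/-!
# Row 212, RAD-N0 (helper91): one class for all small perturbations means index zero
-/

set_option autoImplicit false
set_option linter.unusedSectionVars false
noncomputable section
open scoped Manifold ContDiff Topology InnerProductSpace
open MeasureTheory Set Function Filter

namespace Crest.Agent.X212.Sw.N0
open An En3 Rad94
open Mod61 (Prob)
open Fin93 (ext0)
open M (Mf)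

/-- an isolated regular solution has index zero -/
theorem iso_zero {W : Type} {Q : Prob W} (h : Q.Ax fun _ => True) {q : W →₀ ℝ} {x : Q.X}
    (hx : Q.Sol q x) (hr : Q.Reg q x) (hi : ∀ᶠ v in 𝓝 (Q.pt x.2), ∀ (g : Q.G x.1) (y : Q.S x.1),
      g • v = Q.pt y → Q.Sol q ⟨x.1, y⟩ → Q.eqv x ⟨x.1, y⟩) : Q.n = 0 := by
  have := h.cont x.1
  obtain ⟨m, hm⟩ := Int.eq_ofNat_of_zero_le (h.nonneg trivial hx hr)
  have r := h.slcReg trivial hx hr
  rw [hm] at r ⊢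
  have hz := Q.pt_mem_Z (A := {x | Q.Sol q x}) (y := x.2) hx
  obtain ⟨e, he⟩ := r.chart (Q.inv_Z _ _) hz
  have h1 := (Slc61.isOpenMap_mk (Q.inv_Z {x | Q.Sol q x} x.1)).image_mem_nhds
    (continuous_subtype_val.continuousAt (x := ⟨_, hz⟩) hi)
  have h2 := e.image_mem_nhds he h1
  rcases m.eq_zero_or_pos with rfl | h0
  · rfl
  have : Nonempty (Fin m) := ⟨⟨0, h0⟩⟩
  obtain ⟨_, ⟨_, ⟨z, h3, rfl⟩, rfl⟩, h4⟩ :=
    Filter.nonempty_of_mem (inter_mem_nhdsWithin {e (Slc61.cls _ ⟨_, hz⟩)}ᶜ h2) |>.imp fun _ h => h.symm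
  obtain ⟨g, y, h5, h6⟩ := z.2
  obtain ⟨g', h7⟩ := (h.orb _ x.2 y hx.1 h5.1).1 (h3 g y h6.symm h5)
  exact absurd (congrArg e (Slc61.mk_eq_iff.2 ⟨g'⁻¹ * g, by
    rw [mul_smul, ← h6, ← h7, inv_smul_smul]⟩)) h4

variable {κ lam ν : Type} [Fintype κ] [Fintype lam] [Fintype ν] [DecidableEq ν]

theorem nm_lim {e : En3 κ lam ν} {ι : Type} {l : Filter ι} {v : ι → e.YC} {v₀ : e.YC}
    (h0 : Continuous v₀.Φ) (h : ∀ η > 0, ∀ᶠ i in l, Continuous (v i).Φ ∧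
      ∀ y, ‖(v i).Φ y - v₀.Φ y‖ ≤ η) : Tendsto (fun i => nm (v i)) l (𝓝 (nm v₀)) := by
  obtain ⟨B, hB⟩ := isCompact_univ.exists_bound_of_continuousOn h0.continuousOn
  have it : ∀ {f : e.Y.M → Eu ν}, Continuous f → Integrable (fun y => ‖f y‖ ^ 2) e.D.F.μ :=
    fun hf => (hf.norm.pow 2).integrable_of_hasCompactSupport (.of_compactSpace _)
  have t : Tendsto (fun η : ℝ => η * (2 * B + η) * e.D.F.μ.real univ) (𝓝[>] 0) (𝓝 0) := by
    have : Continuous fun η : ℝ => η * (2 * B + η) * e.D.F.μ.real univ := by fun_prop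
    simpa using (this.tendsto 0).mono_left nhdsWithin_le_nhds
  refine Metric.tendsto_nhds.2 fun ε hε => ?_
  obtain ⟨η, h1, h2⟩ := ((t.eventually (gt_mem_nhds hε)).and self_mem_nhdsWithin).exists
  refine (h η h2).mono fun i hi => lt_of_le_of_lt ?_ h1
  rw [dist_eq_norm, nm, nm, ← integral_sub (it hi.1) (it h0)]
  refine norm_integral_le_of_norm_le_const (.of_forall fun y => ?_)
  have a := abs_le.1 ((abs_norm_sub_norm_le _ _).trans (hi.2 y))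
  have b := hB y trivial
  have c := norm_nonneg (v₀.Φ y)
  have d := norm_nonneg ((v i).Φ y)
  rw [Real.norm_eq_abs, abs_le]
  constructor <;> nlinarith

/-- **RAD-N0** -/
theorem n0 (hA : ∀ (d : Dt κ lam ν) [Fintype d.𝓔] (Sl : Type) [Fintype Sl] X nc k,
      AxStmt d (Prod.fst : d.𝓔 × Sl → _) X nc 0 (Fin k → ℝ) ∧
      RepStmt d (Prod.fst : d.𝓔 × Sl → _) X nc 0 (Fin k → ℝ) ∧
      DensStmt d (Prod.fst : d.𝓔 × Sl → _) X nc (Fin k → ℝ)) (hB : BrkStmt κ lam ν) :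
    N0Stmt κ lam ν := by
  intro d _ Sl _ Γ X nc k s σ D ok cD sD ri sz n hn C η₀ T N h0 hN ⟨s₀, hq⟩
  obtain ⟨ax, rep, dens⟩ := hA d Sl X nc k
  obtain ⟨G, h, he⟩ := ax s σ ok n hn 7 le_rfl
  obtain ⟨-, -, si, cv⟩ := rep s σ ok 7 le_rfl
  obtain ⟨η, hη, B⟩ := hB d Sl Γ C η₀ h0
  have B := B X nc 0 (Fin k → ℝ)
  choose r r0 hr using sz
  have z0 : ∀ s' : d.W → ℝ, ((0 : d.W →₀ ℝ).sum fun w c => |c| * s' w) = 0 := fun _ => by simp
  obtain ⟨⟨y₀, a1, a2, a3⟩, irr, -⟩ := hq 0 ((z0 _).trans_lt one_pos)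
  obtain ⟨J, hJ⟩ := dens s σ ok n hn 7 le_rfl 0 y₀ (ri _ (interior_subset a2)) a1
  have e0 : (0 : d.W →₀ ℝ) + ext0 J 0 = 0 := by
    ext w
    by_cases hw : w ∈ J
    · simpa using Fin93.ext0_mem (0 : J → ℝ) ⟨w, hw⟩
    · simpa using Fin93.ext0_not_mem (0 : J → ℝ) hw
  obtain ⟨A, hA, hres⟩ := h.loc (q := 0) (J := J) (p₀ := 0) (x₀ := ⟨(), y₀⟩) trivial
    (by rw [e0]; exact ((si 0 y₀).1 a1)) (by rw [e0]; exact hJ)
  have cq : ∀ l ≤ 𝓝 (0 : J → ℝ), St.Cv l (fun p => 0 + ext0 J p) 0 := fun l hl => by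
    have := St.cv_ext0 (l := l) (0 : d.W →₀ ℝ) (p := id) (tendsto_id'.2 hl)
    rwa [e0] at this
  have o1 := isOp_sz s₀ 1 0 ((z0 _).trans_lt one_pos) _ _ _ (cq _ le_rfl)
  have o2 := isOp_sz r η 0 ((z0 _).trans_lt hη) _ _ _ (cq _ le_rfl)
  have : Nonempty σ.Pnt := ⟨y₀⟩
  choose! y hy using fun p : J → ℝ => fun h => (hq (0 + ext0 J p) h).1
  have tn : Tendsto (fun p => (⟨(), y p⟩ : (σ.prob G n).X)) (𝓝 0)
      ((σ.prob G n).Near ⟨(), y₀⟩) := (tendsto_iff_ultrafilter _ _ _).2 fun 𝒰 h𝒰 => by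
    have s1 := (o1.filter_mono h𝒰).mono hy
    have sD' := s1.mono fun p hp => interior_subset hp.2.1
    have hP : σ.PS 𝒰 (fun p => 0 + ext0 J p) y fun _ _ _ => none :=
      ⟨fun _ => .of_forall (by simp), s1.mono fun i hi =>
        ⟨fun x _ => hi.1.1.2.eq x trivial, hi.1.1.2.l, hi.1.2⟩, fun _ _ _ _ => .of_forall (by simp)⟩
    have hb : ∀ᶠ p in (𝒰 : Filter (J → ℝ)), σ.Sm η (0 + ext0 J p) ∧ σ.Bnd C η₀ (y p) := by
      filter_upwards [o1.filter_mono h𝒰, o2.filter_mono h𝒰, s1, sD'] with p b1 b2 b3 b4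
      exact ⟨fun t ht => ⟨r, b2.le, fun w _ => ⟨r0 w, hr w t ht⟩⟩, ((hq _ b1).2.2 _ b3.1 b4).1⟩
    obtain ⟨t₀, h5, h6⟩ := cD.ultrafilter_le_nhds (𝒰.map fun p => (y p).1.1) (le_principal_iff.2 sD')
    obtain ⟨y₁, b1, b2, b3⟩ := B.conv s σ ok _ 𝒰 _ y _ 0 t₀ hP (cq _ h𝒰) hb (sD h5) h6 fun j b hj => by
      by_contra hm
      obtain ⟨C', hf⟩ := B.fre s σ ok
      obtain ⟨v, c1, y', τ, -, c2, -, c3, c4, -, c5⟩ := hf _ 𝒰 _ y _ 0 hP (cq _ h𝒰) hb j b hj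
        (ultra_top hm)
      have cr := ((Γ.rs _).gd v c1).crit
      obtain ⟨K, hK, hI⟩ := id hj
      have kk : ∀ᶠ p in (𝒰 : Filter (J → ℝ)), ∀ K' ∈ (σ.P (y' p).1.1).nk j, K'.ng = K.ng :=
        .of_forall fun p K' hK' => by
          obtain ⟨K'', c6, c7⟩ := ok.en _ (y' p).2.1 j K hK
          rwa [Option.mem_unique hK' c6]
      have lm := nm_lim (l := 𝒰) (v := fun p => sl (K.pb (y' p).1.2) (τ p)) (v₀ := v)
        (cr.1.sΦ.continuous.comp (Continuous.prodMk_left (0 : ℝ))) fun ε hε => by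
          filter_upwards [c3.cl 0 1 ε hε, kk] with p ⟨K', d1, d2, _, d3⟩ d4
          obtain ⟨d5, d6, d7, -⟩ := by simpa only [Nk.ng, Prod.mk.injEq] using d4 K' d1
          refine ⟨(y' p).2.2.1.sΦ.continuous.comp (K.ψ.continuousOn.comp_continuous
            (Continuous.prodMk_left _) fun z => ?_), fun z => ?_⟩
          · rw [K.src, ← d5, ← d6]
            exact ⟨trivial, d2 ⟨by linarith, by linarith⟩⟩
          · have := (d3 [] le_rfl (z, τ p) ⟨trivial, by linarith, by linarith⟩).2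
            rwa [Nk.pb, d7] at this
      have := (hN j b hj).2 v cr ((hN j b hj).1.mem_of_tendsto lm (by
        filter_upwards [c3.cl 0 1 1 one_pos, kk, c2, o1.filter_mono h𝒰, s1, sD',
          (c5 fun c => by have := c.1; omega).eventually_gt_atTop T]
          with p ⟨K', d1, d2, _⟩ d4 d8 d9 d10 d11 d12
        obtain ⟨d5, d6, -⟩ := by simpa only [Nk.ng, Prod.mk.injEq] using d4 K' d1
        refine ((hq _ d9).2.2 _ ((si _ _).2 (h.sol_eqv (x := ⟨(), y p⟩) (y := ⟨(), y' p⟩)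
          ((Cel.eqv_iff he).2 d8) ((si _ _).1 d10.1))) (d8.1 ▸ d11)).2 j b K hK hI _ ⟨?_, d12⟩
        rw [Nd18.Nk.J, ← d5, ← d6]
        exact d2 ⟨by linarith, by linarith⟩))
      simp [this] at c4
    have m1 : y₁.1.1 ∈ D := cD.isClosed.mem_of_tendsto b3.par sD'
    refine Tendsto.mono_right ?_ (h.near_le (x := ⟨(), y₁⟩) (irr y₁ m1 b1) ((Cel.eqv_iff he).2
      (he.symm (a3 y₁ ⟨⟨⟨y₁.2.2, irr y₁ m1 b1⟩, b1⟩, b2⟩ m1))))
    exact (σ.prob G n).tendsto_near.2 fun O hO => (cv _ _ _ _ b3 O hO).mono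
      fun i ⟨y', a1, a2⟩ => ⟨y', a1, (Cel.eqv_iff he).2 a2⟩
  obtain ⟨p, p1, p2, p3⟩ := (dense_of_mem_residual hres).inter_nhds_nonempty
    (inter_mem o1 ((tendsto_id.prodMk tn) hA))
  obtain ⟨q1, q2, q3⟩ := hy p p2
  have q4 := (si _ _).1 q1
  refine iso_zero h (x := ⟨(), y p⟩) q4 (p1 _ p3 q4) ?_
  filter_upwards [(continuous_snd.snd.tendsto (σ.pt 7 (y p))).eventually
    (isOpen_interior.mem_nhds q2)] with v hv g z e hz
  refine (Cel.eqv_iff he).2 (q3 z ((si _ _).2 hz) ?_)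
  have : z.1.1 = v.2.2 := funext fun c => (congrArg (fun u : σ.C 7 => u.2.2 c) e).symm.trans
    (G.inv (fun u => u.2.2 c) (by fun_prop) (fun y y' e => congrFun e.1.symm c) g v
      (sD (interior_subset hv)))
  exact this ▸ interior_subset hv

end Crest.Agent.X212.Sw.N0
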