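import Crest.Agent.X212.Sw.One1

/-!
# Row 212, RAD-ONE (helper91), part 2: the contraction, `Rad94.OneStmt`
-/

set_option autoImplicit false
set_option linter.unusedSectionVars false
noncomputable section
open scoped Manifold ContDiff Topology InnerProductSpace
open MeasureTheory Set Function Filter Real

namespace Crest.Agent.X212.Sw.One
open An Sw.En3 Rad94 Sob92
open M (Mf pm)

theorem sml (C : ℝ) {a b : ℝ} (ha : 0 < a) (hb : 0 < b) :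
    ∃ ρ > 0, ρ ≤ a ∧ ∀ x ∈ Icc 0 ρ, C * x ≤ b := by
  refine ⟨min a (b / (|C| + 1)), by positivity, min_le_left _ _, fun x hx => ?_⟩
  have := (le_div_iff₀ (by positivity)).1 (hx.2.trans (min_le_right _ _))
  nlinarith [mul_le_mul_of_nonneg_right (le_abs_self C) hx.1, hx.1]

variable {κ lam ν : Type} [Fintype κ] [Fintype lam] [Fintype ν] [DecidableEq ν]
  {X : Mf 4} {nc k : ℕ}

/-- a fixed point -/
theorem fixp {A : Type} [Fintype A] {g : Gm X κ lam A} {ε ρ c : ℝ} {V : Type}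
    [NormedAddCommGroup V] [InnerProductSpace ℝ V] [FiniteDimensional ℝ V] (hU : g.UlC) (hε : 0 < ε)
    {P : (X.M → V) → (X.M → V) → Prop} {In : (X.M → V) → Prop} (i0 : In 0)
    (ex : ∀ f, In f → ∃ f₁, P f f₁ ∧ In f₁) (cb : ∀ f f₁, P f f₁ → g.F.Cb f₁)
    (con : ∀ f f₁ f' f₁', P f f₁ → P f' f₁' →
      g.Q (fun _ => ε) (f₁' - f₁) ≤ 1 / 2 * g.Q (fun _ => ε) (f - f'))
    (gain : ∀ j ≥ 7, ∀ r, ∃ r₁, ∀ f f₁, P f f₁ → g.Ul j f r → g.Ul (j + 1) f₁ r₁)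
    (u7 : ∀ f, In f → Sm X.I f ∧ g.Ul 7 f ρ ∧ g.F.CB 7 f c)
    (cl : ∀ (f : ℕ → X.M → V) v, (∀ n, In (f n)) → g.F.Cb v → g.F.CB 7 v c →
      (∀ x, Tendsto (fun n => f n x) atTop (𝓝 (v x))) → ∃ v₁, P v v₁) : ∃ v, P v v := by
  choose nx hP hI using ex
  let s : ℕ → {f // In f} := fun n => Nat.rec ⟨0, i0⟩ (fun _ p => ⟨nx p.1 p.2, hI _ _⟩) n
  have st : ∀ n, P (s n).1 (s (n + 1)).1 := fun n => hP _ (s n).2
  have sm : ∀ n, Sm X.I (s n).1 := fun n => (u7 _ (s n).2).1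
  have ub : ∀ j, ∃ r, ∀ n, g.Ul (7 + j) (s n).1 r := fun j => by
    induction j with
    | zero => exact ⟨ρ, fun n => (u7 _ (s n).2).2.1⟩
    | succ j ih =>
      obtain ⟨r, hr⟩ := ih
      obtain ⟨r₁, h₁⟩ := gain (7 + j) (by omega) r
      refine ⟨|r₁|, fun n => ?_⟩
      cases n with
      | zero => exact ul_mono (ul_zero hU _) le_rfl (abs_nonneg _)
      | succ n => exact ul_mono (h₁ _ _ (st n) (hr n)) le_rfl (le_abs_self _)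
  choose r hr using ub
  choose Cs hCs using hU.sup V
  have cbs : ∀ n, g.F.CBs (s n).1 fun j => if j = 7 then c else Cs j * r j := fun n =>
    ⟨sm n, fun j => by
      beta_reduce
      split_ifs with hj
      · exact hj ▸ (u7 _ (s n).2).2.2
      · exact hCs j _ _ (sm n) (ul_mono (hr j n) (by omega) le_rfl)⟩
  obtain ⟨B, hB⟩ := hU.q ε hε
  have ca : ∀ N n m, g.Q (fun _ => ε) ((s (n + N)).1 - (s (m + N)).1) ≤
      (1 / 2) ^ N * (B * (ρ + |-1| * ρ) ^ 2) := fun N n m => by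
    induction N with
    | zero =>
      have := ul_add hU (-1) (sm n) (sm m) (u7 _ (s n).2).2.1 (u7 _ (s m).2).2.1
      rw [neg_one_smul, ← sub_eq_add_neg] at this
      rw [pow_zero, one_mul]
      exact (hB V _ _ ((sm n).sub (sm m)).continuous (ul_mono this (by omega) le_rfl)).2
    | succ N ih =>
      have := con _ _ _ _ (st (m + N)) (st (n + N))
      rw [Q_comm (s (m + N)).1] at this
      rw [pow_succ, mul_comm _ (1 / 2 : ℝ), mul_assoc]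
      exact this.trans (by linarith)
  obtain ⟨v, hv, pt, tv⟩ := hU.lim V (fun n => (s n).1) _ ε hε cbs fun d hd => by
    have := (tendsto_pow_atTop_nhds_zero_of_lt_one (r := (1 / 2 : ℝ)) (by norm_num)
      (by norm_num)).mul_const (B * (ρ + |-1| * ρ) ^ 2)
    rw [zero_mul] at this
    obtain ⟨N, hN⟩ := (this.eventually (ge_mem_nhds hd)).exists
    refine ⟨N, fun n hn m hm => ?_⟩
    obtain ⟨n, rfl⟩ := Nat.exists_eq_add_of_le' hn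
    obtain ⟨m, rfl⟩ := Nat.exists_eq_add_of_le' hm
    exact (ca N n m).trans hN
  obtain ⟨v₁, h₁⟩ := cl _ v (fun n => (s n).2) ⟨_, hv⟩ (by simpa using hv.2 7) pt
  have : v₁ = v := eq_of_Q hU hε (cb _ _ h₁) ⟨_, hv⟩ (by
    have t := ((tv.const_mul (1 / 2)).add ((tendsto_add_atTop_iff_nat 1).2 tv)).const_mul 2
    simp only [mul_zero, add_zero] at t
    refine ge_of_tendsto' t fun n => ?_
    have a := Q_add hU hε (Cb_sub (cb _ _ h₁) ⟨_, cbs (n + 1)⟩) (Cb_sub ⟨_, cbs (n + 1)⟩ ⟨_, hv⟩)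
    rw [sub_add_sub_cancel] at a
    linarith [con _ _ _ _ (st n) h₁])
  exact ⟨v, this ▸ h₁⟩

variable {e : Bool → En3 κ lam ν} {Z : Pz X nc e} {z : Two Z} {ϖ : Fin k → X.M → F2 κ}
  {a₀ : Fo X κ} {β : Bool → ℝ → ℝ} {l : Bool → ℝ} {G : (X.M → F2 κ) → Fo X κ}
  {S : (X.M → F2 κ) → Fin k → ℝ} {ε η δ lo up T C ρ r M w : ℝ}
  {φ ψ : (Fin k → ℝ) → Fin k → ℝ} {D Dm : Set (Fin k → ℝ)} {W : Type}

/-- bounds of the test spinors -/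
def ET (L : z.Lv ϖ φ Dm w β W) (δ : ℝ) (q : W →₀ ℝ) : Prop := ∀ t ∈ Dm, ∀ j,
  Z.bg.Tst (Z.bg.ct j).Ξ (L.et q t j) ∧ RB Z.bg z.gm j (L.et q t j) δ ∧
    ∀ t' ∈ Dm, RB Z.bg z.gm j (L.et q t j - L.et q t' j) (δ * ‖t - t'‖)

/-- the Lipschitz bound of the terms -/
def LP (L : z.Lv ϖ φ Dm w β W) (δ M ε : ℝ) (q : W →₀ ℝ) : Prop := ∀ t ∈ Dm, ∀ t' ∈ Dm,
  ∀ c c' : Cfg X.M κ ν, S1 Z.bg c.a → Sc Z.bg.pp c.Φ → S1 Z.bg c'.a → Sc Z.bg.pp c'.Φ →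
    Z.bg.F.CB 1 (vc c.a) M → Z.bg.F.CB 1 c.Φ M → Z.bg.F.CB 1 (vc c'.a) M → Z.bg.F.CB 1 c'.Φ M →
    z.gm.Q (fun _ => ε) (L.tau q t c - L.tau q t' c') ≤ δ * (z.gm.Q (fun _ => ε) (vc (c.a - c'.a)) +
      z.gm.Q (fun _ => ε) (c.Φ - c'.Φ) + ‖t - t'‖ ^ 2)

/-- bounds of the derivatives of the terms -/
def BK (L : z.Lv ϖ φ Dm w β W) (δ : ℝ) (j : ℕ) (M : ℝ) (q : W →₀ ℝ) : Prop := ∀ t ∈ Dm,
  ∀ c : Cfg X.M κ ν, S1 Z.bg c.a → Sc Z.bg.pp c.Φ → z.gm.Ul 1 (vc c.a) M → z.gm.Ul 1 c.Φ M →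
    Z.bg.F.CB j (L.tau q t c) δ

/-- the bounds of the states -/
def BM (z : Two Z) (a₀ : Fo X κ) (β : Bool → ℝ → ℝ) (l : Bool → ℝ) (G : (X.M → F2 κ) → Fo X κ)
    (η δ M : ℝ) : Prop := ∀ ρ ≤ 1, ∀ f η₁ u, St z a₀ β l G η δ ρ f η₁ u →
  z.gm.Ul 1 (vc (a₀ + G f)) M ∧ z.gm.Ul 1 u M ∧ Z.bg.F.CB 1 (vc (a₀ + G f)) M ∧ Z.bg.F.CB 1 u M

theorem rhs_eq (L : z.Lv ϖ φ Dm w β W) (q : W →₀ ℝ) (t : Fin k → ℝ) (c : Cfg X.M κ ν) :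
    L.rhs q t c = L.tau q t c + w • qq Z.bg c.Φ := funext fun _ => add_comm _ _

namespace Cx
variable (h : Cx z ϖ a₀ β l G S ε η δ lo up T C)
include h

theorem cbq {u : X.M → Eu ν} (hu : Z.bg.F.Cb u) : Z.bg.F.Cb (qq Z.bg u) := by
  obtain ⟨B, hB, eB⟩ := h.alg.qd
  rw [show qq Z.bg u = _ from funext fun x => eB x (u x) (u x)]
  exact Cb_app (Cb_app hB hu) hu

/-- the contraction estimate -/
theorem con (hp : Par φ ψ r D Dm) (hM : 0 ≤ M) (bM : BM z a₀ β l G η δ M) : ∃ K ≥ 0,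
    ∀ w W (L : z.Lv ϖ φ Dm w β W) q d, 0 ≤ d → L.Unf a₀ → ET L δ q → LP L d M ε q → ∀ ρ ≤ 1,
    ∀ f u f' u', S f ∈ Metric.ball 0 r → S f' ∈ Metric.ball 0 r →
      St z a₀ β l G η δ ρ f (L.et q (ψ (S f))) u → St z a₀ β l G η δ ρ f' (L.et q (ψ (S f'))) u' →
      ∃ ζ : ℂ, ‖ζ‖ = 1 ∧
        z.gm.Q (fun _ => ε) (u' - rt Z.bg ζ u) ≤ K * z.gm.Q (fun _ => ε) (f - f') ∧
        z.gm.Q (fun _ => ε) (L.rhs q (ψ (S f')) ⟨a₀ + G f', u'⟩ - L.rhs q (ψ (S f)) ⟨a₀ + G f, u⟩) ≤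
          (w ^ 2 + d) * K * z.gm.Q (fun _ => ε) (f - f') := by
  obtain ⟨K, hK, bK⟩ := h.lipU
  obtain ⟨c, hc, bc⟩ := h.wt
  obtain ⟨Λ, hΛ⟩ := hp.lip
  obtain ⟨B, ⟨cB, sB, hB⟩, eB⟩ := h.alg.qd
  set K₁ := K * (1 + δ ^ 2 * Λ ^ 2 * c)
  refine ⟨K₁ + 2 * ((2 * |cB 0| * M) ^ 2 * K₁) + 2 * (c + K₁ + Λ ^ 2 * c), by positivity,
    fun w W L q d hd un et lp ρ hρ f u f' u' hf hf' s s' => ?_⟩
  set t := ψ (S f)
  set t' := ψ (S f')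
  have ht : t ∈ Dm := hp.sub (hp.ri _ hf).1
  have ht' : t' ∈ Dm := hp.sub (hp.ri _ hf').1
  set Y := z.gm.Q (fun _ => ε) (f - f')
  have Y0 : 0 ≤ Y := Q_nn _
  have tt : ‖t - t'‖ ^ 2 ≤ Λ ^ 2 * c * Y := by
    have := hΛ.dist_le_mul _ hf _ hf'
    rw [dist_eq_norm, dist_eq_norm] at this
    have := pow_le_pow_left₀ (norm_nonneg _) this 2
    rw [mul_pow] at this
    exact this.trans (by
      rw [mul_assoc]; exact mul_le_mul_of_nonneg_left (bc f f' s.sd s'.sd).2 (sq_nonneg _))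
  obtain ⟨ζ, hζ, hq⟩ := bK ρ hρ _ _ _ _ _ _ _ s s' fun j => (et t ht j).2.2 t' ht'
  have hq₁ : z.gm.Q (fun _ => ε) (u' - rt Z.bg ζ u) ≤ K₁ * Y := hq.trans (by
    have := mul_le_mul_of_nonneg_left tt (sq_nonneg δ)
    rw [mul_pow, mul_assoc K]
    exact mul_le_mul_of_nonneg_left (by linarith) hK)
  have K0 : 0 ≤ K₁ := by positivity
  have p1 : 0 ≤ (2 * |cB 0| * M) ^ 2 * K₁ := by positivity
  have p2 : 0 ≤ c + K₁ + Λ ^ 2 * c := by positivity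
  refine ⟨ζ, hζ, hq₁.trans (mul_le_mul_of_nonneg_right (by linarith) Y0), ?_⟩
  obtain ⟨-, -, ba, bu⟩ := bM ρ hρ _ _ _ s
  obtain ⟨-, -, ba', bu'⟩ := bM ρ hρ _ _ _ s'
  set v := rt Z.bg ζ u
  have sv : Sc Z.bg.pp v := h.sc_rt ζ s.rs.sc
  have bv : Z.bg.F.CB 1 v M := h.CB_rt hζ hM s.rs.sc.1 bu
  have cv : Z.bg.F.Cb v := Cb_clm (Pb50.cB Z.bg.m.J ζ) (h.cbu s)
  have ro := un.rot ⟨a₀ + G f, u⟩ ζ hζ
  have e1 := (un.act q t ht ⟨a₀ + G f, u⟩ _ ((un.adm t ht _).2 ⟨s.nr.a1.1, s.rs.sc⟩) ro.1).2.2.1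
  rw [ro.2] at e1
  rw [← e1, rhs_eq, rhs_eq, add_sub_add_comm, ← smul_sub]
  have c1 := Cb_sub (un.sd q t' ht' ⟨_, u'⟩ s'.nr.a1 s'.rs.sc (h.cbu s')).1.1
    (un.sd q t ht ⟨_, v⟩ s.nr.a1 sv cv).1.1
  have c2 : Z.bg.F.Cb (w • (qq Z.bg u' - qq Z.bg v)) :=
    Cb_smul (Cb_const w) (Cb_sub (h.cbq (h.cbu s')) (h.cbq cv))
  refine (Q_add h.ul h.ε0 c1 c2).trans ?_
  have b1 := lp t' ht' t ht ⟨_, u'⟩ ⟨_, v⟩ s'.nr.a1.1 s'.rs.sc s.nr.a1.1 sv ba' bu' ba bv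
  have b2 := Q_le1 (c := |w| * (2 * |cB 0| * M)) h.ul h.ε0 (Cb_sub (h.cbu s') cv) c2 fun x => by
    have n0 := CB_bound (CB_abs (hB 0)) x
    have n1 := mul_le_mul n0 (CB_bound bu' x) (norm_nonneg _) (abs_nonneg _)
    have n2 := mul_le_mul n0 (CB_bound bv x) (norm_nonneg _) (abs_nonneg _)
    have n3 := (B x).le_opNorm₂ (u' x - v x) (u' x)
    have n4 := (B x).le_opNorm₂ (v x) (u' x - v x)
    rw [Pi.smul_apply, norm_smul, Real.norm_eq_abs, mul_assoc, Pi.sub_apply, Pi.sub_apply, qq, qq, eB,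
      eB, show B x (u' x) (u' x) - B x (v x) (v x) = B x (u' x - v x) (u' x) + B x (v x) (u' x - v x) by
        simp only [map_sub, sub_apply]; abel]
    refine mul_le_mul_of_nonneg_left ((norm_add_le _ _).trans ?_) (abs_nonneg _)
    nlinarith [norm_nonneg (u' x - v x)]
  have qa := (bc f' f s'.sd s.sd).1
  rw [Q_comm f'] at qa
  rw [norm_sub_rev] at b1
  have b1' := b1.trans (mul_le_mul_of_nonneg_left (add_le_add (add_le_add qa hq₁) tt) hd)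
  have b2' := b2.trans (mul_le_mul_of_nonneg_left hq₁ (sq_nonneg _))
  rw [mul_pow, sq_abs] at b2'
  have p3 : 0 ≤ w ^ 2 * (K₁ + 2 * (c + K₁ + Λ ^ 2 * c)) * Y := by positivity
  have p4 : 0 ≤ d * (K₁ + 2 * ((2 * |cB 0| * M) ^ 2 * K₁)) * Y := by positivity
  nlinarith

/-- small forms are admissible -/
theorem adm (hδ : 0 < δ) (hr : 0 < r) : ∃ ρ ∈ Ioc (0 : ℝ) 1, ∀ f, SD Z.bg f → z.gm.Ul 7 f ρ →
    S f ∈ Metric.ball 0 r ∧ ∀ η₁, (∀ j, Z.bg.Tst (Z.bg.ct j).Ξ (η₁ j) ∧ RB Z.bg z.gm j (η₁ j) δ) →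
      Nr Z.bg z.gm a₀ δ (a₀ + G f) η₁ := by
  obtain ⟨C₁, h₁⟩ := h.hdg.ul 7
  obtain ⟨C₂, h₂⟩ := h.ul.sup (Fm (Option κ) ℝ) 0
  obtain ⟨ρ₁, p₁, l₁, b₁⟩ := sml C₁ one_pos (half_pos hr)
  obtain ⟨ρ, p, l₂, b₂⟩ := sml (C₂ * C₁) p₁ hδ
  refine ⟨ρ, ⟨p, l₂.trans l₁⟩, fun f hf uf => ⟨?_, fun η₁ hη => ⟨(h.alg.a1 _ _ h.a1
    (h.hdg.a1 f hf)).2, fun x => ?_, hη⟩⟩⟩
  · rw [mem_ball_zero_iff]
    linarith [(h₁ f ρ hf uf).2, b₁ ρ ⟨p.le, l₂⟩]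
  · rw [vc_add, one_smul, Pi.add_apply, add_sub_cancel_left]
    have := CB_bound (h₂ _ _ (h.smv (h.hdg.a1 f hf)) (ul_mono (h₁ f ρ hf uf).1 (by omega) le_rfl)) x
    linarith [b₂ ρ ⟨p.le, le_rfl⟩]

/-- existence of a fixed point -/
theorem fix (bM : BM z a₀ β l G η δ M) (hρ : ρ ∈ Ioc (0 : ℝ) 1) : ∃ w₀ > 0, ∃ d > 0,
    ∀ w ∈ Icc 0 w₀, ∀ W (L : z.Lv ϖ φ Dm w β W) q, L.Unf a₀ → L.Trm → BK L d 11 M q →
    (∀ f, SD Z.bg f → z.gm.Ul 7 f ρ →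
      ψ (S f) ∈ Dm ∧ ∃ u, St z a₀ β l G η δ ρ f (L.et q (ψ (S f))) u) →
    (∀ f u f' u', St z a₀ β l G η δ ρ f (L.et q (ψ (S f))) u →
      St z a₀ β l G η δ ρ f' (L.et q (ψ (S f'))) u' →
      z.gm.Q (fun _ => ε) (L.rhs q (ψ (S f')) ⟨a₀ + G f', u'⟩ - L.rhs q (ψ (S f)) ⟨a₀ + G f, u⟩) ≤
        1 / 2 * z.gm.Q (fun _ => ε) (f - f')) →
    ∃ f u, St z a₀ β l G η δ ρ f (L.et q (ψ (S f))) u ∧ L.rhs q (ψ (S f)) ⟨a₀ + G f, u⟩ = f := by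
  obtain ⟨Cs, hs⟩ := h.ul.sup (F2 κ) 7
  obtain ⟨Cc, hc⟩ := h.ul.cb (F2 κ) 7
  obtain ⟨Cd, hd⟩ := h.ul.cb (F2 κ) 11
  obtain ⟨K, hK⟩ := h.reg 10 (by omega) 1
  obtain ⟨ρ₁, p₁, l₁, b₁⟩ := sml (Cc * Cs) hρ.1 hρ.1
  obtain ⟨w₀, p₂, -, b₂⟩ := sml K one_pos (half_pos p₁)
  obtain ⟨d, p₃, -, b₃⟩ := sml Cd one_pos (half_pos p₁)
  refine ⟨w₀, p₂, d, p₃, fun w hw W L q un tr bk ex con => ?_⟩
  have sd : ∀ f u, St z a₀ β l G η δ ρ f (L.et q (ψ (S f))) u → _ := fun f u s =>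
    un.sd q _ (ex f s.sd s.ul).1 ⟨a₀ + G f, u⟩ s.nr.a1 s.rs.sc (h.cbu s)
  obtain ⟨v, u, s, hv⟩ := fixp (ρ := ρ) (c := Cs * ρ₁) h.ul h.ε0
    (P := fun f f₁ => ∃ u, St z a₀ β l G η δ ρ f (L.et q (ψ (S f))) u ∧
      L.rhs q (ψ (S f)) ⟨a₀ + G f, u⟩ = f₁) (In := fun f => SD Z.bg f ∧ z.gm.Ul 11 f ρ₁)
    ⟨⟨Cb_const 0, fun x => map_zero _⟩, ul_mono (ul_zero h.ul _) le_rfl p₁.le⟩
    (fun f ⟨hf, uf⟩ => by
      obtain ⟨ht, u, s⟩ := ex f hf (ul_mono uf (by omega) l₁)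
      obtain ⟨ba, bu, -⟩ := bM ρ hρ.2 _ _ _ s
      have c1 := (sd f u s).1.1.choose_spec.1
      refine ⟨_, ⟨u, s, rfl⟩, (sd f u s).2, ?_⟩
      rw [rhs_eq]
      refine ul_mono (ul_add h.ul w c1 (h.cbq (h.cbu s)).choose_spec.1
        (hd _ _ c1 (bk _ ht ⟨_, u⟩ s.nr.a1.1 s.rs.sc ba bu))
        (hK _ _ _ _ s (ul_mono uf (by omega) (l₁.trans hρ.2))).2.2) le_rfl ?_
      rw [abs_of_nonneg hw.1]
      linarith [b₂ w hw, b₃ d ⟨p₃.le, le_rfl⟩])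
    (fun f _ ⟨u, s, e⟩ => e ▸ (sd f u s).2.1)
    (fun f _ f' _ ⟨u, s, e⟩ ⟨u', s', e'⟩ => e ▸ e' ▸ con f u f' u' s s')
    (fun j hj r => by
      obtain ⟨K, hK⟩ := h.reg j hj r
      obtain ⟨C₁, h₁⟩ := tr.all q (j + 1) M
      obtain ⟨C₂, h₂⟩ := h.ul.cb (F2 κ) (j + 1)
      refine ⟨C₂ * C₁ + |w| * K, fun f _ ⟨u, s, e⟩ uf => ?_⟩
      obtain ⟨ba, bu, -⟩ := bM ρ hρ.2 _ _ _ s
      have c1 := (sd f u s).1.1.choose_spec.1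
      rw [← e, rhs_eq]
      exact ul_add h.ul w c1 (h.cbq (h.cbu s)).choose_spec.1 (h₂ _ _ c1
        (h₁ _ (ex f s.sd s.ul).1 ⟨_, u⟩ s.nr.a1.1 s.rs.sc ba bu)) (hK _ _ _ _ s uf).2.2)
    (fun f ⟨hf, uf⟩ => ⟨hf.1.choose_spec.1, ul_mono uf (by omega) l₁,
      hs _ _ hf.1.choose_spec.1 uf⟩)
    fun f v hf cv bv pt => by
      obtain ⟨-, u, s⟩ := ex v ⟨cv, fun x => tendsto_nhds_unique
        (((Z.bg.p2 x).continuous.tendsto _).comp (pt x)) ((pt x).congr fun n => ((hf n).1.2 x).symm)⟩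
        (ul_mono (hc _ _ cv.choose_spec.1 bv) le_rfl (by linarith [b₁ ρ₁ ⟨p₁.le, le_rfl⟩]))
      exact ⟨_, u, s, rfl⟩
  exact ⟨v, u, s, hv⟩

/-- the normal form of a solution -/
theorem nf (hc : Clo Z.bg ϖ) {L : z.Lv ϖ φ Dm w β W} (un : L.Unf a₀) {q : W →₀ ℝ}
    {t : Fin k → ℝ} (ht : t ∈ Dm) {c : Cfg X.M κ ν} (s : (L.P t).bg.Sol ((L.P t).pt q) c)
    (ha : A1 Z.bg c.a) (hu : Z.bg.F.Cb c.Φ) : ∃ γ, Gau X.I γ ∧ φ t = S (L.rhs q t c) ∧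
      (Z.bg.act γ c).a = a₀ + G (L.rhs q t c) ∧ Z.bg.F.Cb (Z.bg.act γ c).Φ := by
  have sc := ((un.adm t ht c).1 s.toAdm).2
  have sd := (un.sd q t ht c ha sc hu).2
  have a1 := (h.alg.a1 _ _ ha h.a1).1
  have a2 := h.hdg.a1 _ sd
  have a3 := (h.alg.a1 _ _ a1 a2).1
  obtain ⟨e0, g, sg, eg⟩ := hc _ (φ t - S (L.rhs q t c)) a3 fun x => by
    have e1 := ((un.sol q t ht c s.toAdm).1 s).C x
    have e2 := h.hdg.eq _ sd x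
    rw [h.alg.d1 _ _ x a1.1 a2.1, map_sub, sub_eq_iff_eq_add.1 e1, sub_eq_iff_eq_add.1 e2]
    simp only [Pi.sub_apply, sub_smul, Finset.sum_sub_distrib]
    abel
  obtain ⟨g1, g2, g3⟩ := h.alg.exp g c.a c.Φ sg (fun i => eg i ▸ a3.2 i) hu
  refine ⟨_, g1, sub_eq_zero.1 e0, g2.trans ?_, g3⟩
  rw [← funext eg]
  abel

end Cx

theorem gau_mul {u v : X.M → ℂ} (hu : Gau X.I u) (hv : Gau X.I v) : Gau X.I fun x => u x * v x :=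
  ⟨smooth_bil (ContinuousLinearMap.mul ℝ ℂ) hu.1 hv.1, fun x => by rw [norm_mul, hu.2, hv.2, one_mul]⟩

theorem gau_star {u : X.M → ℂ} (hu : Gau X.I u) : Gau X.I fun x => star (u x) :=
  ⟨fun x => Pb50.sa_star (hu.1 x), fun x => (norm_star _).trans (hu.2 x)⟩

theorem act_star {b : Bg X.I X.M κ lam ν nc} (hb : b.OK) {u : X.M → ℂ} (hu : Gau X.I u)
    (c : Cfg X.M κ ν) : b.act (fun x => star (u x)) (b.act u c) = c := by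
  rw [Pb50.act_act hb hu (gau_star hu), funext fun x => Pb50.star_mul_one (hu.2 x), Pb50.act_one]

/-- **RAD-ONE** -/
theorem one (hO : OutStmt κ lam ν) (hN : UnfStmt κ lam ν) (hT : TrmStmt κ lam ν)
    (hE : EndStmt κ lam ν) (hR : RegStmt κ lam ν) (hA : AlgStmt κ lam ν) (hU : UlStmt κ lam)
    (hB : RbStmt κ lam ν) (hV : EqvStmt κ lam ν) : OneStmt κ lam ν := by
  intro X nc k e Z z ϖ φ ψ r D Dm a₀ l hb hk β hβ C₀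
  obtain ⟨hc, ε₀, p₀, G, S, hG⟩ := hb.hdg
  obtain ⟨ε₁, p₁, hε₁⟩ := hO X nc k e Z z ϖ a₀ l hb.ok hb.ref hk β hβ
  set ε := min ε₀ (min ε₁ 1)
  have ε0 : 0 < ε := by positivity
  obtain ⟨η₀, p₂, hη₀⟩ := hε₁ ε ⟨ε0, (min_le_right _ _).trans (min_le_left _ _)⟩
  refine ⟨η₀ / 2, half_pos p₂, fun η hη => ?_⟩
  obtain ⟨δ, hδ, lo, hlo, up, T, C, out⟩ := hη₀ (2 * η) ⟨by linarith [hη.1], by linarith [hη.2]⟩
  have al := hA X nc e Z z hb.ok.ok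
  have sβ := fun s => (hβ s).sm
  have h : Cx z ϖ a₀ β l G S ε (2 * η) δ lo up T C :=
    ⟨hb.ok.ok, hU X _ _ al.1, al.2, hG ε ⟨ε0, min_le_left _ _⟩, out, hb.ref.a1, ε0, fun j => by
      have c := (hb.ok.ok.bg.ct j).η
      obtain ⟨R, hR⟩ := c.cpt.isCompact.isBounded.subset_closedBall 0
      obtain ⟨m, hm⟩ := c.sm.continuous.bounded_above_of_compact_support c.cpt
      obtain ⟨C, hC⟩ := hB X nc k e Z z ϖ hb.ok j R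
      exact ⟨_, (hC _ m c (fun y hy => image_eq_zero_of_notMem_tsupport fun h =>
        hy.not_ge (mem_closedBall_zero_iff.1 (hR h))) hm).1⟩,
      hR.hi X nc e Z z hb.ok.ok β sβ⟩
  obtain ⟨M, hM, bM⟩ := h.bds
  obtain ⟨K, hK, con⟩ := h.con hb.par hM bM
  obtain ⟨ρ, hρ, adm⟩ := h.adm hδ hb.par.r0
  obtain ⟨w₁, q₁, d₁, q₂, fix⟩ := h.fix (φ := φ) (ψ := ψ) (Dm := Dm) bM hρ
  obtain ⟨M₂, d₂, q₃, low⟩ := hR.lo X nc k e Z z ϖ a₀ ε G S hb.ok.ok hb.ref.a1 h.hdg β sβ C₀ ρ hρ.1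
  obtain ⟨d, q₄, l₄, b₄⟩ := sml K one_pos (show (0 : ℝ) < 1 / 4 by norm_num)
  refine ⟨lo, hlo, T, min w₁ (min d₂ d), by positivity, fun w hw W L => ?_⟩
  simp only [mem_Ioc, le_min_iff] at hw
  have un := hN X nc k e Z z ϖ φ Dm w β W L a₀ hb.ok hb.ref
  have tr := hT X nc k e Z z ϖ φ Dm w β W L hb.ok
  refine evq_mono (evq_and (evq_and (evq_and (tr.et δ hδ) (tr.lip d q₄ M ε
    ⟨ε0, (min_le_right _ _).trans (min_le_right _ _)⟩)) (evq_and (tr.bk d₁ q₂ 11 M)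
    (hE X nc k e Z z ϖ φ Dm w β W L hb.ok l (2 * η) M lo hlo)))
    (evq_and (tr.b0 d₂ q₃) (tr.bk d₂ q₃ 7 M₂))) fun q ⟨⟨⟨et, lp⟩, bk, en⟩, b0, bk'⟩ x li uq bd => ?_
  have cr := fun s => (li s).1
  have θ : (w ^ 2 + d) * K ≤ 1 / 2 := by
    have := b₄ (w ^ 2) ⟨sq_nonneg _, by nlinarith [hw.1, hw.2.2.2]⟩
    linarith [b₄ d ⟨q₄.le, le_rfl⟩]
  have con := fun f u f' u' (s : St z a₀ β l G (2 * η) δ ρ f (L.et q (ψ (S f))) u)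
    (s' : St z a₀ β l G (2 * η) δ ρ f' (L.et q (ψ (S f'))) u') => con w W L q d q₄.le un et lp ρ hρ.2
      f u f' u' (adm f s.sd s.ul).1 (adm f' s'.sd s'.ul).1 s s'
  obtain ⟨f, u, s, ef⟩ := fix w ⟨hw.1.le, hw.2.1⟩ W L q un tr bk
    (fun f hf uf => by
      have ht := hb.par.sub (hb.par.ri _ (adm f hf uf).1).1
      have nr := (adm f hf uf).2 _ fun j => ⟨(et _ ht j).1, (et _ ht j).2.1⟩
      obtain ⟨u, hu⟩ := out.ex _ _ nr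
      exact ⟨ht, u, hf, uf, nr, hu⟩)
    fun f u f' u' s s' => by
      obtain ⟨_, -, -, a⟩ := con f u f' u' s s'
      exact a.trans (mul_le_mul_of_nonneg_right θ (Q_nn _))
  have nf : ∀ t' ∈ Dm, ∀ c', (L.P t').Sol x q c' → ∃ γ f' u', Gau X.I γ ∧
      Z.bg.act γ c' = ⟨a₀ + G f', u'⟩ ∧ t' = ψ (S f') ∧ (∀ y, ‖u' y‖ = ‖c'.Φ y‖) ∧
      St z a₀ β l G (2 * η) δ ρ f' (L.et q (ψ (S f'))) u' ∧
      L.rhs q (ψ (S f')) ⟨a₀ + G f', u'⟩ = f' := fun t' ht' c' sc' => by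
    obtain ⟨a1, cb, lim⟩ := un.lim x t' ht' c' cr sc'.1.1
    obtain ⟨γ, hγ, e1, e2, cb'⟩ := h.nf hc un ht' sc'.2 a1 cb
    obtain ⟨e3, -, e4, e5, so⟩ := un.act q t' ht' c' γ sc'.2.toAdm hγ
    have so := so sc'.2
    have eq := (un.sol q t' ht' _ so.toAdm).1 so
    have sc := ((un.adm t' ht' _).1 so.toAdm).2
    have sd := (un.sd q t' ht' c' a1 ((un.adm t' ht' _).1 sc'.2.toAdm).2 cb).2
    have a2 : A1 Z.bg (Z.bg.act γ c').a := e2 ▸ (h.alg.a1 _ _ h.a1 (h.hdg.a1 _ sd)).2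
    have ul := low w ⟨hw.1.le, hw.2.2.1⟩ _ _ _ _ a2 sc cb' (fun y => (e5 y).trans_le (bd t' ht' c' sc' y))
      eq.D (un.sd q t' ht' _ a2 sc cb').1 sd (b0 t' ht' _) (bk' t' ht' _ a2.1 sc)
      (fun y => (congrFun e4 y).symm) (by rw [e2, add_sub_cancel_left])
    have et' : ψ (S (L.rhs q t' c')) = t' := e1 ▸ hb.par.li t' ht' (e1 ▸ (adm _ sd ul).1)
    have ec : Z.bg.act γ c' = ⟨a₀ + G (L.rhs q t' c'), (Z.bg.act γ c').Φ⟩ := Cfg.ext e2 rfl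
    refine ⟨γ, _, _, hγ, ec, et'.symm, e5, ⟨sd, ul, (adm _ sd ul).2 _ fun j => ?_, sc, e2 ▸ eq.D,
      et'.symm ▸ e2 ▸ eq.l, fun s => ?_⟩, by rw [← ec, et', e4]⟩
    · rw [et']; exact ⟨(et _ ht' j).1, (et _ ht' j).2.1⟩
    · rw [n2_congr e5]
      have := (((sβ s).continuous.tendsto _).comp (lim s)).sub_const (l s) |>.abs
      exact this.eventually (ge_mem_nhds (by linarith [(li s).2, hη.1]))
  have ri := hb.par.ri _ (adm f s.sd s.ul).1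
  have ht := hb.par.sub ri.1
  have ad := (un.adm _ ht ⟨a₀ + G f, u⟩).2 ⟨s.nr.a1.1, s.rs.sc⟩
  have bs := out.bnd _ _ _ s.nr s.rs
  obtain ⟨u₀, g₀, s₀⟩ := en x cr uq _ ht _ ((un.sol q _ ht _ ad).2 ⟨s.rs.eq, fun y => by
      rw [ef, ri.2, add_sub_cancel_left]; exact h.hdg.eq f s.sd y, s.rs.row⟩)
    s.nr.a1 (h.cbu s) (CB_bound (bM ρ hρ.2 _ _ _ s).2.2.2) fun s' => (s.rs.lv s').and
      ((eventually_ge_atTop 0).mono fun τ hτ => ((bs.2 s').1 τ hτ).1)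
  have pin : L.Pin l η lo T x q := fun t' ht' c' sc' s => by
    obtain ⟨γ, f', u', -, -, -, e, s', -⟩ := nf t' ht' c' sc'
    have := (out.bnd _ _ _ s'.nr s'.rs).2 s
    rw [n2_congr e] at this
    exact ⟨fun τ hτ => (this.1 τ hτ).1, fun τ hτ => (this.2 τ hτ).trans_eq (by ring)⟩
  refine ⟨⟨_, ri.1, _, s₀, fun t' ht' c' sc' => ?_⟩, pin⟩
  obtain ⟨γ, f', u', hγ, ec, rfl, -, s', ef'⟩ := nf t' ht' c' sc'
  obtain ⟨ζ, hζ, a, b⟩ := con f u f' u' s s'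
  rw [ef, ef', Q_comm] at b
  have Y0 := Q_nn (g := z.gm) (ϖ := fun _ => ε) (f - f')
  have Y1 := mul_le_mul_of_nonneg_right θ Y0
  obtain rfl : f = f' := eq_of_Q h.ul ε0 s.sd.1 s'.sd.1 (by linarith)
  obtain rfl : u' = rt Z.bg ζ u := eq_of_Q h.ul ε0 (h.cbu s')
    (Cb_clm (Pb50.cB Z.bg.m.J ζ) (h.cbu s)) (a.trans (mul_nonpos_of_nonneg_of_nonpos hK (by linarith)))
  have ro := un.rot ⟨a₀ + G f, u⟩ ζ hζ
  have ok := hb.ok.ok.bg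
  have gv := gau_mul (gau_star hγ) (gau_mul ro.1 (gau_star g₀))
  have ev : c' = (L.P (ψ (S f))).bg.act (fun y => star (γ y) * (ζ * star (u₀ y)))
      ((L.P (ψ (S f))).bg.act u₀ ⟨a₀ + G f, u⟩) := by
    rw [(un.act q _ ht _ _ s₀.2.toAdm gv).1, (un.act q _ ht _ _ ad g₀).1,
      ← Pb50.act_act ok (gau_mul ro.1 (gau_star g₀)) (gau_star hγ),
      ← Pb50.act_act ok (gau_star g₀) ro.1, act_star ok g₀, ro.2, ← ec, act_star ok hγ]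
  obtain ⟨c1, c2⟩ := un.cr x _ ht cr
  refine ⟨rfl, _, hV X nc Bool _ _ (L.ok _ ht).toOK x c1 (fun i i' hi => ?_) _ _ s₀.1.1 gv
    (ev ▸ sc'.1.1), ev⟩
  obtain rfl := (c2 i i').1 hi
  have lo' := ge_of_tendsto ((un.lim x _ ht _ cr s₀.1.1).2.2 i')
    ((eventually_ge_atTop 0).mono fun τ hτ => (pin _ ht _ s₀ i').1 τ hτ)
  by_contra! h0
  simp only [nm, h0, norm_zero] at lo'
  simp at lo'
  linarith

end Crest.Agent.X212.Sw.One
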