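import Crest.Agent.X212.Rad94.Leaf
import Crest.Agent.X212.Pb50.Act

/-!
# Row 212, RAD-ONE (helper91), part 1: norms, regularity, dependence of the spinor on the form
-/

set_option autoImplicit false
set_option linter.unusedSectionVars false
noncomputable section
open scoped Manifold ContDiff Topology InnerProductSpace
open MeasureTheory Set Function Filter Real

namespace Crest.Agent.X212.Sw.One
open An Sw.En3 Rad94 Sob92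
open M (Mf pm)

section evq
variable {W : Type} {p p' : (W →₀ ℝ) → Prop}

theorem evq_mono (h : EvQ p) (i : ∀ q, p q → p' q) : EvQ p' :=
  let ⟨s, hs⟩ := h; ⟨s, fun q hq => i q (hs q hq)⟩

theorem evq_and (h : EvQ p) (h' : EvQ p') : EvQ fun q => p q ∧ p' q := by
  obtain ⟨s, hs⟩ := h
  obtain ⟨s', hs'⟩ := h'
  refine ⟨fun v => |s v| + |s' v|, fun q hq => ⟨hs q (lt_of_le_of_lt ?_ hq),
    hs' q (lt_of_le_of_lt ?_ hq)⟩⟩ <;>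
  refine Finset.sum_le_sum fun v _ => mul_le_mul_of_nonneg_left ?_ (abs_nonneg _)
  · linarith [le_abs_self (s v), abs_nonneg (s' v)]
  · linarith [le_abs_self (s' v), abs_nonneg (s v)]

end evq

variable {κ lam ν : Type} [Fintype κ] [Fintype lam] [Fintype ν] [DecidableEq ν]
  {X : Mf 4} {nc k : ℕ}

section gm
variable {A : Type} [Fintype A] {g : Gm X κ lam A} {ϖ : A → ℝ} {ε : ℝ}
  {N : Type} [NormedAddCommGroup N] [NormedSpace ℝ N]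
  {V W : Type} [NormedAddCommGroup V] [InnerProductSpace ℝ V] [FiniteDimensional ℝ V]
  [NormedAddCommGroup W] [InnerProductSpace ℝ W] [FiniteDimensional ℝ W]

theorem n2_nn (s : A) (f : X.M → N) (τ : ℝ) : 0 ≤ g.n2 s f τ :=
  integral_nonneg fun _ => by positivity

theorem q0_nn (f : X.M → N) : 0 ≤ g.q0 f := integral_nonneg fun _ => by positivity

theorem q0_le (f : X.M → N) : g.q0 f ≤ g.Q ϖ f :=
  le_add_of_nonneg_right (Finset.sum_nonneg fun s _ => integral_nonneg fun τ =>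
    mul_nonneg (n2_nn s f τ) (exp_pos _).le)

theorem Q_nn (f : X.M → N) : 0 ≤ g.Q ϖ f := (q0_nn f).trans (q0_le f)

theorem Q_comm (f f' : X.M → N) : g.Q ϖ (f - f') = g.Q ϖ (f' - f) := by
  simp only [Gm.Q, Gm.q0, Gm.n2, Pi.sub_apply, norm_sub_rev (f _)]

theorem n2_congr {f f' : X.M → N} (h : ∀ x, ‖f x‖ = ‖f' x‖) (s : A) : g.n2 s f = g.n2 s f' :=
  funext fun τ => by simp only [Gm.n2, h]

theorem ul_mono {i j : ℕ} {f : X.M → N} {r r' : ℝ} (h : g.Ul j f r) (hij : i ≤ j) (hr : r ≤ r') :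
    g.Ul i f r' :=
  ⟨((Ell97.nS_mono hij f).trans h.1).trans hr,
    fun s τ hτ => ((Ell97.nS_mono hij f).trans (h.2 s τ hτ)).trans hr⟩

theorem ul_nn {j : ℕ} {f : X.M → N} {r : ℝ} (h : g.Ul j f r) : 0 ≤ r :=
  (Ell97.nS_nonneg f).trans h.1

variable (hU : g.UlC)
include hU

theorem ul_cb {u : X.M → V} (h : g.F.Cb u) (j : ℕ) : ∃ r, g.Ul j u r :=
  let ⟨_, hC⟩ := hU.cb V j; let ⟨_, h⟩ := h; ⟨_, hC u _ h.1 (h.2 j)⟩

theorem cb_ul {u : X.M → V} (hu : Sm X.I u) (h : ∀ j, ∃ r, g.Ul j u r) : g.F.Cb u := by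
  choose r hr using h
  choose C hC using hU.sup V
  exact ⟨_, hu, fun j => hC j u _ hu (hr (j + 4))⟩

theorem ul_zero (j : ℕ) : g.Ul j (0 : X.M → V) 0 := by
  obtain ⟨C, hC⟩ := hU.cb V j
  exact ul_mono (hC (fun _ => 0) _ contMDiff_const (CB_const j 0)) le_rfl (by simp)

theorem ul_add {j : ℕ} {u v : X.M → V} {r r' : ℝ} (c : ℝ) (hu : Sm X.I u) (hv : Sm X.I v)
    (h : g.Ul j u r) (h' : g.Ul j v r') : g.Ul j (u + c • v) (r + |c| * r') :=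
  (hU.alg V j u v r r' c hu hv h h').1

theorem fi_cb (hε : 0 < ε) {u : X.M → V} (h : g.F.Cb u) : g.Fi (fun _ => ε) u :=
  let ⟨_, hC⟩ := hU.q ε hε; let ⟨_, hr⟩ := ul_cb hU h 0
  (hC V u _ h.choose_spec.1.continuous hr).1

theorem Q_le1 (hε : 0 < ε) {u : X.M → V} {f : X.M → W} {c : ℝ} (hu : g.F.Cb u) (hf : g.F.Cb f)
    (h : ∀ x, ‖f x‖ ≤ c * ‖u x‖) : g.Q (fun _ => ε) f ≤ c ^ 2 * g.Q (fun _ => ε) u := by
  have := (hU.le V W u u f _ (c / 2) hu.choose_spec.1.continuous hu.choose_spec.1.continuous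
    hf.choose_spec.1.continuous (fun x => (h x).trans_eq (by ring)) (fi_cb hU hε hu)
    (fi_cb hU hε hu)).2
  linarith

theorem Q_add (hε : 0 < ε) {u v : X.M → V} (hu : g.F.Cb u) (hv : g.F.Cb v) :
    g.Q (fun _ => ε) (u + v) ≤ 2 * (g.Q (fun _ => ε) u + g.Q (fun _ => ε) v) := by
  have := (hU.le V V u v (u + v) _ 1 hu.choose_spec.1.continuous hv.choose_spec.1.continuous
    (Cb_add hu hv).choose_spec.1.continuous (fun x => by simpa using norm_add_le (u x) (v x))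
    (fi_cb hU hε hu) (fi_cb hU hε hv)).2
  linarith

theorem eq_of_Q (hε : 0 < ε) {u v : X.M → V} (hu : g.F.Cb u) (hv : g.F.Cb v)
    (h : g.Q (fun _ => ε) (u - v) ≤ 0) : u = v :=
  sub_eq_zero.1 (hU.sep V _ _ (Cb_sub hu hv).choose_spec.1.continuous (fi_cb hU hε (Cb_sub hu hv))
    (le_antisymm h (Q_nn _)))

end gm

variable {e : Bool → En3 κ lam ν} {Z : Pz X nc e}

theorem sd_sub {b : Bg X.I X.M κ lam ν nc} {f f' : X.M → F2 κ} (h : SD b f) (h' : SD b f') :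
    SD b (f - f') :=
  ⟨Cb_sub h.1 h'.1, fun x => by rw [Pi.sub_apply, map_sub, h.2, h'.2]⟩

theorem vc_add (a a' : Fo X κ) : vc (a + a') = vc a + (1 : ℝ) • vc a' := by
  rw [one_smul]; rfl

/-- the hypotheses -/
structure Cx (z : Two Z) (ϖ : Fin k → X.M → F2 κ) (a₀ : Fo X κ) (β : Bool → ℝ → ℝ) (l : Bool → ℝ)
    (G : (X.M → F2 κ) → Fo X κ) (S : (X.M → F2 κ) → Fin k → ℝ) (ε η δ lo up T C : ℝ) : Prop where
  ok : Z.OK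
  ul : z.gm.UlC
  alg : Alg Z.bg z.gm
  hdg : Hdg Z.bg z.gm ϖ ε G S
  out : Out Z.bg z.gm a₀ β l ε η δ lo up T C
  a1 : A1 Z.bg a₀
  ε0 : 0 < ε
  rb : ∀ j, ∃ r, RB Z.bg z.gm j (Z.bg.ct j).η r
  hi : ∀ j, 7 ≤ j → ∀ M, ∃ C, ∀ a u, A1 Z.bg a → z.gm.Ul j (vc a) M → Sc Z.bg.pp u →
    Dz Z.bg z.gm a (cm z.gm β u) u = 0 → z.gm.q0 u ≤ M →
      (∀ s τ, 0 ≤ τ → z.gm.n2 s u τ ≤ M) → z.gm.Ul (j + 1) u C

/-- a form, test spinors and a solution of the Dirac equation -/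
structure St (z : Two Z) (a₀ : Fo X κ) (β : Bool → ℝ → ℝ) (l : Bool → ℝ)
    (G : (X.M → F2 κ) → Fo X κ) (η δ ρ : ℝ) (f : X.M → F2 κ) (η' : Fin nc → R4 → Eu ν)
    (u : X.M → Eu ν) : Prop where
  sd : SD Z.bg f
  ul : z.gm.Ul 7 f ρ
  nr : Nr Z.bg z.gm a₀ δ (a₀ + G f) η'
  rs : Rs Z.bg z.gm β l η (a₀ + G f) η' u

/-- the quadratic term -/
def qq (b : Bg X.I X.M κ lam ν nc) (u : X.M → Eu ν) (x : X.M) : F2 κ := b.p2 x (b.qd x (u x) (u x))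

/-- a constant rotation -/
abbrev rt (b : Bg X.I X.M κ lam ν nc) (ζ : ℂ) (u : X.M → Eu ν) (x : X.M) : Eu ν := cs b.m.J ζ (u x)

variable {z : Two Z} {ϖ : Fin k → X.M → F2 κ} {a₀ : Fo X κ} {β : Bool → ℝ → ℝ} {l : Bool → ℝ}
  {G : (X.M → F2 κ) → Fo X κ} {S : (X.M → F2 κ) → Fin k → ℝ} {ε η δ lo up T C ρ : ℝ}
  {f f' : X.M → F2 κ} {η₁ η₂ : Fin nc → R4 → Eu ν} {u u' : X.M → Eu ν}

namespace Cx
variable (h : Cx z ϖ a₀ β l G S ε η δ lo up T C)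
include h

theorem cbv {a : Fo X κ} (ha : A1 Z.bg a) : Z.bg.F.Cb (vc a) := ((h.alg.vc a).1 ha).1

theorem smv {a : Fo X κ} (ha : A1 Z.bg a) : Sm X.I (vc a) := (h.cbv ha).choose_spec.1

theorem reg (j : ℕ) (hj : 7 ≤ j) (r : ℝ) : ∃ K, ∀ ρ f η₁ u, St z a₀ β l G η δ ρ f η₁ u →
    z.gm.Ul j f r → z.gm.Ul (j + 1) (vc (a₀ + G f)) K ∧ z.gm.Ul (j + 1) u K ∧
      z.gm.Ul (j + 1) (qq Z.bg u) K := by
  obtain ⟨C₁, h₁⟩ := h.hdg.ul j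
  obtain ⟨c₀, h₀⟩ := ul_cb h.ul (h.cbv h.a1) (j + 1)
  obtain ⟨C₂, h₂⟩ := h.hi j hj (max (c₀ + |1| * (C₁ * r)) up)
  obtain ⟨B, ⟨cB, sB, hB⟩, eB⟩ := h.alg.qd
  obtain ⟨C₃, h₃⟩ := h.ul.mul (Eu ν) (Eu ν) (F2 κ) (j + 1) (by omega)
  refine ⟨max (c₀ + |1| * (C₁ * r)) (max C₂ (C₃ * cB (j + 1) * C₂ * C₂)), fun ρ f η₁ u s hf => ?_⟩
  have a := ul_add h.ul 1 (h.smv h.a1) (h.smv (h.hdg.a1 f s.sd)) h₀ (h₁ f r s.sd hf).1
  rw [← vc_add] at a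
  have bd := h.out.bnd _ _ _ s.nr s.rs
  have b := h₂ _ u s.nr.a1 (ul_mono a (by omega) (le_max_left _ _)) s.rs.sc s.rs.eq
    (bd.1.trans (le_max_right _ _)) fun s τ hτ => ((bd.2 s).1 τ hτ).2.trans (le_max_right _ _)
  have c := h₃ B u u _ _ _ (j + 1) le_rfl sB s.rs.sc.1 s.rs.sc.1 (hB _) b b
  refine ⟨ul_mono a le_rfl (le_max_left _ _), ul_mono b le_rfl (by simp), ?_⟩
  rw [show qq Z.bg u = _ from funext fun x => eB x (u x) (u x)]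
  exact ul_mono c le_rfl (by simp)

theorem cbu (s : St z a₀ β l G η δ ρ f η₁ u) : Z.bg.F.Cb u := cb_ul h.ul s.rs.sc.1 fun j => by
  obtain ⟨r, hr⟩ := ul_cb h.ul s.sd.1 (j + 7)
  obtain ⟨K, hK⟩ := h.reg (j + 7) (by omega) r
  exact ⟨K, ul_mono (hK _ _ _ _ s hr).2.1 (by omega) le_rfl⟩

theorem bds : ∃ M ≥ 0, ∀ ρ ≤ 1, ∀ f η₁ u, St z a₀ β l G η δ ρ f η₁ u →
    z.gm.Ul 1 (vc (a₀ + G f)) M ∧ z.gm.Ul 1 u M ∧ Z.bg.F.CB 1 (vc (a₀ + G f)) M ∧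
      Z.bg.F.CB 1 u M := by
  obtain ⟨K, hK⟩ := h.reg 7 le_rfl 1
  obtain ⟨C₁, h₁⟩ := h.ul.sup (Fm (Option κ) ℝ) 1
  obtain ⟨C₂, h₂⟩ := h.ul.sup (Eu ν) 1
  refine ⟨|K| + |C₁ * K| + |C₂ * K|, by positivity, fun ρ hρ f η₁ u s => ?_⟩
  obtain ⟨a, b, -⟩ := hK _ _ _ _ s (ul_mono s.ul le_rfl hρ)
  have := le_abs_self K; have := le_abs_self (C₁ * K); have := le_abs_self (C₂ * K)
  have := abs_nonneg K; have := abs_nonneg (C₁ * K); have := abs_nonneg (C₂ * K)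
  exact ⟨ul_mono a (by omega) (by linarith), ul_mono b (by omega) (by linarith),
    CB_mono (h₁ _ _ (h.smv s.nr.a1) (ul_mono a (by omega) le_rfl)) (by linarith),
    CB_mono (h₂ _ _ s.rs.sc.1 (ul_mono b (by omega) le_rfl)) (by linarith)⟩

theorem nrt {ζ : ℂ} (hζ : ‖ζ‖ = 1) (v : Eu ν) : ‖cs Z.bg.m.J ζ v‖ = ‖v‖ :=
  Pb50.norm_cs h.ok.bg.m.Jsq h.ok.bg.m.Jsk hζ v

theorem sc_rt (ζ : ℂ) (hu : Sc Z.bg.pp u) : Sc Z.bg.pp (rt Z.bg ζ u) :=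
  ⟨(Pb50.cB Z.bg.m.J ζ).contMDiff.comp hu.1, fun x => by
    rw [Pb50.cs_comm (Pb50.Jpp h.ok.bg x), hu.2]⟩

theorem CB_rt {ζ : ℂ} (hζ : ‖ζ‖ = 1) {j : ℕ} {M : ℝ} (hM : 0 ≤ M) (hu : Sm X.I u)
    (hb : Z.bg.F.CB j u M) : Z.bg.F.CB j (rt Z.bg ζ u) M :=
  CB_mono (CB_clm (Pb50.cB Z.bg.m.J ζ) hu hb) (mul_le_of_le_one_left hM
    (ContinuousLinearMap.opNorm_le_bound _ zero_le_one fun v => by
      rw [Pb50.cB_apply, h.nrt hζ, one_mul]))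

theorem wt : ∃ c ≥ 0, ∀ f f', SD Z.bg f → SD Z.bg f' →
    z.gm.Q (fun _ => ε) (vc (a₀ + G f - (a₀ + G f'))) ≤ c * z.gm.Q (fun _ => ε) (f - f') ∧
      ‖S f - S f'‖ ^ 2 ≤ c * z.gm.Q (fun _ => ε) (f - f') := by
  obtain ⟨c, hc⟩ := h.hdg.wt
  refine ⟨|c|, abs_nonneg _, fun f f' hf hf' => ?_⟩
  have a := hc _ (sd_sub hf hf')
  have b := h.hdg.sub f f' hf hf'
  rw [add_sub_add_left_eq_sub, ← b.1, ← b.2]
  have := mul_le_mul_of_nonneg_right (le_abs_self c) (Q_nn (g := z.gm) (ϖ := fun _ => ε) (f - f'))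
  have := Q_nn (g := z.gm) (ϖ := fun _ => ε) (vc (G (f - f')))
  have := sq_nonneg ‖S (f - f')‖
  constructor <;> linarith

/-- the spinor depends Lipschitz continuously on the data -/
theorem lipU : ∃ K ≥ 0, ∀ ρ ≤ 1, ∀ f η₁ u f' η₂ u' r, St z a₀ β l G η δ ρ f η₁ u →
    St z a₀ β l G η δ ρ f' η₂ u' → (∀ j, RB Z.bg z.gm j (η₁ j - η₂ j) r) → ∃ ζ : ℂ, ‖ζ‖ = 1 ∧
      z.gm.Q (fun _ => ε) (u' - rt Z.bg ζ u) ≤ K * (z.gm.Q (fun _ => ε) (f - f') + r ^ 2) := by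
  obtain ⟨M, hM, bM⟩ := h.bds
  obtain ⟨c, hc, bc⟩ := h.wt
  obtain ⟨B, ⟨cB, sB, hB⟩, eB⟩ := h.alg.bil
  choose R hR using h.rb
  refine ⟨|C| * ((|cB 0| * M) ^ 2 * c + 3 * ((∑ j, R j ^ 2) * M ^ 2 * c + δ ^ 2 * M ^ 2 * c + |up|)),
    by positivity, fun ρ hρ f η₁ u f' η₂ u' r s s' hr => ?_⟩
  set a := a₀ + G f
  set a' := a₀ + G f'
  set q := z.gm.Q (fun _ => ε) (f - f')
  have q0 : 0 ≤ q := Q_nn _
  have hu' := fun x => CB_bound (bM ρ hρ _ _ _ s').2.2.2 x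
  have ca : Z.bg.F.Cb (vc (a - a')) := h.cbv (h.alg.a1 _ _ s.nr.a1 s'.nr.a1).1
  have qa := (bc f f' s.sd s'.sd).1
  have eD : Dz Z.bg z.gm a (cm z.gm β u') u' = fun x => B x (vc (a - a') x) (u' x) := by
    funext x
    have := congrFun s'.rs.eq x
    simp only [Rad94.Dz, Pi.zero_apply] at this ⊢
    rw [eB a a' u' x s.nr.a1.1 s'.nr.a1.1 s'.rs.sc, add_sub_right_comm, this, zero_add]
  have cD : Z.bg.F.Cb fun x => B x (vc (a - a') x) (u' x) :=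
    Cb_app (Cb_app ⟨cB, sB, hB⟩ ca) (h.cbu s')
  have qD : z.gm.Q (fun _ => ε) (fun x => B x (vc (a - a') x) (u' x)) ≤
      (|cB 0| * M) ^ 2 * z.gm.Q (fun _ => ε) (vc (a - a')) :=
    Q_le1 h.ul h.ε0 ca cD fun x => ((B x).le_opNorm₂ _ _).trans (by
      have := mul_le_mul (CB_bound (CB_abs (hB 0)) x) (hu' x) (norm_nonneg _) (abs_nonneg _)
      nlinarith [norm_nonneg (vc (a - a') x)])
  obtain ⟨ζ, hζ, hq⟩ := h.out.lip a η₁ a' η₂ u u' s.nr s'.nr s.rs s'.rs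
    (by rw [eD]; exact fi_cb h.ul h.ε0 cD)
  refine ⟨ζ, hζ, hq.trans ?_⟩
  have q0a : z.gm.q0 (vc (a - a')) ≤ c * q := (q0_le _).trans qa
  have up' : z.gm.q0 u' ≤ |up| := (h.out.bnd _ _ _ s'.nr s'.rs).1.trans (le_abs_self _)
  set Y := 3 * ((∑ j, R j ^ 2) * M ^ 2 * (c * q) + δ ^ 2 * M ^ 2 * (c * q) + r ^ 2 * |up|)
  have Y0 : 0 ≤ Y := by positivity
  have row : ‖rw Z.bg a η₁ u'‖ ^ 2 ≤ Y := by
    rw [← Real.le_sqrt (norm_nonneg _) Y0, pi_norm_le_iff_of_nonneg (sqrt_nonneg _)]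
    intro j
    rw [Real.le_sqrt (norm_nonneg _) Y0]
    have e0 := congrFun s'.rs.row j
    have e1 := h.alg.lη j _ _ a' u' (s.nr.η j).1 (s'.nr.η j).1 s'.nr.a1.1 s'.rs.sc.1
    have b1 := (hR j).l2 a a' u' M s.nr.a1.1 s'.nr.a1.1 s'.rs.sc.1 hu'
    have b2 := (s.nr.η j).2.l2 a a' u' M s.nr.a1.1 s'.nr.a1.1 s'.rs.sc.1 hu'
    have b3 := (hr j).bd a' u' s'.nr.a1.1 s'.rs.sc.1
    simp only [rw, Pi.zero_apply] at e0 ⊢
    set x1 := Z.bg.l j ⟨a, u'⟩ - Z.bg.l j ⟨a', u'⟩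
    set x2 := Z.bg.lη j (η₁ j) ⟨a, u'⟩ - Z.bg.lη j (η₁ j) ⟨a', u'⟩
    set x3 := Z.bg.lη j (η₁ j - η₂ j) ⟨a', u'⟩
    rw [show Z.bg.l j ⟨a, u'⟩ - Z.bg.lη j (η₁ j) ⟨a, u'⟩ = x1 - x2 - x3 by
      rw [e1]; simp only [x1, x2]; linear_combination e0]
    have n1 : ‖x1 - x2 - x3‖ ≤ ‖x1‖ + ‖x2‖ + ‖x3‖ :=
      (norm_sub_le _ _).trans (by linarith [norm_sub_le x1 x2])
    have n2 : ‖x1 - x2 - x3‖ ^ 2 ≤ 3 * (‖x1‖ ^ 2 + ‖x2‖ ^ 2 + ‖x3‖ ^ 2) := by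
      have := pow_le_pow_left₀ (norm_nonneg _) n1 2
      nlinarith [sq_nonneg (‖x1‖ - ‖x2‖), sq_nonneg (‖x1‖ - ‖x3‖), sq_nonneg (‖x2‖ - ‖x3‖)]
    have r1 : R j ^ 2 ≤ ∑ j, R j ^ 2 :=
      Finset.single_le_sum (f := fun j => R j ^ 2) (fun _ _ => sq_nonneg _) (Finset.mem_univ j)
    have c1 : R j ^ 2 * M ^ 2 * z.gm.q0 (vc (a - a')) ≤ (∑ j, R j ^ 2) * M ^ 2 * (c * q) :=
      mul_le_mul (mul_le_mul_of_nonneg_right r1 (sq_nonneg _)) q0a (q0_nn _) (by positivity)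
    have c2 := mul_le_mul_of_nonneg_left q0a (show 0 ≤ δ ^ 2 * M ^ 2 by positivity)
    have c3 := mul_le_mul_of_nonneg_left up' (sq_nonneg r)
    simp only [Y]
    linarith
  rw [eD]
  have t1 := qD.trans (mul_le_mul_of_nonneg_left qa (sq_nonneg _))
  have t0 := Q_nn (g := z.gm) (ϖ := fun _ => ε) fun x => B x (vc (a - a') x) (u' x)
  refine (mul_le_mul_of_nonneg_right (le_abs_self C) (by positivity)).trans ?_
  rw [mul_assoc]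
  refine mul_le_mul_of_nonneg_left ((add_le_add t1 row).trans ?_) (abs_nonneg _)
  have p1 : 0 ≤ (|cB 0| * M) ^ 2 * c * r ^ 2 := by positivity
  have p2 : 0 ≤ (∑ j, R j ^ 2) * M ^ 2 * c * r ^ 2 := by positivity
  have p3 : 0 ≤ δ ^ 2 * M ^ 2 * c * r ^ 2 := by positivity
  have p4 : 0 ≤ |up| * q := by positivity
  simp only [Y]
  nlinarith

end Cx

end Crest.Agent.X212.Sw.One
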