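import Crest.Agent.X212.Sw.Alg
import Crest.Agent.X212.Wal9.Lev
import Crest.Agent.X212.Ulc97.Main

/-!
# Row 212, RAD-UNF (helper91): the equations of a level are unfolded
-/

set_option autoImplicit false
set_option linter.unusedSectionVars false
noncomputable section
open scoped Manifold ContDiff Topology InnerProductSpace Convolution
open MeasureTheory Set Function Filter Real

namespace Crest.Agent.X212.Sw.Unf
open An An.Pre Cyf70 Sob92 Rad94 En3 Pb50
open M (Mf pm)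

/-- averages of continuous functions are smooth -/
theorem cd_av {l : ℝ → ℝ} {s : ℝ} (hl : ContinuousOn l (Ioo (s - 1) (s + 1))) :
    ContDiffAt ℝ ∞ (fun t => av fun p => l (t + p - 1 / 2)) s := by
  have s1 : ContDiff ℝ ∞ bp := (contDiff_infty_iff_deriv.1 Real.smoothTransition.contDiff).2
  have s2 : ContDiff ℝ ∞ fun t => bp (1 / 2 - t) := by fun_prop
  have c1 : HasCompactSupport bp := .intro isCompact_Icc fun _ => bp_zero
  have c2 : HasCompactSupport fun t => bp (1 / 2 - t) := c1.comp_homeomorph (.subLeft _)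
  have g : Continuous fun t => l (max (s - 3 / 4) (min t (s + 3 / 4))) :=
    hl.comp_continuous (by fun_prop) fun t => ⟨lt_max_of_lt_left (by linarith),
      max_lt (by linarith) (min_lt_of_right_lt (by linarith))⟩
  refine (c2.contDiff_convolution_left (ContinuousLinearMap.mul ℝ ℝ) s2
    (g.locallyIntegrable (μ := volume))).contDiffAt.congr_of_eventuallyEq ?_
  filter_upwards [Ioo_mem_nhds (show s - 1 / 4 < s by linarith) (show s < s + 1 / 4 by linarith)]
    with t ht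
  simp only [convolution_def, ContinuousLinearMap.mul_apply', av]
  rw [← integral_sub_left_eq_self (fun t => bp (1 / 2 - t) * _) volume (1 / 2)]
  refine integral_congr_ae (.of_forall fun p => ?_)
  by_cases h : p ∈ Icc (0 : ℝ) 1
  · simp only [sub_sub_cancel, show t - (1 / 2 - p) = t + p - 1 / 2 by ring]
    rw [min_eq_left (by linarith [h.2, ht.2]), max_eq_right (by linarith [h.1, ht.1])]
  · simp [bp_zero h]

variable {κ lam ν : Type} [Fintype κ] [Fintype lam] [Fintype ν] [DecidableEq ν]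
  {X : Mf 4} {nc k : ℕ}

section nk
variable {e : En3 κ lam ν} {b : Bg X.I X.M κ lam ν nc} (K : Nk e b) {c : Cfg X.M κ ν}

theorem sm_ms (he : e.OK) (hc : b.Adm c) (T : e.YT) : Sm X.I (K.ms T c) := fun x => by
  by_cases hx : x ∈ K.dp 1
  · have h := K.dp_sub one_pos hx
    have h1 : ContMDiffAt X.I 𝓘(ℝ, ℝ) ∞ K.tm x :=
      (contMDiffAt_snd.comp x (iso_smAt (iso_symm K.iso) h)).congr_of_eventuallyEq
        ((K.ψ.open_target.eventually_mem h).mono fun y hy => (K.snd_symm hy).symm)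
    have h2 := cd_av (l := fun t => L (sl (K.pb c) t)) (s := K.tm x) (Wal9.contOn_L he fun t ht =>
      Wal9.sa_pb K hc ⟨fun a ha => by linarith [hx.1 a ha, ht.1],
        fun a ha => by linarith [hx.2 a ha, ht.2]⟩)
    exact ((T.sb.contDiffAt.comp _ h2).contMDiffAt.comp x h1).smul
      ((K.cb_ext T.sf).choose_spec.1 x)
  · refine (contMDiffAt_const (c := (0 : F2 κ))).congr_of_eventuallyEq
      ((K.isClosed_dp.isOpen_compl.eventually_mem hx).mono fun y hy => ?_)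
    rw [Nk.ms, K.ext_zero _ hy, smul_zero]

theorem p2_ms (T : e.YT) (c : Cfg X.M κ ν) (x : X.M) : b.p2 x (K.ms T c x) = K.ms T c x := by
  rw [Nk.ms, map_smul]
  by_cases hx : x ∈ K.dp 1
  · have h := K.dp_sub one_pos hx
    have h1 := p2_ψ K (K.ψ.map_target h)
    have h2 : ∀ z, e.cyl.p2 z = e.cyl.p2 (z.1, 0) := fun z => by
      have h : ∀ a b, e.cyl.B.P a b z = e.cyl.B.P a b (z.1, 0) := fun a b => by
        cases a <;> cases b <;> rfl
      refine congrArg (idx · _) (funext₂ fun a b => ?_)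
      simp only [Base.sd, Base.a2, h]
      rfl
    rw [K.ψ.right_inv h] at h1
    rw [Nd18.Nk.ext, map_smul, h1, h2, T.pf]
  · rw [K.ext_zero _ hx, map_zero]

theorem tend_nm (he : e.OK) {s : Bool} (hs : K.Inf s) (hc : b.Adm c) {v : e.YC}
    (hv : e.cyl.Adm (fz v)) (ha : K.Asy s v c) {B : ℝ} (hB : ∀ x, ‖c.Φ x‖ ≤ B) {t : ℝ → ℝ}
    (ht : Tendsto (fun τ => pm s * t τ) atTop atTop) :
    Tendsto (fun τ => nm (sl (K.pb c) (t τ))) atTop (𝓝 (nm v)) := by
  have h : ∀ y : e.Y.M, Tendsto (fun τ => (y, t τ)) atTop (nd e.Y.M s) := fun y =>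
    tendsto_comap_iff.2 ht
  refine tendsto_integral_filter_of_dominated_convergence (fun _ => B ^ 2)
    (((h (Classical.arbitrary _)).eventually (ev_J K hs)).mono fun τ j =>
      ((Wal9.sa_pb K hc j).P.continuous.norm.pow 2).aestronglyMeasurable)
    (.of_forall fun τ => .of_forall fun y => ?_) (integrable_const _) (.of_forall fun y => ?_)
  · rw [norm_pow, norm_norm]
    exact pow_le_pow_left₀ (norm_nonneg _) (hB _) 2
  · have h1 : Tendsto (fun τ => c.Φ (K.ψ (y, t τ)) - v.Φ y) atTop (𝓝 0) :=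
      (Wal9.gl_tend he.cyl.tame.choose_spec [] ((asy_iff K hs hc hv).1 ha).2).comp (h y)
    exact (tendsto_sub_nhds_zero_iff.1 h1).norm.pow 2

end nk

theorem lη_sum {b : Bg X.I X.M κ lam ν nc} (hb : b.OK) {c : Cfg X.M κ ν} (hc : b.Adm c) (j : Fin nc)
    {W : Type} {η : W → R4 → Eu ν} (h : ∀ v, b.Tst (b.ct j).Ξ (η v)) (q : W →₀ ℝ) :
    b.lη j (fun y => q.sum fun v r => r • η v y) c = q.sum fun v r => r • b.lη j (η v) c := by
  have i := fun v => Alg.int_lη hb j hc.sa hc.sΦ (h v)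
  simp only [Bg.lη, Finsupp.sum, ← integral_smul]
  refine Eq.trans ?_ (integral_finsetSum _ fun v _ => (i v).smul (q v))
  simp only [← Kop92.hmL_apply, map_sum, map_smul, _root_.sum_apply, _root_.smul_apply,
    Finset.mul_sum, mul_smul_comm]

section pc
variable {d : Dt κ lam ν} {N : Type} [Fintype N] {ty : N → d.𝓔} {P : Pc d X nc ty} (hP : P.OK)
  {c : Cfg X.M κ ν} {u : X.M → ℂ} (q : d.W →₀ ℝ)

theorem p0C (h : ∀ i, (d.e (ty i)).f = 0) (x : X.M) : P.p0.C c x = 0 :=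
  Finset.sum_eq_zero fun i _ => elim_zero fun K _ => by simp [Nk.hl, h]

include hP

theorem sm_C (h : ∀ i, (d.e (ty i)).f = 0) (hc : P.bg.Adm c) : Sm X.I ((P.pt q).C c) := by
  have : (P.pt q).C c = fun x => ∑ w ∈ q.support, q w • P.tm w c x := funext fun x =>
    (congrArg (· + _) (p0C h x)).trans (zero_add _)
  have k : ∀ w, Sm X.I (P.tm w c) := fun w => (hP.sf w).add (contMDiff_finsetSum fun i _ => by
    cases P.nk i with
    | none => exact contMDiff_const
    | some K =>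
      cases d.yt w (ty i) with
      | none => exact contMDiff_const
      | some T => exact sm_ms K (hP.en i) hc T)
  exact this ▸ contMDiff_finsetSum fun w _ =>
    (show Sm X.I fun _ => q w from contMDiff_const).smul (k w)

theorem p2_C (h : ∀ i, (d.e (ty i)).f = 0) (x : X.M) :
    P.bg.p2 x ((P.pt q).C c x) = (P.pt q).C c x := by
  have : ∀ w, P.bg.p2 x (P.tm w c x) = P.tm w c x := fun w => by
    rw [Pc.tm, map_add, hP.pf, map_sum]
    refine congrArg _ (Finset.sum_congr rfl fun i _ => ?_)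
    cases P.nk i with
    | none => exact map_zero _
    | some K =>
      cases d.yt w (ty i) with
      | none => exact map_zero _
      | some T => exact p2_ms K T c x
  simp only [Pc.pt, p0C h, zero_add, Finsupp.sum, map_sum, map_smul, this]

theorem C_act (hc : P.bg.Adm c) (hu : Gau X.I u) : (P.pt q).C (P.bg.act u c) = (P.pt q).C c := by
  simp only [Pc.pt, p0C_act hP.toOK hc hu, tm_act hc hu]

theorem sol_act (h : P.bg.Sol (P.pt q) c) (hu : Gau X.I u) : P.bg.Sol (P.pt q) (P.bg.act u c) := by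
  have hc := h.toAdm
  refine ⟨adm_of fun x => (LA.of_adm hc x).act hP.bg (hu.1 x), fun x _ => ⟨?_, ?_⟩, fun j => ?_⟩
  · rw [eD_act hP.bg (.of_adm hc x) (.of_gau hu x), (h.eq x trivial).1]
    exact (p0D_act hP.toOK hc hu x).symm
  · rw [eC_act hP.bg (fun i => hc.sa i x) (.of_gau hu x), (h.eq x trivial).2, C_act hP q hc hu]
  · obtain ⟨z, -, hz⟩ := cut_act hP.bg hc hu j
    rw [Bg.l, hz, ← Bg.l, h.l]
    simp only [Pc.pt, hz, Finsupp.sum, Finset.mul_sum, mul_smul_comm]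

end pc

/-- the curvature equation relative to the reducible solution -/
theorem eC_eq {b : Bg X.I X.M κ lam ν nc} (hb : b.OK) {g : Gm X κ lam Bool} {a₀ : Fo X κ}
    (h : Ref b g a₀) {c : Cfg X.M κ ν} (hc : ∀ i, Sm X.I (c.a i)) (f : X.M → F2 κ) (w : ℝ) (x : X.M) :
    (sft b f w).eC c x =
      b.p2 x (d1 b (c.a - a₀) x) - f x - w • b.p2 x (b.qd x (c.Φ x) (c.Φ x)) := by
  have e : ∀ c : Cfg X.M κ ν, (∀ i, Sm X.I (c.a i)) → b.fc c x = b.fc ⟨0, 0⟩ x + d1 b c.a x :=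
    fun c hc => Map77.fm_ext fun s => Win45.fc_eq hb (fun i => hc i x) s
  have h0 : b.p2 x (b.fc ⟨a₀, 0⟩ x - b.w • b.qd x 0 0) - b.om x = 0 := h.eq x
  have q0 : b.qd x 0 0 = 0 := Map77.fm_ext fun s => by simp [Bg.qd]
  rw [e _ h.a1.1.1, q0, smul_zero, sub_zero, map_add] at h0
  change b.p2 x (b.fc c x - w • b.qd x (c.Φ x) (c.Φ x)) - (b.om x + f x) = _
  rw [e c hc, Alg.d1_sub hc h.a1.1.1, map_sub, map_sub, map_add, map_smul, ← sub_eq_zero.1 h0]
  abel

variable (κ lam ν) in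
/-- **RAD-UNF** -/
theorem unfStmt (hT : TrmStmt κ lam ν) : UnfStmt κ lam ν := by
  intro X nc k e Z z ϖ φ Dm w β W L a₀ hz hr
  have hb := hz.ok.bg
  obtain ⟨hg, hA⟩ := Alg.algStmt κ lam ν X nc e Z z hz.ok
  have f0 : ∀ s, (L.en s).f = 0 := fun s => (hz.en s).f
  have adm : ∀ t ∈ Dm, ∀ c, (L.P t).bg.Adm c ↔ S1 Z.bg c.a ∧ Sc Z.bg.pp c.Φ := fun t ht c => by
    rw [L.bg t ht]
    exact ⟨fun h => ⟨⟨h.sa, h.pa⟩, h.sΦ, h.pΦ⟩, fun h => ⟨h.1.1, h.2.1, h.1.2, h.2.2⟩⟩
  have act : ∀ t ∈ Dm, (L.P t).bg.act = Z.bg.act := fun t ht => by rw [L.bg t ht]; rfl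
  choose K hK kn using L.ng
  have kp := fun t ht s => congrArg (·.1) (kn t ht s)
  have kq := fun t ht s => congrArg (·.2.1) (kn t ht s)
  have kψ := fun t ht s => congrArg (·.2.2.1) (kn t ht s)
  have kt := fun t ht s => congrArg (·.2.2.2) (kn t ht s)
  simp only [Nk.ng, z.hp, z.hq] at kp kq kψ kt
  have n2 : ∀ t ht s (c : Cfg X.M κ ν) τ,
      z.gm.n2 s c.Φ τ = nm (sl ((K t ht s).pb c) (z.gm.tt s τ)) := fun t ht s c τ => by
    simp only [Gm.n2, Gm.pt, nm, sl, Cfg.pb, kψ]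
    rfl
  have inf : ∀ t ht s s', (K t ht s).Inf s' ↔ s' = s := fun t ht s s' => by
    cases s <;> cases s' <;> simp [Nk.Inf, kp, kq]
  have inf' : ∀ t ∈ Dm, ∀ s s', (L.P t).Inf s s' ↔ s' = s := fun t ht s s' =>
    ⟨fun ⟨_, h1, h2⟩ => (inf t ht s s').1 (Option.mem_unique h1 (hK t ht s) ▸ h2),
      fun h => ⟨_, hK t ht s, (inf t ht s s').2 h⟩⟩
  have cr : ∀ x : BCs L.en, ∀ t ∈ Dm, (∀ s, Crit (x s s)) → (L.P t).Cr x := fun x t ht h s s' k =>
    (inf' t ht s s').1 k ▸ h s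
  refine ⟨adm, fun q t ht c hc => ?_, fun q t ht c u hc hu => ?_, fun c ζ h =>
    ⟨⟨contMDiff_const, fun _ => h⟩, Cfg.ext (funext fun i => funext fun x => ?_) rfl⟩,
    fun q t ht c ha hΦ hc => ?_, fun x t ht c hx hc => ?_, fun x t ht h => ⟨cr x t ht h, inf' t ht⟩⟩
  · have hP := L.ok t ht
    have eD : ∀ x, (L.P t).bg.eD c x - ((L.P t).pt q).D c x =
        Rad94.Dz Z.bg z.gm c.a (cm z.gm β c.Φ) c.Φ x := fun x => by
      have h1 : (L.P t).bg.eD = Z.bg.eD := by rw [L.bg t ht]; rfl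
      have h2 : (L.P t).bg.m.ρ = Z.bg.m.ρ := by rw [L.bg t ht]
      rw [h1, Rad94.Dz, Gm.rd, Finset.sum_smul]
      change _ - ∑ i : Bool, ((L.P t).nk i).elim 0 (fun K => K.rad c x) = _
      refine congrArg _ (Finset.sum_congr rfl fun s _ => ?_)
      rw [show (L.P t).nk s = _ from hK t ht s, Option.elim_some, Nk.rad, h2, cm, n2 t ht, Gm.ht,
        Ulc97.tt_sg, Nd18.Nk.χ, Nd18.Nk.cut, kp, kq, kt]
      congr 2
      cases s <;> simp [Nd18.ct, pm]
    have eC := eC_eq hb hr ((adm t ht c).1 hc).1.1 (fun x => ∑ i, φ t i • ϖ i x) w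
    rw [← L.bg t ht] at eC
    have el : ∀ j, (L.P t).bg.l j c - ((L.P t).pt q).S c j = rw Z.bg c.a (L.et q t) c.Φ j :=
      fun j => by
        have h1 : (L.P t).bg.lη = Z.bg.lη := by rw [L.bg t ht]; rfl
        have h2 : (L.P t).bg.ct = Z.bg.ct := by rw [L.bg t ht]
        have := lη_sum hP.bg hc j (fun v => hP.η v j) q
        change _ - q.sum (fun v r => r • (L.P t).bg.lη j ((L.P t).η v j) c) = _
        rw [← this, Bg.l, h1, h2]
        rfl
    refine ⟨fun h => ⟨funext fun x => (eD x).symm.trans (sub_eq_zero.2 (h.eq x trivial).1),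
      fun x => sub_eq_iff_eq_add'.1 ((eC x).symm.trans (h.eq x trivial).2),
      funext fun j => (el j).symm.trans (sub_eq_zero.2 (h.l j))⟩, fun h => ⟨hc, fun x _ =>
        ⟨sub_eq_zero.1 ((eD x).trans (congrFun h.D x)), (eC x).trans (sub_eq_iff_eq_add'.2 (h.C x))⟩,
        fun j => sub_eq_zero.1 ((el j).trans (congrFun h.l j))⟩⟩
  · have hP := L.ok t ht
    have h1 : L.tau q t (Z.bg.act u c) = L.tau q t c := act t ht ▸ C_act hP q hc hu
    refine ⟨by rw [act t ht], h1, funext fun x => ?_, fun x => norm_act hb (hu.2 x),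
      fun h => act t ht ▸ sol_act hP q h hu⟩
    rw [Two.Lv.rhs, Two.Lv.rhs, h1, ← qd_cs hb (hu.2 x) x (c.Φ x)]
    rfl
  · exact (congrArg (c.a i x - ·) (by simp [Pre.D_def])).trans (sub_zero _)
  · have hP := L.ok t ht
    have ad := (adm t ht c).2 ⟨ha.1, hΦ⟩
    obtain ⟨C, h1⟩ := Ulc97.ul_cb (N := Fm (Option κ) ℝ) hg 1
    obtain ⟨C', h2⟩ := Ulc97.ul_cb (N := Eu ν) hg 1
    obtain ⟨A, h3⟩ := ((hA.vc _).1 ha).1
    obtain ⟨A', h4⟩ := id hc
    choose B hB using fun j => (hT X nc k e Z z ϖ φ Dm w β W L hz).all q j (max (C * A 1) (C' * A' 1))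
    have h5 : SD Z.bg (L.tau q t c) := ⟨⟨B, sm_C hP q f0 ad, fun j => hB j t ht c ha.1 hΦ
      (Ulc97.ul_mono (h1 _ _ h3.1 (h3.2 1)) le_rfl (le_max_left _ _))
      (Ulc97.ul_mono (h2 _ _ h4.1 (h4.2 1)) le_rfl (le_max_right _ _))⟩, fun x => by
        have := p2_C hP q (c := c) f0 x
        rwa [show (L.P t).bg.p2 = Z.bg.p2 by rw [L.bg t ht]; rfl] at this⟩
    obtain ⟨Q, h6, h7⟩ := hA.qd
    refine ⟨h5, ?_, fun x => ?_⟩
    · unfold Two.Lv.rhs
      simp only [h7]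
      exact Cb_add (Cb_smul (Cb_const w) (Cb_app (Cb_app h6 hc) hc)) h5.1
    · rw [Two.Lv.rhs, map_add, map_smul, h5.2, Lw78.p2_eq hb, (Lw78.prj2 (Lw78.vol4 hb)).idem]
  · have hP := L.ok t ht
    obtain ⟨h1, h2⟩ := as_cb hP.toOK (cr x t ht hx) hc
    have hF : (L.P t).bg.F = Z.bg.F := by rw [L.bg t ht]
    refine ⟨⟨((adm t ht c).1 hc.1).1, hF ▸ h1⟩, hF ▸ h2, fun s => ?_⟩
    obtain ⟨C, h3⟩ := h2
    have h4 := (inf t ht s s).2 rfl
    rw [funext (n2 t ht s c)]
    refine tend_nm _ (hP.en s) h4 hc.1 (hx s).1 (hc.2 s s _ (hK t ht s) h4) (CB_bound (h3.2 0))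
      ((tendsto_atTop_add_const_right _ (pm s * z.o s + 1) tendsto_id).congr fun τ => ?_)
    have := Ulc97.sg_sq z.gm s
    change τ + _ = pm s * (z.o s + pm s * (τ + 1))
    change pm s * pm s = 1 at this
    linear_combination (-τ - 1) * this

end Crest.Agent.X212.Sw.Unf
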