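import Crest.Agent.X212.Sw.Wld
import Crest.Agent.X212.Pb50.Main

/-!
# Row 212, layer AN-S (helper91): the axioms of a cell and its facets
-/

set_option autoImplicit false
set_option linter.unusedSectionVars false
noncomputable section
open scoped Manifold ContDiff Topology InnerProductSpace
open MeasureTheory Set Function Filter

namespace Crest.Agent.X212.Sw
open An Cyf70 Prm93 En3
open Mod61 (Prob)
open Nd18 (Jv)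
open M (Mf)

variable {κ lam ν : Type} [Fintype κ] [Fintype lam] [Fintype ν] [DecidableEq ν]
  {d : Dt κ lam ν} [Fintype d.𝓔] {Sl : Type} [Fintype Sl]

namespace Cel
variable {X : Mf 4} {nc nr : ℕ} {T : Type} [NormedAddCommGroup T] [NormedSpace ℝ T]
  [FiniteDimensional ℝ T] {s : StS d Sl X} {σ : Cel s nc nr T}

theorem Ind.unique (h : σ.OK) (y : σ.Pnt) {n m : ℤ} (hn : σ.Ind n) (hm : σ.Ind m) : n = m := by
  obtain ⟨r, h1, h2⟩ := hn 7 le_rfl 0 y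
  obtain ⟨r', h3, h4⟩ := hm 7 le_rfl 0 y
  obtain ⟨C, hC⟩ := h.site.bg.tame
  obtain rfl : r = r' := ContinuousLinearMap.ext fun v =>
    Sob92.val_injective (Sob92.Sup.of_tame hC) (by omega) ((h1 v).trans (h3 v).symm)
  exact h2.unique h4

theorem Fn.comp {g : T → Cfg X.M κ ν → ℝ} (h : σ.Fn g) {φ : ℝ → ℝ} (hφ : ContDiff ℝ ∞ φ) :
    σ.Fn fun t c => φ (g t c) :=
  ⟨fun k hk => (h.1 k hk).elim fun f hf => ⟨fun v => φ (f v), hφ.comp_contDiffOn hf.1,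
    fun y => congrArg φ (hf.2 y)⟩, fun y y' h1 h2 => congrArg φ (h.2 y y' h1 h2)⟩

theorem Fn.rr {g : T → Cfg X.M κ ν → ℝ} (h : σ.Fn g) : σ.RepR g (σ.rr 7 g) := by
  have h1 := h.1 7 le_rfl
  rw [Cel.rr, dif_pos h1]
  exact h1.choose_spec

theorem eqv_iff (h : Equivalence σ.Eqv) {Γ : σ.GD 7} {n : ℤ} {x y : (σ.prob Γ n).X} :
    (σ.prob Γ n).eqv x y ↔ σ.Eqv x.2 y.2 :=
  Equivalence.eqvGen_iff (r := fun x y : Σ _ : Unit, σ.Pnt => σ.Eqv x.2 y.2)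
    ⟨fun _ => h.refl _, h.symm, h.trans⟩

theorem Fn.invF {g : T → Cfg X.M κ ν → ℝ} (h : σ.Fn g) (he : Equivalence σ.Eqv) (Γ : σ.GD 7)
    (n : ℤ) : InvF (σ.prob Γ n) fun _ => σ.rr 7 g where
  sm _ := h.rr.1.of_le (by exact_mod_cast le_top)
  g _ := Γ.inv _ h.rr.1.continuousOn fun y y' e => by
    rw [h.rr.2, h.rr.2]; exact h.2 y y' e.1 e.2
  e x y _ e := by
    have := (eqv_iff he).1 e
    exact (h.rr.2 x.2).trans ((h.2 _ _ this.1 this.2).symm.trans (h.rr.2 y.2).symm)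

theorem Sm.mono {η η' : ℝ} {q : d.W →₀ ℝ} (h : σ.Sm η q) (e : η ≤ η') : σ.Sm η' q :=
  fun t ht => (h t ht).imp fun _ h => ⟨h.1.trans e, h.2⟩

theorem Bnd.mono {C C' η η' : ℝ} {y : σ.Pnt} (h : σ.Bnd C η y) (e : C ≤ C') (e' : η' ≤ η) :
    σ.Bnd C' η' y :=
  ⟨h.en.trans (ENNReal.ofReal_le_ofReal e), fun x => (h.sup x).trans e,
    fun i K hK t ht => e'.trans (h.low i K hK t ht)⟩

theorem Eqv.ean (h : σ.OK) {y y' : σ.Pnt} (e : σ.Eqv y y') :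
    (σ.P y'.1.1).ean y'.1.2 = (σ.P y.1.1).ean y.1.2 := by
  obtain ⟨e1, u, hu, e2⟩ := e
  rw [← e1, e2]
  exact ((Pb50.pb κ lam ν).act d X nc _ _ _ (h.ok _ y.2.1) _ u y.2.2.1 hu.1).2.2.2.2.2.2.2.2.1

theorem Eqv.bnd (h : σ.OK) {y y' : σ.Pnt} (e : σ.Eqv y y') {C η : ℝ} (b : σ.Bnd C η y) :
    σ.Bnd C η y' := by
  have h0 := e.ean h
  obtain ⟨⟨t, c⟩, hy⟩ := y
  obtain ⟨⟨t', c'⟩, hy'⟩ := y'
  obtain ⟨rfl, u, hu, rfl⟩ : t = t' ∧ ∃ u, (σ.P t).Al u ∧ c' = (σ.P t).bg.act u c := e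
  have h1 : ∀ x, ‖((σ.P t).bg.act u c).Φ x‖ = ‖c.Φ x‖ := fun x =>
    Pb50.norm_cs (h.ok _ hy.1).bg.m.Jsq (h.ok _ hy.1).bg.m.Jsk (hu.1.2 x) _
  refine ⟨h0.trans_le b.en, fun x => (h1 x).trans_le (b.sup x), fun i K hK τ hτ => ?_⟩
  refine (b.low i K hK τ hτ).trans_eq ?_
  simp only [nm, sl, Cfg.pb, h1]

/-- the parameters converge -/
theorem Cvg.par {ι : Type} {l : Filter ι} {y : ι → σ.Pnt} {y₀ : σ.Pnt} (h : σ.Cvg l y y₀) :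
    Tendsto (fun i => (y i).1.1) l (𝓝 y₀.1.1) := by
  refine Metric.tendsto_nhds.2 fun ε hε => (h 0 (ε / 2) (half_pos hε)).mono ?_
  rintro i ⟨y', e, h1⟩
  rw [dist_eq_norm, e.1]
  have h2 : ‖y'.1.1 - y₀.1.1‖ ≤ σ.dk 0 y' y₀ :=
    le_add_of_nonneg_left (add_nonneg (Sob92.nrm_nonneg _ _) (Sob92.nrm_nonneg _ _))
  linarith

end Cel

theorem ax_mono {W : Type} {Q : Prob W} (h : Q.Ax fun _ => True) (A : (W →₀ ℝ) → Prop) : Q.Ax A :=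
  { h with slc := fun q x _ => h.slc q x trivial }

namespace Lvs
variable (L : Lvs d Sl) {W : Wld d Sl} {σ : W.Cl}
include L

theorem pnt (h : σ.cel.OK) : Nonempty σ.cel.Pnt :=
  h.ne.elim fun t ht => ⟨⟨(t, _), ht,
    ((L.pt _ _ _ _ _ σ.cel h.toOK fun i b hi => (h.gd i b hi).crit).1 t ht).1⟩⟩

theorem ind (h : σ.cel.OK) : σ.cel.Ind σ.n := by
  have h1 := L.fred _ _ _ _ _ σ.cel h
  rw [Wld.Cl.n, dif_pos h1]
  exact h1.choose_spec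

theorem n_eq (h : σ.cel.OK) {n : ℤ} (hn : σ.cel.Ind n) : σ.n = n :=
  (L.pnt h).elim fun y => (L.ind h).unique h y hn

theorem ax' (h : σ.cel.OK) : σ.Q.Ax (fun _ => True) ∧ Equivalence σ.cel.Eqv := by
  have h1 := L.ax _ _ _ _ _ σ.cel h _ (L.ind h) 7 le_rfl
  rw [Wld.Cl.Q, Wld.Cl.Γ, dif_pos h1]
  exact h1.choose_spec

theorem sol_iff (h : σ.cel.OK) {q : d.W →₀ ℝ} {x : σ.Q.X} : σ.Q.Sol q x ↔ σ.cel.Sol q x.2 :=
  ((L.rep _ _ _ _ _ σ.cel h 7 le_rfl).2.2.1 q x.2).symm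

theorem fn_wf (h : σ.cel.OK) {a : WA d Sl}
    (ha : a.2.elim ((W.st σ.a).s.nk a.1 = none) ((W.st σ.a).s.Inf a.1)) : σ.cel.Fn (σ.cel.wf a) := by
  have h1 := (L.map _ _ _ _).mo _ σ.cel h.toOK h.gd
  have h2 : ContDiff ℝ ∞ fun r : ℝ => 1 - Real.exp (-r) := by fun_prop
  obtain ⟨i, _ | b⟩ := a
  · exact (h1.2.2 _ ((h1.2.1 i ha).sub contDiffOn_const)).comp h2
  · exact (h1.1 i b ha).comp h2

theorem fn_g (h : σ.cel.OK) (g : (W.I σ.f → ℝ) →ᴬ[ℝ] ℝ) : σ.cel.Fn fun t _ => g t :=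
  ((L.map _ _ _ _).mo _ σ.cel h.toOK h.gd).2.2 _ g.contDiff.contDiffOn

theorem pb_eq (h : σ.cel.OK) (x : σ.Q.X) (b : W.B) : W.gx.pb (σ := σ) x b = W.g σ.f b x.2.1.1 :=
  (L.fn_g h _).rr.2 x.2

theorem add_n {w : W.Wl σ.f} {v} (h : (W.p w).OK σ.cel (σ.L w v).cel (σ.R w v).cel) :
    σ.n = (σ.L w v).n + (σ.R w v).n + 1 :=
  L.n_eq h.ok (L.add _ _ _ _ _ _ _ _ _ _ _ _ _ _ _ _ _ _ _ h h.okL.ne h.okR.ne _ _
    (L.ind h.okL) (L.ind h.okR))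

variable {Γ : Ctx d} {G : W.Cl → Prop} {rank : W.Cl → ℕ}

omit L in
theorem mem_wa {a : WA d Sl} : a ∈ W.gx.wa σ ↔ ∃ w : W.Wl σ.f, (W.p w).wl = a := by
  simp [Wld.gx]

theorem pa_eq (h : σ.Ok Γ G rank) (x : σ.Q.X) (w : W.Wl σ.f) :
    W.gx.pa (σ := σ) x (W.p w).wl = σ.cel.wf (W.p w).wl x.2.1.1 x.2.1.2 :=
  (L.fn_wf h.ok (h.inf w)).rr.2 x.2

theorem mem_M (h : σ.Ok Γ G rank) {q : d.W →₀ ℝ} {x : σ.Q.X} :
    x ∈ W.gx.M σ q ↔ σ.cel.Sol q x.2 ∧ σ.Dom x.2.1.1 := by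
  refine ⟨fun hx => ⟨(L.sol_iff h.ok).1 hx.1, fun b hb => (hx.2.1 b hb).trans_eq (L.pb_eq h.ok x b)⟩,
    fun hx => ⟨(L.sol_iff h.ok).2 hx.1, fun b hb => (hx.2 b hb).trans_eq (L.pb_eq h.ok x b).symm,
      fun a ha => ?_⟩⟩
  obtain ⟨w, rfl⟩ := mem_wa.1 ha
  rw [L.pa_eq h]
  exact sub_lt_self _ (Real.exp_pos _)

end Lvs

section res
variable {X : Mf 4} {nc nr : ℕ} {T T' : Type} [NormedAddCommGroup T] [NormedSpace ℝ T]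
  [FiniteDimensional ℝ T] [NormedAddCommGroup T'] [NormedSpace ℝ T'] [FiniteDimensional ℝ T']
  {s : StS d Sl X} {σ : Cel s nc nr T} {τ : Cel s nc nr T'} {j : T' →ᴬ[ℝ] T}

theorem res_tr (h : τ = σ.res j) (y : τ.Pnt) (y' : σ.Pnt) (e : y'.1 = (j y.1.1, y.1.2))
    (q : d.W →₀ ℝ) : (τ.Sol q y ↔ σ.Sol q y') ∧ (∀ a, τ.wf a y.1.1 y.1.2 = σ.wf a y'.1.1 y'.1.2) ∧
    ∃ z : (σ.res j).Pnt, σ.inc j z = y' ∧ (τ.Reg 7 q y → (σ.res j).Reg 7 q z) := by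
  subst h
  obtain rfl : y' = σ.inc j y := Subtype.ext e
  exact ⟨Iff.rfl, fun _ => rfl, y, rfl, id⟩

theorem res_eqv (h : τ = σ.res j) (hj : Injective j) (y z : τ.Pnt) (y' z' : σ.Pnt)
    (e : y'.1 = (j y.1.1, y.1.2)) (e' : z'.1 = (j z.1.1, z.1.2)) : σ.Eqv y' z' ↔ τ.Eqv y z := by
  subst h
  obtain rfl : y' = σ.inc j y := Subtype.ext e
  obtain rfl : z' = σ.inc j z := Subtype.ext e'
  exact and_congr_left' hj.eq_iff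

theorem res_sur (h : τ = σ.res j) (y' : σ.Pnt) {t : T'} (e : j t = y'.1.1) :
    ∃ y : τ.Pnt, y.1 = (t, y'.1.2) := by
  subst h
  refine ⟨⟨(t, y'.1.2), ?_⟩, rfl⟩
  have := y'.2
  rw [← e] at this
  exact this

end res

namespace Lvs
variable (L : Lvs d Sl) {W : Wld d Sl} {σ : W.Cl} {Γ : Ctx d} {G : W.Cl → Prop}
  {rank : W.Cl → ℕ} (H : ∀ σ, G σ → σ.Ok Γ G rank) (hσ : G σ)
include L H hσ

theorem fac' {b : W.B} (hb : b ∈ W.wb σ.f) : (σ.fc b).n = σ.n - 1 ∧ ∀ q z,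
    (σ.cel.res (W.j σ.f b)).Reg 7 q z → Surjective
      ((fderiv ℝ (σ.cel.F 7 q) (σ.cel.pt 7 (σ.cel.inc _ z))).prod
        (fderiv ℝ (σ.cel.rr 7 fun t _ => W.g σ.f b t) (σ.cel.pt 7 (σ.cel.inc _ z)))) := by
  have h := H σ hσ
  obtain ⟨h1, -, h2, h3, h4, -⟩ := h.fc b hb
  have h5 := (H _ h1).ok
  have h6 := h5
  rw [σ.cel_fc] at h6
  obtain ⟨-, h7, h8⟩ := L.fac _ _ _ _ _ σ.cel h.ok _ _ _ h2 h3 h4 h6.con h6.ne
  refine ⟨L.n_eq h5 ?_, h8 7 le_rfl⟩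
  rw [σ.cel_fc]
  exact h7 _ (L.ind h.ok)

theorem gx_ax (A : (d.W →₀ ℝ) → Prop) : W.gx.Ax A σ := by
  have h := H σ hσ
  have tr := fun b (x : (σ.fc b).Q.X) => res_tr (σ.cel_fc b) x.2 (σ.inc b x.2) rfl
  have hg : ∀ b ∈ W.wb σ.f, ∀ t, W.g σ.f b (W.j σ.f b t) = 0 := fun b hb t => by
    have : W.j σ.f b t ∈ range (W.j σ.f b) := mem_range_self t
    rwa [(h.fc b hb).2.2.2.1] at this
  refine ⟨ax_mono (L.ax' h.ok).1 A, fun a ha => ?_, fun b _ => (L.fn_g h.ok _).invF (L.ax' h.ok).2 _ _,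
    fun b hb => (L.fac' H hσ hb).1, fun b hb x y _ _ => ?_, fun b hb q _ x hx => ?_,
    fun b hb x _ => (L.pb_eq h.ok _ b).trans (hg b hb _), fun b hb q _ y hy h0 => ?_,
    fun b hb q _ x _ hr => ?_, fun b hb a ha => ?_, fun b hb b' hb' hne x _ h0 => ?_⟩
  · obtain ⟨w, rfl⟩ := mem_wa.1 ha
    exact (L.fn_wf h.ok (h.inf w)).invF (L.ax' h.ok).2 _ _
  · exact (Cel.eqv_iff (L.ax' h.ok).2).trans ((res_eqv (σ.cel_fc b) (h.fc b hb).2.2.1 x.2 y.2 _ _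
      rfl rfl).trans (Cel.eqv_iff (L.ax' (H _ (h.fc b hb).1).ok).2).symm)
  · have h1 := (L.mem_M (H _ (h.fc b hb).1)).1 hx
    exact (L.mem_M h).2 ⟨(tr b x q).1.1 h1.1, ((h.fc b hb).2.2.2.2.2.1 _).1 h1.2⟩
  · have h1 := (L.mem_M h).1 hy
    have h2 : y.2.1.1 ∈ range (W.j σ.f b) := by
      rw [(h.fc b hb).2.2.2.1]
      exact (L.pb_eq h.ok y b).symm.trans h0
    obtain ⟨t, ht⟩ := h2
    obtain ⟨z, hz⟩ := res_sur (σ.cel_fc b) y.2 ht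
    have e : σ.inc b z = y.2 := Subtype.ext (by
      show (W.j σ.f b z.1.1, z.1.2) = _
      rw [hz, ht])
    refine ⟨⟨(), z⟩, (L.mem_M (H _ (h.fc b hb).1)).2 ⟨(tr b ⟨(), z⟩ q).1.2 (e ▸ h1.1),
      ((h.fc b hb).2.2.2.2.2.1 _).2 ?_⟩, congrArg (Sigma.mk ()) e⟩
    show σ.Dom (σ.inc b z).1.1
    rw [e]
    exact h1.2
  · obtain ⟨z, e, hz⟩ := (tr b x q).2.2
    have := (L.fac' H hσ hb).2 q z (hz hr)
    rw [e] at this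
    exact this
  · obtain ⟨w, rfl⟩ := mem_wa.1 ha
    rcases (h.fc b hb).2.2.2.2.2.2.2 w with ⟨w', e⟩ | ⟨h1, h2⟩
    · refine .inl ⟨mem_wa.2 ⟨w', e⟩, fun x _ => (L.pa_eq h _ w).trans ?_⟩
      have := L.pa_eq (H _ (h.fc b hb).1) x w'
      rw [e] at this
      exact ((tr b x 0).2.1 _).symm.trans this.symm
    · refine .inr fun x _ => (L.pa_eq h _ w).trans_le ?_
      have h3 := h2 x.2.1.1 (σ.inc b x.2).2.1
      simp only [Cel.wf, h1, Option.elim]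
      have h4 := Real.add_one_le_exp (-((σ.cel.P (W.j σ.f b x.2.1.1)).len (W.p w).wl.1 - 2))
      show 1 - Real.exp (-((σ.cel.P (W.j σ.f b x.2.1.1)).len (W.p w).wl.1 - 2)) ≤ 1 / 2
      linarith
  · obtain ⟨b'', h1, h2⟩ := (h.fc b hb).2.2.2.2.2.2.1 b' hb' hne x.2.1.1
      ((L.pb_eq h.ok _ b').symm.trans h0)
    exact ⟨b'', h1, (L.pb_eq (H _ (h.fc b hb).1).ok x b'').trans h2⟩

theorem z_eq (q : d.W →₀ ℝ) : W.gx.z q σ = σ.z q := by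
  have h := H σ hσ
  have he := (L.ax' h.ok).2
  refine Nat.card_congr (Quot.congr
    ⟨fun x => ⟨x.1.2, (L.mem_M h).1 x.2⟩, fun y => ⟨⟨(), y.1⟩, (L.mem_M h).2 y.2⟩,
      fun _ => rfl, fun _ => rfl⟩ fun x y => Cel.eqv_iff he)

end Lvs

end Crest.Agent.X212.Sw
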