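import Crest.Agent.X212.Rf65.Zpk

/-!
# Row 212, ZL (helper91): algebra in a Hilbert space, functions of `t`, functions on the cylinder
-/

set_option autoImplicit false
set_option linter.unusedSectionVars false
noncomputable section
open scoped Manifold ContDiff Topology InnerProductSpace
open MeasureTheory Function Filter Finset

namespace Crest.Agent.X212.Sw.Zl
open An Wz78 Sob92 Cyf70 Rf65

section abs
variable {H : Type*} [NormedAddCommGroup H] [InnerProductSpace ℝ H]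

theorem stepV {Ak Av mk mv : H} (h1 : ⟪Ak, Av⟫_ℝ = 0) (h2 : ⟪mk, Av⟫_ℝ = ⟪Ak, mv⟫_ℝ)
    (h3 : ⟪mk, mv⟫_ℝ = 0) (h4 : ‖mv‖ ≤ ‖Av‖ / 2) : ‖Av‖ ≤ 2 * ‖Ak + Av + (mk + mv)‖ := by
  have e : ⟪Ak + Av + (mk + mv), Av - mv⟫_ℝ = ‖Av‖ ^ 2 - ‖mv‖ ^ 2 := by
    simp only [inner_add_left, inner_sub_right, h1, h2, h3, real_inner_self_eq_norm_sq,
      real_inner_comm Av mv]
    ring
  have k := (real_inner_le_norm _ _).trans (mul_le_mul_of_nonneg_left (norm_sub_le Av mv)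
    (norm_nonneg (Ak + Av + (mk + mv))))
  rw [e] at k
  by_contra h
  have := norm_nonneg mv
  have := norm_nonneg (Ak + Av + (mk + mv))
  nlinarith

theorem stepA {Aa An a ma mn : H} {η δ C s : ℝ} (h1 : ⟪An, Aa⟫_ℝ = 0)
    (h2 : ⟪mn, Aa⟫_ℝ = ⟪An, ma⟫_ℝ) (h3 : ⟪mn, ma⟫_ℝ = 0) (h4 : ⟪Aa, ma⟫_ℝ ≤ 0)
    (h5 : 0 ≤ ⟪a, Aa⟫_ℝ) (h6 : ‖ma‖ ≤ δ * ‖a‖) (hη : 0 ≤ η) (hδ : 0 ≤ δ) (hC : 0 < C)
    (hs : η * δ * C ≤ 1 / 2) (p : ‖a‖ ^ 2 ≤ C * (‖Aa‖ ^ 2 + s ^ 2)) :
    ‖Aa‖ ^ 2 ≤ (8 + 8 * C * δ ^ 2) * ‖Aa + An + (η • a + mn)‖ ^ 2 + 3 * s ^ 2 := by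
  set f := Aa + An + (η • a + mn) with hf
  have e : ⟪f, Aa - ma⟫_ℝ = ‖Aa‖ ^ 2 - ⟪Aa, ma⟫_ℝ + η * ⟪a, Aa⟫_ℝ - η * ⟪a, ma⟫_ℝ := by
    simp only [hf, inner_add_left, inner_sub_right, h1, h2, h3, real_inner_self_eq_norm_sq,
      real_inner_smul_left]
    ring
  have k := (real_inner_le_norm _ _).trans (mul_le_mul_of_nonneg_left ((norm_sub_le Aa ma).trans
    (add_le_add_right h6 _)) (norm_nonneg f))
  have k1 := mul_le_mul_of_nonneg_left ((real_inner_le_norm a ma).trans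
    (mul_le_mul_of_nonneg_left h6 (norm_nonneg a))) hη
  have k2 := mul_le_mul_of_nonneg_left p (mul_nonneg hη hδ)
  have k3 := mul_le_mul_of_nonneg_right hs (show 0 ≤ ‖Aa‖ ^ 2 + s ^ 2 by positivity)
  have k4 : 8 * (δ * ‖f‖ * ‖a‖) ≤ ‖Aa‖ ^ 2 + s ^ 2 + 16 * C * δ ^ 2 * ‖f‖ ^ 2 :=
    le_of_mul_le_mul_left (by nlinarith [sq_nonneg (‖a‖ - 4 * C * δ * ‖f‖)]) hC
  rw [e] at k
  nlinarith [mul_nonneg hη h5, sq_nonneg (‖Aa‖ - 4 * ‖f‖), sq_nonneg s]

end abs

theorem ode0 {c : ℝ → ℝ} (h : ContDiff ℝ ∞ c) (k : HasCompactSupport c) (s : ℝ) :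
    s ^ 2 * ∫ t, c t ^ 2 ≤ ∫ t, (deriv c t + s * c t) ^ 2 := by
  have h0 := h.continuous
  have h1 := h.continuous_deriv (by simp)
  have i : ∀ {f : ℝ → ℝ}, Continuous f → (∀ t, c t = 0 → deriv c t = 0 → f t = 0) → Integrable f :=
    fun hf h0 => hf.integrable_of_hasCompactSupport ((k.union k.deriv).of_isClosed_subset
      (isClosed_tsupport _) (closure_minimal (fun t ht => by
        by_contra n
        exact ht (h0 t (image_eq_zero_of_notMem_tsupport fun m => n (.inl m))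
          (image_eq_zero_of_notMem_tsupport fun m => n (.inr m))))
        ((isClosed_tsupport _).union (isClosed_tsupport _))))
  have i1 : Integrable fun t => s * (2 * c t * deriv c t) := i (by fun_prop) fun t a _ => by simp [a]
  have i2 : Integrable fun t => s ^ 2 * c t ^ 2 := i (by fun_prop) fun t a _ => by simp [a]
  have e := integral_eq_zero_of_hasDerivAt_of_integrable (f := fun t => s * c t ^ 2) (fun t => by
    simpa using (((h.differentiable (by simp) t).hasDerivAt.fun_pow 2).const_mul s)) i1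
    (i (by fun_prop) fun t a _ => by simp [a])
  rw [← integral_const_mul, ← add_zero (integral _ _), ← e, ← integral_add i2 i1]
  exact integral_mono (i2.add i1) (i (by fun_prop) fun t a b => by simp [a, b]) fun t => by
    dsimp only; nlinarith [sq_nonneg (deriv c t)]

variable {E : Type} [NormedAddCommGroup E] [NormedSpace ℝ E] [FiniteDimensional ℝ E]
  [MeasurableSpace E] [BorelSpace E]
  {HM : Type} [TopologicalSpace HM] {I : ModelWithCorners ℝ E HM} [I.Boundaryless]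
  {Y : Type} [TopologicalSpace Y] [ChartedSpace HM Y] [IsManifold I ∞ Y] [T2Space Y]
  [MeasurableSpace Y] [BorelSpace Y] [SecondCountableTopology Y] [CompactSpace Y]
  {κ : Type} [Fintype κ] {T : Type} [NormedAddCommGroup T] [InnerProductSpace ℝ T]
  (F : Fr I Y κ) {f g : Y × ℝ → T}

theorem cd_int {g : Y × ℝ → ℝ} (hg : Sm (IC I) g) (hc : HasCompactSupport g) :
    ContDiff ℝ ∞ fun s => ∫ y, g (y, s) ∂F.μ := by
  refine contDiff_infty.2 fun n => ?_
  induction n generalizing g with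
  | zero => exact contDiff_zero.2 (cont_int F hg.continuous)
  | succ n ih =>
    rw [Nat.cast_succ]
    refine contDiff_succ_iff_deriv.2 ⟨fun t => (der_int F hg hc t).differentiableAt, by simp, ?_⟩
    rw [funext fun t => (der_int F hg hc t).deriv]
    exact ih ((cylP F.toPre).sm_D hg none) ((cylP F.toPre).hcs_D hc none)

/-- test functions -/
abbrev X (I : ModelWithCorners ℝ E HM) (Y : Type) [TopologicalSpace Y] [ChartedSpace HM Y]
    (T : Type) [NormedAddCommGroup T] [InnerProductSpace ℝ T] : Submodule ℝ (Y × ℝ → T) :=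
  Sec (IC I) (triv (Y × ℝ) T)

/-- the class in `L²` -/
def em : (Y × ℝ → T) →ₗ[ℝ] (cyl F).H 0 (triv (Y × ℝ) T) :=
  (LinearMap.exists_extend ((cyl F).toH 0 (triv (Y × ℝ) T))).choose

variable {F}

theorem em_eq (h : f ∈ X I Y T) : em F f = (cyl F).toH 0 _ ⟨f, h⟩ :=
  LinearMap.congr_fun (LinearMap.exists_extend ((cyl F).toH 0 (triv (Y × ℝ) T))).choose_spec ⟨f, h⟩

theorem inner_em (h : f ∈ X I Y T) (h' : g ∈ X I Y T) :
    ⟪em F f, em F g⟫_ℝ = ∫ x, ⟪f x, g x⟫_ℝ ∂(cyl F).μ := by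
  rw [em_eq h, em_eq h', Pre.inner_toH]; rfl

theorem norm_em (h : f ∈ X I Y T) : ‖em F f‖ = (cyl F).nrm 0 f := by rw [em_eq h, Pre.norm_toH]

theorem sq_em (h : f ∈ X I Y T) : ‖em F f‖ ^ 2 = ∫ x, ‖f x‖ ^ 2 ∂(cyl F).μ := by
  simp only [← real_inner_self_eq_norm_sq, inner_em h h]

theorem em_le (h : f ∈ X I Y T) (h' : g ∈ X I Y T) {c : ℝ} (hc : 0 ≤ c)
    (k : ∀ x, ‖f x‖ ≤ c * ‖g x‖) : ‖em F f‖ ≤ c * ‖em F g‖ := by
  refine le_of_sq_le_sq ?_ (by positivity)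
  rw [mul_pow, sq_em h, sq_em h', ← integral_const_mul]
  exact integral_mono (ig2 h.1.continuous h.2.1) ((ig2 h'.1.continuous h'.2.1).const_mul _) fun x => by
    simpa only [mul_pow] using pow_le_pow_left₀ (norm_nonneg _) (k x) 2

/-- the Poincaré inequality when the parallel sections are the multiples of `ξ` -/
theorem poi [FiniteDimensional ℝ T] {A : Option κ → Y → T →L[ℝ] T} {q : Y → T →L[ℝ] T}
    (h : Pq F (sA A) q) (h' : Sm I (A none)) (hn : Module.finrank ℝ E ≤ 4) {ξ : Y → T}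
    (hξ : Pl F (sA A) q ξ) (n : 0 < ∫ y, ⟪ξ y, ξ y⟫_ℝ ∂F.μ)
    (sp : ∀ ζ, Pl F (sA A) q ζ → ∃ s : ℝ, s • ξ = ζ) : ∃ C > 0, ∀ f ∈ X I Y T,
      (∀ x, q x.1 (f x) = f x) → ∫ x, ‖f x‖ ^ 2 ∂(cyl F).μ ≤
        C * (∫ x, ∑ a, ‖nab (IC I) (cyl F).e (cA A) (some a) f x‖ ^ 2 ∂(cyl F).μ +
          ∫ t, (∫ y, ⟪ξ y, f (y, t)⟫_ℝ ∂F.μ) ^ 2) := by
  obtain ⟨c, hc, hb⟩ := h.poi hn
  set N := ∫ y, ⟪ξ y, ξ y⟫_ℝ ∂F.μ with hN
  refine ⟨c + N⁻¹, by positivity, fun f hf hq => ?_⟩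
  have sA' := sm_cA (A := A) fun a => by cases a; exacts [h', h.smA _]
  have c1 : Continuous fun x => ‖f x‖ ^ 2 := hf.1.continuous.norm.pow 2
  have k1 : HasCompactSupport fun x => ‖f x‖ ^ 2 := hf.2.1.mono fun x hx h0 => hx (by simp [h0])
  have c2 : Continuous fun x => ∑ a, ‖nab (IC I) (cyl F).e (cA A) (some a) f x‖ ^ 2 :=
    continuous_finsetSum _ fun a _ => (sm_nab (F := cyl F) sA' _ hf.1).continuous.norm.pow 2
  have k2 : HasCompactSupport fun x => ∑ a, ‖nab (IC I) (cyl F).e (cA A) (some a) f x‖ ^ 2 :=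
    .intro hf.2.1.isCompact fun x hx => sum_eq_zero fun a _ => by
      simp [nab, image_eq_zero_of_notMem_tsupport hx, ← Pre.D_def,
        image_eq_zero_of_notMem_tsupport fun h => hx ((cyl F).tsupport_D f (some a) h)]
  have c3 : Continuous fun x : Y × ℝ => ⟪ξ x.1, f x⟫_ℝ :=
    (hξ.sm.continuous.comp continuous_fst).inner hf.1.continuous
  have i2 := (cont_int F c2).integrable_of_hasCompactSupport (μ := volume) (hcs_int F k2)
  have i3 : Integrable fun t => (∫ y, ⟪ξ y, f (y, t)⟫_ℝ ∂F.μ) ^ 2 := by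
    simpa using ig2 (μ := volume) (cont_int F c3) (hcs_int F (Rf65.hcs_inner (fun x => ξ x.1) hf.2.1))
  rw [show (cyl F).μ = (cylP F.toPre).μ from rfl, integral_cyl _ c1 k1, integral_cyl _ c2 k2,
    ← integral_add i2 i3, ← integral_const_mul]
  refine integral_mono ((cont_int F c1).integrable_of_hasCompactSupport (hcs_int F k1))
    ((i2.add i3).const_mul _) fun t => ?_
  have s1 := sm_slice_fst hf.1 t
  set s := ∫ y, ⟪ξ y, f (y, t)⟫_ℝ ∂F.μ with hs
  have j := fun {u v : Y → T} (hu : Sm I u) (hv : Sm I v) => (hu.continuous.inner (𝕜 := ℝ)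
    hv.continuous).integrable_of_hasCompactSupport (μ := F.μ) (.of_compactSpace _)
  have s2 : Sm I fun y => (s / N) • ξ y := fun y => SA.smul contMDiffAt_const (hξ.sm y)
  have b := hb (fun y => f (y, t) - (s / N) • ξ y) (s1.sub s2)
    (fun y => by rw [map_sub, map_smul, hq (y, t), hξ.mem]) fun ζ hζ => by
      obtain ⟨r, rfl⟩ := sp ζ hζ
      simp only [Pi.smul_apply, inner_sub_left, real_inner_smul_left, real_inner_smul_right,
        real_inner_comm (ξ _) (f _), ← mul_sub, integral_const_mul]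
      rw [integral_sub (j hξ.sm s1) ((j hξ.sm hξ.sm).const_mul _), integral_const_mul,
        div_mul_cancel₀ _ n.ne', sub_self, mul_zero]
  have e : ∫ y, ‖f (y, t) - (s / N) • ξ y‖ ^ 2 ∂F.μ = ∫ y, ‖f (y, t)‖ ^ 2 ∂F.μ - N⁻¹ * s ^ 2 := by
    simp only [← real_inner_self_eq_norm_sq, inner_sub_left, inner_sub_right, real_inner_smul_left,
      real_inner_smul_right, real_inner_comm (ξ _) (f _)]
    rw [integral_sub ((j s1 s1).sub' ((j hξ.sm s1).const_mul _)) (((j hξ.sm s1).const_mul _).sub'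
      (((j hξ.sm hξ.sm).const_mul _).const_mul _)), integral_sub (j s1 s1) ((j hξ.sm s1).const_mul _),
      integral_sub ((j hξ.sm s1).const_mul _) (((j hξ.sm hξ.sm).const_mul _).const_mul _)]
    simp only [integral_const_mul, ← hs, ← hN]
    field_simp
    ring
  simp only [e, nab_sub _ (s1 _) (s2 _), nab_csmul _ _ (hξ.sm _), hξ.par, smul_zero, sub_zero] at b
  simp only [nab_some hf.1]
  have : 0 ≤ ∫ y, ∑ a, ‖nab I F.e (sA A) a (fun y => f (y, t)) y‖ ^ 2 ∂F.μ := by positivity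
  nlinarith [mul_nonneg hc.le (sq_nonneg s), mul_nonneg (inv_pos.2 n).le this]

end Crest.Agent.X212.Sw.Zl
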