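import Crest.Agent.X212.Sw.ZlA
import Crest.Agent.X212.Inv14.Val

/-!
# Row 212, ZL (helper91): the linearisation on the cylinder at a flat reducible point
-/

set_option autoImplicit false
set_option linter.unusedSectionVars false
set_option maxHeartbeats 400000
noncomputable section
open scoped Manifold ContDiff Topology InnerProductSpace
open MeasureTheory Function Filter Finset

namespace Crest.Agent.X212.Sw.Zl
open An An.Pre Wz78 Sob92 Cyf70 Rf65 Map77 Op78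
open Inv14 (hv ct fa_hv fp_hv inner_hv hv_zero cν_inv ct_none hv_none)

variable {E : Type} [NormedAddCommGroup E] [NormedSpace ℝ E] [FiniteDimensional ℝ E]
  [MeasurableSpace E] [BorelSpace E]
  {HM : Type} [TopologicalSpace HM] {I : ModelWithCorners ℝ E HM} [I.Boundaryless]
  {Y : Type} [TopologicalSpace Y] [ChartedSpace HM Y] [IsManifold I ∞ Y] [T2Space Y]
  [MeasurableSpace Y] [BorelSpace Y] [SecondCountableTopology Y] [CompactSpace Y]
  {κ K η : Type} [Fintype κ] [DecidableEq κ] [Fintype K] [DecidableEq K] [Fintype η] [DecidableEq η]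

/-- a flat reducible point over a cross-section of positive scalar curvature -/
structure ZZ (F : Fr I Y κ) (d : Bd (Y × ℝ) (Option κ) K) (W : Option κ → Y → En K)
    (ν : η → κ → Y → ℝ) (r c : ℝ) : Prop where
  cp : Cp d (cyl F) (cyl F).Gam (cA W)
  rm : Riem (cyl F)
  psc : Psc F ν r
  tmp : ∀ y, W none y = 0
  flat : ∀ a b x ξ, d.g x ξ = ξ → adc (curv (IC I) (cyl F).e (cyl F).c (cA W) a b x) ξ = 0
  spin : ∀ x v, d.sp x v = v → c * ‖v‖ ^ 2 ≤ ⟪v, wK (IC I) (cyl F).e (cyl F).c d.ρ (cA W) x v⟫_ℝ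
  g : ∀ x, d.g x = d.g (x.1, 0)
  dim : Module.finrank ℝ E ≤ 4

section defs
variable (F : Fr I Y κ) (d : Bd (Y × ℝ) (Option κ) K) (W : Option κ → Y → En K)
  (ν : η → κ → Y → ℝ)

/-- the operator -/
abbrev Az (u : Y × ℝ → Cf (Option κ) K) := (LZ F d W).app (cyl F) u
/-- the covariant derivative -/
abbrev Nz := nab (IC I) (cyl F).e (cC (cyl F) (cyl F).Gam (cA W))
/-- the covariant derivative on the Lie algebra bundle -/
abbrev Na := nab (IC I) (cyl F).e (adw (cA W))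
/-- the symbol of `dt` with a factor -/
def sg (χ : ℝ → ℝ) (u : Y × ℝ → Cf (Option κ) K) (x : Y × ℝ) : P2 (HS K) (Ef (Option κ) K) :=
  χ x.2 • (LZ F d W).σ none x (u x)
/-- the component along `ν i` -/
def cz (i : Option η) (u : Y × ℝ → Cf (Option κ) K) (x : Y × ℝ) : HS K := ct ν i x.1 (u x)
/-- `ν i ⊗ f` -/
def hz (i : Option η) (f : Y × ℝ → HS K) (x : Y × ℝ) : Cf (Option κ) K := hv ν i x.1 (f x)
/-- the part along `ν i` -/
abbrev Pz (i : Option η) (u : Y × ℝ → Cf (Option κ) K) := hz ν i (cz ν i u)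
end defs

variable {F : Fr I Y κ} {d : Bd (Y × ℝ) (Option κ) K} {W : Option κ → Y → En K}
  {ν : η → κ → Y → ℝ} {r c : ℝ} {i : Option η} {x : Y × ℝ} {ξ ξ' : HS K} {v v' : Cf (Option κ) K}
  {u w : Y × ℝ → Cf (Option κ) K} {f : Y × ℝ → HS K} {χ μ : ℝ → ℝ}

theorem ct_sub (y : Y) : ct ν i y (v - v') = ct ν i y v - ct ν i y v' := by
  simp [ct, smul_sub]

theorem ct_sum (y : Y) (v : Option η → Cf (Option κ) K) :
    ct ν i y (∑ j, v j) = ∑ j, ct ν i y (v j) := by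
  simp only [ct, map_sum, WithLp.ofLp_sum, Finset.sum_apply, smul_sum]; exact sum_comm

theorem hcs_of (h : HasCompactSupport u) {T : Type} [Zero T] {g : Y × ℝ → T}
    (k : ∀ x, u x = 0 → (∀ a, Nz F W a u x = 0) → g x = 0) : HasCompactSupport g :=
  .intro h.isCompact fun x hx => k x (image_eq_zero_of_notMem_tsupport hx) fun a => by
    simp [nab, image_eq_zero_of_notMem_tsupport hx, ← D_def,
      image_eq_zero_of_notMem_tsupport fun h => hx ((cyl F).tsupport_D u a h)]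

theorem prim (hμ : ContDiff ℝ ∞ μ) : ∃ χ, ContDiff ℝ ∞ χ ∧ deriv χ = μ :=
  have e : deriv (fun t => ∫ s in (0 : ℝ)..t, μ s) = μ :=
    _root_.funext fun _ => hμ.continuous.deriv_integral _ _ _
  ⟨_, contDiff_infty_iff_deriv.2 ⟨fun t =>
    (hμ.continuous.integral_hasStrictDerivAt 0 t).hasDerivAt.differentiableAt, e.symm ▸ hμ⟩, e⟩

namespace ZZ
variable (h : ZZ F d W ν r c)
include h

theorem ct_hv (j : Option η) (y : Y) : ct ν j y (hv ν i y ξ) = if j = i then ξ else 0 := by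
  simp only [ct, fa_hv, smul_smul, ← sum_smul, h.psc.cyl.ort, ite_smul, one_smul, zero_smul]

theorem norm_hv (y : Y) : ‖hv ν i y ξ‖ ^ 2 = ‖ξ‖ ^ 2 := by
  rw [← real_inner_self_eq_norm_sq, inner_hv, h.ct_hv, if_pos rfl, real_inner_self_eq_norm_sq]

theorem cz_eq : cz ν i u = ctr (cν ν) (fun b y => fa (u y) b) i :=
  _root_.funext fun x => by simp only [cz, ct, cν_inv, ctr]

theorem sm_hz (hf : Sm (IC I) f) : Sm (IC I) (hz ν i f) := fun x =>
  SA.clm (i1 _ (Eu K)) (SA.toLp (f := fun b y => cν ν i b (y.1, 0) • f y) fun b =>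
    (sm_fst (sm_slice_fst (h.psc.cyl.sm i b) 0) x).smul (hf x))

theorem sm_cz (hu : Sm (IC I) u) : Sm (IC I) (cz ν i u) :=
  h.cz_eq ▸ h.psc.cyl.sm_ctr (sm_fa hu) i

theorem hv_mem (hξ : d.g x ξ = ξ) : d.pC x (hv ν i x.1 ξ) = hv ν i x.1 ξ := by
  refine ext2 ?_ (by rw [s2_ps, fp_hv, map_zero])
  rw [f2_ps]
  refine h.cp.ok.p1_fix _ (fun a => ?_) fun a => ?_
  · rw [fa_hv, map_smul, hξ]
  · simp only [fa_hv, cν_inv, smul_smul, ← sum_smul, ← h.cp.P, h.psc.cyl.P]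

theorem ct_mem (hv : d.pC x v = v) : d.g x (ct ν i x.1 v) = ct ν i x.1 v := by
  simp only [ct, map_sum, map_smul, g_fa h.cp.ok hv]

theorem P_mem (hu : u ∈ Sec (IC I) d.pC) (i : Option η) : Pz ν i u ∈ Sec (IC I) d.pC :=
  ⟨h.sm_hz (h.sm_cz hu.1), hcs_u hu.2.1 fun x e => by simp [hz, cz, ct, e, hv_zero],
    fun x => h.hv_mem (h.ct_mem (hu.2.2 x))⟩

theorem N_none : Nz F W none u x = (cylP F.toPre).D none u x := by
  rw [Nz, nab, cC_zero (fun b k => gam_cyl none b k x) (h.tmp _), zero_apply, add_zero]; rfl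

theorem N_mem (hu : Sm (IC I) u) (pu : ∀ x, d.pC x (u x) = u x) (a : Option κ) (x : Y × ℝ) :
    d.pC x (Nz F W a u x) = Nz F W a u x :=
  Cp.par_nab (h.cp.sm_pC x) (h.cp.pC_par a x) (hu x) pu

theorem ct_N (hu : Sm (IC I) u) (pu : d.pC x (u x) = u x) (a : Option κ) :
    ct ν i x.1 (Nz F W a u x) = Na F W a (cz ν i u) x := by
  simp only [ct, h.cp.fa_nab (hu x) pu, cν_inv, h.cz_eq]
  exact (h.psc.cyl.nab_ctr (fun b => sm_fa hu b _) (h.cp.P_fa pu) i a).symm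

theorem N_hz (hf : Sm (IC I) f) (hg : d.g x (f x) = f x) (a : Option κ) :
    Nz F W a (hz ν i f) x = hv ν i x.1 (Na F W a f x) := by
  refine ext2 (fm_ext fun b => ?_) ?_
  · rw [h.cp.fa_nab (h.sm_hz hf x) (h.hv_mem hg)]
    simp only [hz, fa_hv, cν_inv]
    rw [cov, nab_smul _ (h.psc.cyl.sm i b _) (hf _), ← Pre.D_def, h.psc.cyl.par]
    simp only [sum_smul, mul_smul]
    abel
  · rw [s2_nab _ (h.sm_hz hf _)]
    simp [hz, fp_hv, nab]

theorem g_N (hf : Sm (IC I) f) (hg : ∀ x, d.g x (f x) = f x) (a : Option κ) :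
    d.g x (Na F W a f x) = Na F W a f x := Cp.par_nab (h.cp.sg x) (h.cp.g a x) (hf x) hg

theorem app (pu : d.pC x (u x) = u x) : Az F d W u x = ∑ a, (LZ F d W).σ a x (Nz F W a u x) := by
  rw [Az, (h.cp.rp_full 0).app pu, zf_zero (h.rm.dft h.cp.lc · _) rfl, zero_apply, add_zero]; rfl

theorem sm_σ (a : Option κ) : Sm (IC I) ((LZ F d W).σ a) := (h.cp.rp_full 0).sy.sm a

theorem inner_σ (hv : d.pC x v = v) (w : Cf (Option κ) K) :
    ⟪(LZ F d W).σ none x v, (LZ F d W).σ none x w⟫_ℝ = ⟪v, w⟫_ℝ := by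
  have := h.cp.ok.cliffL_full h.cp.P (base (cA W) 0) none none x v w
  change _ = 2 * 1 * ⟪d.pC x v, w⟫_ℝ at this
  rw [hv] at this; linarith

theorem norm_σ (hv : d.pC x v = v) : ‖(LZ F d W).σ none x v‖ = ‖v‖ := by
  rw [norm_eq_sqrt_real_inner, h.inner_σ hv, ← norm_eq_sqrt_real_inner]

theorem σ_P (hv : d.pC x v = v) :
    (LZ F d W).σ none x (Inv14.hv ν none x.1 (ct ν none x.1 v)) = i1 _ _ (fa v none) := by
  have m := h.hv_mem (i := none) (h.ct_mem (i := none) hv)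
  have e : f2 _ _ ((LZ F d W).σ none x (Inv14.hv ν none x.1 (ct ν none x.1 v))) = fa v none := by
    rw [h.cp.ok.full_σ1, p1_of m, fa_hv, ct_none]; exact one_smul _ _
  refine ext2 e ?_
  have := h.inner_σ m (Inv14.hv ν none x.1 (ct ν none x.1 v))
  rw [inner2, e, inner_hv, h.ct_hv, if_pos rfl, ct_none, add_eq_left, inner_self_eq_zero] at this
  rw [ct_none, this]; rfl

theorem orth (h1 : d.g x ξ = ξ) (h2 : d.g x ξ' = ξ') (a : κ) :
    ⟪(LZ F d W).σ (some a) x (hv ν i x.1 ξ), (LZ F d W).σ none x (hv ν i x.1 ξ')⟫_ℝ = 0 := by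
  have v := h.cp.ok.vol x
  have o : ∑ b, (∑ e, d.o (some a) b none e x * cν ν i e x) * cν ν i b x = 0 := by
    simp only [sum_mul]
    refine self_eq_neg.1 ((sum_comm ..).trans ?_)
    simp only [← sum_neg_distrib]
    refine sum_congr rfl fun b _ => sum_congr rfl fun e _ => ?_
    have := v.a2 (some a) b none e
    have := v.a3 (some a) none b e
    have := v.a2 (some a) e none b
    rw [show d.o (some a) e none b x = -d.o (some a) b none e x by linarith]; ring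
  rw [inner2, inner2 (s2 _ _ _), h.cp.ok.full_σ1, h.cp.ok.full_σ1, h.cp.ok.full_σ2,
    Bd.OK.full_σ3, Bd.OK.full_σ3, h.cp.ok.inner_wd, p1_of (h.hv_mem h1), p1_of (h.hv_mem h2)]
  simp only [fa_hv, cν_inv, fp_hv, map_zero, inner_zero_left, real_inner_smul_left,
    real_inner_smul_right, ← h.cp.P, show (cyl F).P (some a) none x = 0 from rfl, ← mul_assoc,
    ← sum_mul, o]
  ring

theorem kF_eq (pv : d.pC x v' = v') : kF d (cyl F) (cyl F).Gam (cA W) x v v' =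
    r * (⟪fa v, fa v'⟫_ℝ - ∑ i, ⟪ct ν i x.1 v, ct ν i x.1 v'⟫_ℝ) +
      ⟪fp v, wK (IC I) (cyl F).e (cyl F).c d.ρ (cA W) x (fp v')⟫_ℝ := by
  have h1 : ∀ b, ∑ l, (cyl F).P b l x * ⟪fa v b, fa v' l⟫_ℝ = ⟪fa v b, fa v' b⟫_ℝ := fun b => by
    simp only [← real_inner_smul_right, ← inner_sum, h.cp.P_fa pv]
  have h2 : ∑ b, ∑ l, (∑ i, cν ν i b x * cν ν i l x) * ⟪fa v b, fa v' l⟫_ℝ =
      ∑ i, ⟪ct ν i x.1 v, ct ν i x.1 v'⟫_ℝ := by
    simp only [ct, sum_inner, cν_inv]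
    simp only [inner_sum, real_inner_smul_left, real_inner_smul_right, sum_mul]
    rw [sum_comm (γ := Option η)]
    refine sum_congr rfl fun b _ => ?_
    rw [sum_comm (γ := Option η)]
    exact sum_congr rfl fun l _ => sum_congr rfl fun i _ => by ring
  simp only [kF, h.flat _ _ _ _ (g_fa h.cp.ok pv _), inner_zero_right, mul_zero, sum_const_zero,
    sub_zero, h.psc.cyl.ric, mul_assoc, ← mul_sum, sub_mul, sum_sub_distrib, h1, h2,
    inner_fm (fa v)]

theorem kF_hv (pv : d.pC x v = v) (hξ : d.g x ξ = ξ) :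
    kF d (cyl F) (cyl F).Gam (cA W) x (hv ν i x.1 ξ) v = 0 ∧
      kF d (cyl F) (cyl F).Gam (cA W) x v (hv ν i x.1 ξ) = 0 := by
  have := inner_hv (ν := ν) (i := i) (y := x.1) (ξ := ξ) (v := v)
  rw [inner2, fp_hv, inner_zero_left, add_zero] at this
  rw [h.kF_eq pv, h.kF_eq (h.hv_mem hξ), real_inner_comm (fa (hv ν i x.1 ξ)), this]
  have k : ∀ (p : Prop) [Decidable p] (z : HS K), ⟪if p then ξ else 0, z⟫_ℝ = if p then ⟪ξ, z⟫_ℝ else 0 :=
    fun p _ z => by split_ifs <;> simp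
  simp only [h.ct_hv, fp_hv, real_inner_comm (ite _ _ _) (ct _ _ _ v), k, sum_ite_eq', mem_univ, if_true,
    sub_self, mul_zero, inner_zero_left, map_zero, inner_zero_right, add_zero, and_self]

theorem boch (hu : Sm (IC I) u) (pu : ∀ x, d.pC x (u x) = u x) (hw : w ∈ Sec (IC I) d.pC) :
    ∫ x, ⟪Az F d W u x, Az F d W w x⟫_ℝ ∂(cyl F).μ = ∫ x, (∑ a, ⟪Nz F W a u x, Nz F W a w x⟫_ℝ +
      kF d (cyl F) (cyl F).Gam (cA W) x (u x) (w x)) ∂(cyl F).μ := by
  have := (h.cp.rp_full 0).boch h.cp.lc h.rm h.cp.con_cC h.cp.skew_cT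
    (h.cp.ok.cliffL_full h.cp.P _) h.cp.sm_pC h.cp.pC_par hu hw.1 hw.2.1 pu hw.2.2
  simp only [zf_zero (h.rm.dft h.cp.lc · _) (Pi.zero_apply _), zero_apply, sub_zero,
    h.cp.curv_term (pu _) (hw.2.2 _)] at this
  exact this.trans (integral_congr_ae (.of_forall fun x => by dsimp only; ring))

theorem N_smul (hχ : ContDiff ℝ ∞ χ) (hu : Sm (IC I) u) (a : Option κ) :
    Nz F W a (fun x => χ x.2 • u x) x = a.elim (deriv χ x.2 • u x) 0 + χ x.2 • Nz F W a u x := by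
  rw [Nz, nab_smul a (sm_snd hχ x) (hu x)]
  change (cylP F.toPre).D a _ x • _ + _ = _
  cases a with
  | none => simp [D_none_snd _ hχ]
  | some a => simp [D_some_snd _ hχ]

theorem A_smul (hχ : ContDiff ℝ ∞ χ) (hu : Sm (IC I) u) (pu : d.pC x (u x) = u x) :
    Az F d W (fun x => χ x.2 • u x) x = sg F d W (deriv χ) u x + χ x.2 • Az F d W u x := by
  rw [h.app (by rw [map_smul, pu]), h.app pu]
  simp [h.N_smul hχ hu, Fintype.sum_option, sg, smul_sum, add_assoc]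

theorem A_mem (hu : u ∈ Sec (IC I) d.pC) : Az F d W u ∈ X I Y _ := by
  rw [show Az F d W u = _ from _root_.funext fun x => h.app (hu.2.2 x)]
  exact mem_triv (fun x => SA.sum _ fun a _ => SA.app (h.sm_σ a x) (sm_nab h.cp.con_cC.sm a hu.1 x))
    (hcs_of (F := F) (W := W) hu.2.1 fun x _ e => by simp [e])

theorem sg_mem (hχ : ContDiff ℝ ∞ χ) (hu : u ∈ Sec (IC I) d.pC) : sg F d W χ u ∈ X I Y _ :=
  mem_triv ((sm_snd hχ).smul ((h.sm_σ none).clm_apply hu.1))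
    (hcs_u hu.2.1 fun x e => by simp [sg, e])

omit h in
theorem smul_mem {T : Type} [NormedAddCommGroup T] [InnerProductSpace ℝ T]
    {p : Y × ℝ → T →L[ℝ] T} {u : Y × ℝ → T} (hχ : ContDiff ℝ ∞ χ) (hu : u ∈ Sec (IC I) p) :
    (fun x => χ x.2 • u x) ∈ Sec (IC I) p :=
  ⟨(sm_snd hχ).smul hu.1, hu.2.1.mono fun x hx e => hx (by simp [e]),
    fun x => by rw [map_smul, hu.2.2]⟩

/-- the operator on the cross-section is symmetric -/
theorem sym (hμ : ContDiff ℝ ∞ μ) (hu : u ∈ Sec (IC I) d.pC) (hw : w ∈ Sec (IC I) d.pC)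
    (o1 : ∀ x, ⟪u x, Nz F W none w x⟫_ℝ = 0) (o2 : ∀ x, ⟪Nz F W none u x, w x⟫_ℝ = 0) :
    ⟪em F (sg F d W μ u), em F (Az F d W w)⟫_ℝ = ⟪em F (Az F d W u), em F (sg F d W μ w)⟫_ℝ := by
  obtain ⟨χ, hχ, e⟩ := prim hμ
  have k : ∀ {u}, u ∈ Sec (IC I) d.pC → em F (sg F d W μ u) = em F (Az F d W fun x => χ x.2 • u x) -
      em F fun x => χ x.2 • Az F d W u x := fun hu => by
    rw [← map_sub]
    exact congrArg _ (_root_.funext fun x => by simp [h.A_smul hχ hu.1 (hu.2.2 x), e])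
  have a := smul_mem hχ hu
  have b := smul_mem hχ hw
  rw [k hu, k hw, inner_sub_left, inner_sub_right, inner_em (h.A_mem a) (h.A_mem hw),
    inner_em (h.A_mem hu) (h.A_mem b), inner_em (smul_mem hχ (h.A_mem hu)) (h.A_mem hw),
    inner_em (h.A_mem hu) (smul_mem hχ (h.A_mem hw)), h.boch a.1 a.2.2 hw, h.boch hu.1 hu.2.2 b]
  simp only [real_inner_smul_left, real_inner_smul_right]
  congr 1
  refine integral_congr_ae (.of_forall fun x => ?_)
  simp only [h.N_smul hχ hu.1, h.N_smul hχ hw.1, h.kF_eq (hw.2.2 x), h.kF_eq (b.2.2 x), ct,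
    map_smul, PiLp.smul_apply, smul_comm _ (χ x.2), ← smul_sum]
  simp only [inner_add_left, inner_add_right, real_inner_smul_left, real_inner_smul_right]
  congr 1
  refine sum_congr rfl fun a _ => congrArg (· + _) ?_
  cases a <;> simp only [Option.elim, real_inner_smul_left, real_inner_smul_right, o1, o2,
    Pi.zero_apply, inner_zero_left, inner_zero_right]

theorem B1 (hu : u ∈ Sec (IC I) d.pC) (hw : w ∈ Sec (IC I) d.pC) :
    ⟪em F (Az F d W w), em F (Az F d W (Pz ν i u))⟫_ℝ =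
      ∫ x, ∑ a, ⟪Na F W a (cz ν i w) x, Na F W a (cz ν i u) x⟫_ℝ ∂(cyl F).μ := by
  rw [inner_em (h.A_mem hw) (h.A_mem (h.P_mem hu i)), h.boch hw.1 hw.2.2 (h.P_mem hu i)]
  refine integral_congr_ae (.of_forall fun x => ?_)
  simp only [h.N_hz (h.sm_cz hu.1) (h.ct_mem (hu.2.2 x)), real_inner_comm (hv ν i _ _), inner_hv,
    h.ct_N hw.1 (hw.2.2 x), real_inner_comm (Na F W _ (cz ν i u) x)]
  exact add_eq_left.2 (h.kF_hv (hw.2.2 x) (h.ct_mem (hu.2.2 x))).2

theorem B0 (hu : u ∈ Sec (IC I) d.pC) (hw : w ∈ Sec (IC I) d.pC) (o : cz ν i w = fun _ => 0) :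
    ⟪em F (Az F d W w), em F (Az F d W (Pz ν i u))⟫_ℝ = 0 := by
  simp [h.B1 hu hw, o, nab]

theorem nrm_sg (hμ : ContDiff ℝ ∞ μ) (hu : u ∈ Sec (IC I) d.pC) {δ : ℝ} (k : ∀ t, |μ t| ≤ δ) :
    ‖em F (sg F d W μ u)‖ ≤ δ * ‖em F (sg F d W (fun _ => 1) u)‖ :=
  em_le (h.sg_mem hμ hu) (h.sg_mem contDiff_const hu) ((abs_nonneg _).trans (k 0)) fun x => by
    simp only [sg, norm_smul, norm_one, one_mul]
    exact mul_le_mul_of_nonneg_right (k _) (norm_nonneg _)

theorem sq_sg (hu : u ∈ Sec (IC I) d.pC) :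
    ‖em F (sg F d W (fun _ => 1) u)‖ ^ 2 = ∫ x, ‖u x‖ ^ 2 ∂(cyl F).μ := by
  simp only [sq_em (h.sg_mem contDiff_const hu), sg, one_smul, h.norm_σ (hu.2.2 _)]

theorem B2 (hu : u ∈ Sec (IC I) d.pC) (o : ∀ i x, cz ν i u x = 0) :
    min r c * ‖em F (sg F d W (fun _ => 1) u)‖ ^ 2 ≤ ‖em F (Az F d W u)‖ ^ 2 := by
  have m := h.A_mem hu
  have b := h.boch hu.1 hu.2.2 hu
  rw [h.sq_sg hu, ← real_inner_self_eq_norm_sq (em F _), inner_em m m, ← integral_const_mul]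
  have s := fun a => sm_nab (F := cyl F) h.cp.con_cC.sm a hu.1
  have e : ∀ x, kF d (cyl F) (cyl F).Gam (cA W) x (u x) (u x) = _ := fun x =>
    eq_div_of_mul_eq (by norm_num) ((mul_comm _ _).trans
      (h.cp.curv_term (hu.2.2 x) (hu.2.2 x) (base (cA W) 0)).symm)
  refine (integral_mono ((ig2 hu.1.continuous hu.2.1).const_mul _) (Continuous.integrable_of_hasCompactSupport
    ?_ (hcs_of (F := F) (W := W) hu.2.1 fun x a b => by rw [e]; simp [a, b])) fun x => ?_).trans_eq b.symm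
  · simp only [e]
    exact (continuous_finsetSum _ fun a _ => (s a).continuous.inner (s a).continuous).add
      ((continuous_finsetSum _ fun a _ => continuous_finsetSum _ fun b _ =>
        ((h.sm_σ a).clm_apply hu.1).continuous.inner ((h.sm_σ b).clm_apply
          ((sm_curv (F := cyl F) h.cp.con_cC.sm a b).clm_apply hu.1)).continuous).div_const _)
  have k1 := h.spin _ _ (sp_of (hu.2.2 x))
  have k3 : ‖u x‖ ^ 2 = ‖fa (u x)‖ ^ 2 + ‖fp (u x)‖ ^ 2 := WithLp.prod_norm_sq_eq_of_L2 _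
  have k4 : 0 ≤ ∑ a, ⟪Nz F W a u x, Nz F W a u x⟫_ℝ := sum_nonneg fun _ _ => real_inner_self_nonneg
  simp only [h.kF_eq (hu.2.2 x), show ∀ i, ct ν i x.1 (u x) = 0 from (o · x), inner_zero_left,
    sum_const_zero, sub_zero, real_inner_self_eq_norm_sq (fa _), k3]
  nlinarith [mul_le_mul_of_nonneg_right (min_le_left r c) (sq_nonneg ‖fa (u x)‖),
    mul_le_mul_of_nonneg_right (min_le_right r c) (sq_nonneg ‖fp (u x)‖)]

theorem N_mem' (hu : u ∈ Sec (IC I) d.pC) (a : Option κ) : Nz F W a u ∈ Sec (IC I) d.pC :=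
  ⟨sm_nab h.cp.con_cC.sm a hu.1, Wz78.hcs_nab a hu.2.1, h.N_mem hu.1 hu.2.2 a⟩

theorem A_P (hu : u ∈ Sec (IC I) d.pC) (x : Y × ℝ) : ⟪Az F d W (Pz ν i u) x,
    (LZ F d W).σ none x (Pz ν i u x)⟫_ℝ = ⟪Na F W none (cz ν i u) x, cz ν i u x⟫_ℝ := by
  have m := fun x => h.ct_mem (i := i) (hu.2.2 x)
  have g := fun a => h.g_N (x := x) (h.sm_cz hu.1) m a
  rw [h.app ((h.P_mem hu i).2.2 x), sum_inner, Fintype.sum_option]
  simp only [h.N_hz (h.sm_cz hu.1) (m x), hz, h.orth (ξ' := cz ν i u x) (g _) (m x), sum_const_zero, add_zero,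
    h.inner_σ (h.hv_mem (g _)), inner_hv, h.ct_hv, if_true]

theorem Na_none : Na F W none f x = (cylP F.toPre).D none f x := by
  rw [Na, nab, show adw (cA W) none x = adcL (W none x.1) from rfl, h.tmp, map_zero, zero_apply,
    add_zero]; rfl

theorem cz_mem (hu : u ∈ Sec (IC I) d.pC) (i : Option η) : cz ν i u ∈ X I Y _ :=
  mem_triv (h.sm_cz hu.1) (hcs_u hu.2.1 fun x e => by simp [cz, ct, e])

theorem mono (hμ : ContDiff ℝ ∞ μ) (m : ∀ t, 0 ≤ deriv μ t) (hu : u ∈ Sec (IC I) d.pC) :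
    ⟪em F (Az F d W (Pz ν i u)), em F (sg F d W μ (Pz ν i u))⟫_ℝ ≤ 0 := by
  have z := h.cz_mem hu i
  have p := h.P_mem hu i
  have s : Sm (IC I) fun x => ⟪μ x.2 • cz ν i u x, cz ν i u x⟫_ℝ := fun x =>
    SA.inner ((smul_mem hμ z).1 x) (z.1 x)
  have k := Rf65.hcs_inner (fun x => μ x.2 • cz ν i u x) z.2.1
  rw [inner_em (h.A_mem p) (h.sg_mem hμ p), ← mul_zero (1 / 2 : ℝ), ← integral_D_none F.toPre s k,
    ← integral_const_mul]
  refine integral_mono (((h.A_mem p).1.continuous.inner (h.sg_mem hμ p).1.continuous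
    ).integrable_of_hasCompactSupport (Rf65.hcs_inner _ (h.sg_mem hμ p).2.1))
    ((((cylP F.toPre).sm_D s none).continuous.integrable_of_hasCompactSupport
      ((cylP F.toPre).hcs_D k none)).const_mul _) fun ⟨y, t⟩ => ?_
  have a := hasDerivAt_slice F.toPre z.1 y t
  have := (hasDerivAt_slice F.toPre s y t).unique
    (((hμ.differentiable (by simp) t).hasDerivAt.smul a).inner ℝ a)
  dsimp only
  rw [this]
  simp only [sg, real_inner_smul_right, h.A_P hu, h.Na_none, inner_add_right,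
    real_inner_smul_left, real_inner_comm (cz ν i u (y, t)), Pi.smul_apply']
  nlinarith [mul_nonneg (m t) (real_inner_self_nonneg (x := cz ν i u (y, t)))]

theorem en_le (hμ : ContDiff ℝ ∞ μ) (hu : u ∈ Sec (IC I) d.pC) :
    ∫ x, ∑ a, ‖Na F W (some a) (cz ν i u) x‖ ^ 2 ∂(cyl F).μ ≤
      ‖em F (Az F d W (Pz ν i u)) + em F (sg F d W μ (Pz ν i u))‖ ^ 2 := by
  have z := h.cz_mem hu i
  have p := h.P_mem hu i
  have j := fun a => ig2 (μ := (cyl F).μ) (sm_nab (F := cyl F) h.cp.con_adw.sm a z.1).continuous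
    (Wz78.hcs_nab a z.2.1)
  have b := h.B1 (i := i) hu p
  have q := add_mem (h.A_mem p) (h.sg_mem hμ p)
  rw [show cz ν i (Pz ν i u) = cz ν i u from _root_.funext fun x => (h.ct_hv _ _).trans (if_pos rfl)] at b
  simp only [real_inner_self_eq_norm_sq, Fintype.sum_option, sq_em (h.A_mem p)] at b
  rw [integral_add (j _) (integrable_finsetSum _ fun a _ => j _), ← sub_eq_iff_eq_add'] at b
  rw [← b, ← map_add, sq_em q, ← integral_sub (ig2 (h.A_mem p).1.continuous (h.A_mem p).2.1) (j _)]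
  refine integral_mono ((ig2 (h.A_mem p).1.continuous (h.A_mem p).2.1).sub (j _))
    (ig2 q.1.continuous q.2.1) fun x => ?_
  have n := (congrArg (· ^ 2) (h.norm_σ (p.2.2 x))).trans (h.norm_hv _)
  simp only [Pi.add_apply, norm_add_sq_real, sg, real_inner_smul_right, norm_smul, mul_pow,
    Real.norm_eq_abs, sq_abs, n, h.A_P hu]
  have := norm_add_sq_real (Na F W none (cz ν i u) x) (μ x.2 • cz ν i u x)
  rw [real_inner_smul_right, norm_smul, mul_pow, Real.norm_eq_abs, sq_abs] at this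
  nlinarith [sq_nonneg ‖Na F W none (cz ν i u) x + μ x.2 • cz ν i u x‖]

theorem A_sub (hu : u ∈ Sec (IC I) d.pC) (hw : w ∈ Sec (IC I) d.pC) :
    em F (Az F d W u) = em F (Az F d W w) + em F (Az F d W (u - w)) := by
  rw [← map_add]
  refine congrArg _ (_root_.funext fun x => ?_)
  rw [Pi.add_apply, ← Ell97.app_add hw.1 (sub_mem hu hw).1, add_sub_cancel]

omit h in
theorem sg_sub : em F (sg F d W μ u) = em F (sg F d W μ w) + em F (sg F d W μ (u - w)) := by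
  rw [← map_add]
  exact congrArg _ (_root_.funext fun x => by simp [sg, smul_sub])

theorem sg_orth (hχ : ContDiff ℝ ∞ χ) (hμ : ContDiff ℝ ∞ μ) (hu : u ∈ Sec (IC I) d.pC)
    (hw : w ∈ Sec (IC I) d.pC) (o : ∀ x, ⟪u x, w x⟫_ℝ = 0) :
    ⟪em F (sg F d W χ u), em F (sg F d W μ w)⟫_ℝ = 0 := by
  simp only [inner_em (h.sg_mem hχ hu) (h.sg_mem hμ hw), sg, real_inner_smul_left,
    real_inner_smul_right, h.inner_σ (hu.2.2 _), o, mul_zero, integral_zero]

/-- a section without component along `ν i` -/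
theorem perp (hχ : ContDiff ℝ ∞ χ) (hμ : ContDiff ℝ ∞ μ) (hu : u ∈ Sec (IC I) d.pC)
    (hw : w ∈ Sec (IC I) d.pC) (o : cz ν i w = fun _ => 0) :
    ⟪em F (sg F d W μ w), em F (Az F d W (Pz ν i u))⟫_ℝ =
      ⟪em F (Az F d W w), em F (sg F d W μ (Pz ν i u))⟫_ℝ ∧
    ⟪em F (sg F d W χ w), em F (sg F d W μ (Pz ν i u))⟫_ℝ = 0 := by
  have k : ∀ x ξ, ⟪w x, hv ν i x.1 ξ⟫_ℝ = 0 := fun x ξ => by
    rw [real_inner_comm, inner_hv, show ct ν i x.1 (w x) = 0 from congrFun o x, inner_zero_right]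
  refine ⟨h.sym hμ hw (h.P_mem hu i) (fun x => ?_) fun x => ?_,
    h.sg_orth hχ hμ hw (h.P_mem hu i) fun x => k x _⟩
  · rw [h.N_hz (h.sm_cz hu.1) (h.ct_mem (hu.2.2 x)), k]
  · rw [real_inner_comm, show Pz ν i u x = hv ν i x.1 _ from rfl, inner_hv, h.ct_N hw.1 (hw.2.2 x), o]
    simp [nab]

theorem A_sum {f : Option η → Y × ℝ → Cf (Option κ) K} (hf : ∀ i, f i ∈ Sec (IC I) d.pC) :
    em F (Az F d W (∑ i, f i)) = ∑ i, em F (Az F d W (f i)) := by
  rw [← map_sum]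
  refine congrArg _ (_root_.funext fun x => ?_)
  rw [h.app ((Submodule.sum_mem _ fun i _ => hf i).2.2 x), Finset.sum_apply,
    show ∑ i, f i = fun y => ∑ i, f i y from _root_.funext fun y => Finset.sum_apply ..]
  simp only [h.app ((hf _).2.2 x), Nz, nab_sum _ _ fun i => (hf i).1 x, map_sum]
  exact sum_comm

omit h in
theorem sg_sum {f : Option η → Y × ℝ → Cf (Option κ) K} :
    em F (sg F d W μ (∑ i, f i)) = ∑ i, em F (sg F d W μ (f i)) := by
  rw [← map_sum]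
  exact congrArg _ (_root_.funext fun x => by simp [sg, smul_sum])

omit h in
theorem sg_c (s : ℝ) : em F (sg F d W (fun _ => s) u) = s • em F (sg F d W (fun _ => 1) u) := by
  rw [← map_smul]
  exact congrArg _ (_root_.funext fun x => by simp [sg])

section coef
variable {ξ : Y → HS K} (hξ : Pl F (sA (adw W)) (fun y => d.g (y, 0)) ξ)
  (hu : u ∈ Sec (IC I) d.pC)
include hξ

theorem g_ξ (x : Y × ℝ) : d.g x (ξ x.1) = ξ x.1 := by rw [h.g, hξ.mem]

theorem N_k (a : Option κ) (x : Y × ℝ) : Nz F W a (hz ν i fun x => ξ x.1) x = 0 := by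
  rw [h.N_hz (sm_fst hξ.sm) (h.g_ξ hξ x), show Na F W a (fun x => ξ x.1) x = _ from nab_fst
    (A := adw W) (fun y => by rw [show adw W none y = adcL (W none y) from rfl, h.tmp, map_zero])
    hξ.sm a x]
  cases a <;> simp [hξ.par, hv_zero]

include hu

theorem pair (hχ : ContDiff ℝ ∞ χ) :
    ∫ x, χ x.2 * ⟪(LZ F d W).σ none x (hv ν i x.1 (ξ x.1)), Az F d W u x⟫_ℝ ∂(cyl F).μ =
      ∫ x, χ x.2 * ⟪ξ x.1, (cylP F.toPre).D none (cz ν i u) x⟫_ℝ ∂(cyl F).μ := by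
  obtain ⟨φ, hφ, e⟩ := prim hχ
  have sk := h.sm_hz (i := i) (sm_fst hξ.sm)
  have pk : ∀ x, d.pC x (hz ν i (fun x => ξ x.1) x) = hz ν i (fun x => ξ x.1) x :=
    fun x => h.hv_mem (h.g_ξ hξ x)
  have b := h.boch (u := fun x => φ x.2 • hz ν i (fun x => ξ x.1) x) ((sm_snd hφ).smul sk)
    (fun x => by rw [map_smul, pk]) hu
  simp only [h.A_smul hφ sk (pk _), h.app (pk _), h.N_smul hφ sk, h.N_k hξ, map_zero,
    sum_const_zero, smul_zero, add_zero, sg, e, real_inner_smul_left] at b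
  refine b.trans (integral_congr_ae (.of_forall fun x => ?_))
  have k := (h.kF_hv (i := i) (hu.2.2 x) (ξ := φ x.2 • ξ x.1) (by rw [map_smul, h.g_ξ hξ])).1
  rw [show hv ν i x.1 (φ x.2 • ξ x.1) = φ x.2 • hz ν i (fun x => ξ x.1) x from
    ext2 (fm_ext fun b => smul_comm _ _ _) (by simp [hz, fp_hv])] at k
  simp only [k, Fintype.sum_option, Option.elim, add_zero, Pi.zero_apply, inner_zero_left,
    sum_const_zero, real_inner_smul_left]
  simp only [hz, inner_hv, h.ct_N hu.1 (hu.2.2 x), h.Na_none]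

/-- the equation of the coefficient along a parallel form -/
theorem coef (hμ : ContDiff ℝ ∞ μ) {G : Y × ℝ → P2 (HS K) (Ef (Option κ) K)} (hG : G ∈ X I Y _)
    (e : ∀ x, ⟪(LZ F d W).σ none x (hv ν i x.1 (ξ x.1)), G x - Az F d W u x⟫_ℝ =
      μ x.2 * ⟪ξ x.1, cz ν i u x⟫_ℝ) {c : ℝ → ℝ} (hc : c = fun t => ∫ y, ⟪ξ y, cz ν i u (y, t)⟫_ℝ ∂F.μ) :
    ContDiff ℝ ∞ c ∧ HasCompactSupport c ∧
      ∫ t, (deriv c t + μ t * c t) ^ 2 ≤ (∫ y, ⟪ξ y, ξ y⟫_ℝ ∂F.μ) * ‖em F G‖ ^ 2 := by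
  have z := h.cz_mem hu i
  have s : Sm (IC I) fun x : Y × ℝ => ⟪ξ x.1, cz ν i u x⟫_ℝ := fun x =>
    SA.inner (sm_fst hξ.sm x) (z.1 x)
  have k : HasCompactSupport fun x : Y × ℝ => ⟪ξ x.1, cz ν i u x⟫_ℝ := Rf65.hcs_inner _ z.2.1
  have c1 : ContDiff ℝ ∞ c := by rw [hc]; exact cd_int F s k
  have c2 : HasCompactSupport c := by rw [hc]; exact hcs_int F (g := fun x => ⟪ξ x.1, cz ν i u x⟫_ℝ) k
  refine ⟨c1, c2, ?_⟩
  obtain ⟨χ, hχ⟩ : ∃ χ, χ = fun t => deriv c t + μ t * c t := ⟨_, rfl⟩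
  have x1 : ContDiff ℝ ∞ χ := by rw [hχ]; exact (contDiff_infty_iff_deriv.1 c1).2.add (hμ.mul c1)
  have x2 : HasCompactSupport χ := by rw [hχ]; exact c2.deriv.add c2.mul_left
  have m : (fun x => χ x.2 • hv ν i x.1 (ξ x.1)) ∈ Sec (IC I) d.pC :=
    ⟨(sm_snd x1).smul (h.sm_hz (sm_fst hξ.sm)), .intro (isCompact_univ.prod x2.isCompact) fun x hx => by
      rw [image_eq_zero_of_notMem_tsupport fun n => hx ⟨trivial, n⟩, zero_smul],
      fun x => by rw [map_smul, h.hv_mem (h.g_ξ hξ x)]⟩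
  have ms := h.sg_mem (χ := fun _ => 1) contDiff_const m
  have sD := (cylP F.toPre).sm_D s none
  have dD : ∀ x : Y × ℝ, ⟪ξ x.1, (cylP F.toPre).D none (cz ν i u) x⟫_ℝ =
      (cylP F.toPre).D none (fun x => ⟪ξ x.1, cz ν i u x⟫_ℝ) x := fun x => by
    simpa only [inner_zero_left, add_zero] using ((hasDerivAt_const _ (ξ x.1)).inner ℝ
      (hasDerivAt_slice F.toPre z.1 x.1 x.2)).unique (hasDerivAt_slice F.toPre s x.1 x.2)
  have e1 := inner_em (F := F) ms (h.A_mem hu)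
  have e2 := inner_em (F := F) ms (sub_mem hG (h.A_mem hu))
  have e3 := h.sq_sg m
  simp only [sg, one_smul, map_smul, real_inner_smul_left, Pi.sub_apply, e, h.pair hξ hu x1, dD,
    norm_smul, mul_pow, Real.norm_eq_abs, sq_abs, h.norm_hv] at e1 e2 e3
  replace e1 := e1.trans (integral_cyl F.toPre
    (u := fun x => χ x.2 * (cylP F.toPre).D none (fun x => ⟪ξ x.1, cz ν i u x⟫_ℝ) x)
    ((x1.continuous.comp continuous_snd).mul sD.continuous) ((cylP F.toPre).hcs_D k none).mul_left)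
  replace e2 := e2.trans (integral_cyl F.toPre (u := fun x => χ x.2 * (μ x.2 * ⟪ξ x.1, cz ν i u x⟫_ℝ))
    ((x1.continuous.comp continuous_snd).mul ((hμ.continuous.comp continuous_snd).mul
      s.continuous)) k.mul_left.mul_left)
  replace e3 := e3.trans (integral_cut (e := fun y => ‖ξ y‖ ^ 2) (χ := fun t => χ t ^ 2)
    (hξ.sm.continuous.norm.pow 2) (x1.continuous.pow 2) (x2.mono fun t ht n => ht (by simp [n]))).2
  simp only [integral_const_mul, ← fun t => (der_int F s k t).deriv, ← congrFun hc] at e1 e2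
  have e4 := real_inner_mul_inner_self_le (em F (sg F d W (fun _ => 1) fun x =>
    χ x.2 • hv ν i x.1 (ξ x.1))) (em F G)
  rw [map_sub, inner_sub_right, e1, sub_eq_iff_eq_add', ← integral_add (f := fun t => χ t * deriv c t)
    (g := fun t => χ t * (μ t * c t)) ((x1.continuous.mul (c1.continuous_deriv (by simp))).integrable_of_hasCompactSupport x2.mul_right)
    ((x1.continuous.mul (hμ.continuous.mul c1.continuous)).integrable_of_hasCompactSupport
      x2.mul_right)] at e2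
  simp only [← mul_add, ← sq, ← congrFun hχ] at e2 ⊢
  simp only [e2, real_inner_self_eq_norm_sq, e3] at e4 ⊢
  have p : 0 ≤ ∫ t, χ t ^ 2 := by positivity
  rcases p.eq_or_lt with p | p
  · rw [← p]; positivity
  · exact le_of_mul_le_mul_left (e4.trans_eq (mul_assoc _ _ _)) p

end coef

end ZZ

end Crest.Agent.X212.Sw.Zl
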