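import Crest.Agent.X212.Sw.ZlB

/-!
# Row 212, ZL (helper91): the estimate for a monotone drift
-/

set_option autoImplicit false
set_option linter.unusedSectionVars false
set_option maxHeartbeats 400000
noncomputable section
open scoped Manifold ContDiff Topology InnerProductSpace
open MeasureTheory Function Filter Finset

namespace Crest.Agent.X212.Sw.Zl
open An An.Pre Wz78 Sob92 Cyf70 Rf65 Map77 Op78
open Inv14 (hv ct inner_hv)

variable {E : Type} [NormedAddCommGroup E] [NormedSpace ℝ E] [FiniteDimensional ℝ E]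
  [MeasurableSpace E] [BorelSpace E]
  {HM : Type} [TopologicalSpace HM] {I : ModelWithCorners ℝ E HM} [I.Boundaryless]
  {Y : Type} [TopologicalSpace Y] [ChartedSpace HM Y] [IsManifold I ∞ Y] [T2Space Y]
  [MeasurableSpace Y] [BorelSpace Y] [SecondCountableTopology Y] [CompactSpace Y]
  {κ K η : Type} [Fintype κ] [DecidableEq κ] [Fintype K] [DecidableEq K] [Fintype η] [DecidableEq η]
  (F : Fr I Y κ) (d : Bd (Y × ℝ) (Option κ) K) (W : Option κ → Y → En K) (ν : η → κ → Y → ℝ)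

/-- the conjugated operator -/
def Fz (e : ℝ) (μ : ℝ → ℝ) (u : Y × ℝ → Cf (Option κ) K) : Y × ℝ → P2 (HS K) (Ef (Option κ) K) :=
  Az F d W u + sg F d W μ u + sg F d W (fun t => e - μ t) (Pz ν none u)

/-- the coefficient -/
def co (ξ : Y → HS K) (i : Option η) (u : Y × ℝ → Cf (Option κ) K) (t : ℝ) : ℝ :=
  ∫ y, ⟪ξ y, cz ν i u (y, t)⟫_ℝ ∂F.μ

theorem fin [Subsingleton η] {H : Type*} [NormedAddCommGroup H] [InnerProductSpace ℝ H] {C δ e N : ℝ}
    (hC : 0 < C) (hδ : 0 < δ) (e0 : 0 < e) (N0 : 0 < N) : ∃ K ≥ 0, ∀ (A s m : Option η → H)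
      (Av sv mv f : H) (t : Option η → ℝ), (∀ i, 0 ≤ t i) → (∀ i, ‖m i‖ ≤ δ * ‖s i‖) →
      ‖s none‖ ^ 2 ≤ C * (‖A none‖ ^ 2 + t none ^ 2) →
      (∀ i, ‖s i‖ ^ 2 ≤ C * (‖A i + m i‖ ^ 2 + t i ^ 2)) → t none ^ 2 ≤ N * ‖f‖ ^ 2 →
      ‖A none‖ ^ 2 ≤ (8 + 8 * C * δ ^ 2) * ‖f‖ ^ 2 + 3 * t none ^ 2 → ‖mv‖ ≤ ‖Av‖ / 2 →
      δ * ‖sv‖ ≤ ‖Av‖ / 2 → ‖Av‖ ≤ 2 * ‖∑ i, A i + Av + (∑ i, m i + mv)‖ →
      f = ∑ i, A i + Av + (∑ i, m i + mv) + (e • s none - m none) →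
      ‖∑ i, s i + sv‖ ≤ K * (‖f‖ + ∑ i, t (some i)) := by
  obtain ⟨α, hα⟩ : ∃ α, α = √(8 + 8 * C * δ ^ 2 + 3 * N) := ⟨_, rfl⟩
  obtain ⟨β, hβ⟩ : ∃ β, β = √(C * (α ^ 2 + N)) := ⟨_, rfl⟩
  have α0 : 0 ≤ α := hα ▸ Real.sqrt_nonneg _
  have β0 : 0 ≤ β := hβ ▸ Real.sqrt_nonneg _
  obtain ⟨γ, hγ⟩ : ∃ γ, γ = 1 + (e + δ) * β := ⟨_, rfl⟩
  have γ0 : 0 ≤ γ := by rw [hγ]; positivity
  refine ⟨β + γ / δ + √C * (Fintype.card η * (4 * γ + α + δ * β) + 1), by positivity,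
    fun A s m Av sv mv f t t0 p2 p0 po c2 q q0 q' q1 eF => ?_⟩
  have a1 : ‖A none‖ ≤ α * ‖f‖ := le_of_sq_le_sq (by
    rw [mul_pow, hα, Real.sq_sqrt (by positivity)]; linarith) (by positivity)
  have a2 : ‖s none‖ ≤ β * ‖f‖ := le_of_sq_le_sq (by
    rw [mul_pow, hβ, Real.sq_sqrt (by positivity), mul_assoc, add_mul, ← mul_pow]
    exact p0.trans (mul_le_mul_of_nonneg_left (add_le_add
      (pow_le_pow_left₀ (norm_nonneg _) a1 2) c2) hC.le)) (by positivity)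
  have a3 := (p2 none).trans (mul_le_mul_of_nonneg_left a2 hδ.le)
  obtain ⟨G, hG⟩ : ∃ G, G = ∑ i, A i + Av + (∑ i, m i + mv) := ⟨_, rfl⟩
  rw [← hG] at eF q1
  have a4 : ‖G‖ ≤ γ * ‖f‖ := by
    rw [← sub_eq_iff_eq_add] at eF
    rw [← eF, hγ]
    refine (norm_sub_le _ _).trans ((add_le_add_right (norm_sub_le _ _) _).trans ?_)
    rw [norm_smul, Real.norm_of_nonneg e0.le]
    linarith [mul_le_mul_of_nonneg_left a2 e0.le]
  have a5 : ∀ i, ‖s (some i)‖ ≤ √C * ((4 * γ + α + δ * β) * ‖f‖ + t (some i)) := fun i => by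
    have b : ‖A (some i) + m (some i)‖ ≤ (4 * γ + α + δ * β) * ‖f‖ := by
      rw [show A (some i) + m (some i) = G - A none - m none - Av - mv by
        simp only [hG, Fintype.sum_option, Fintype.sum_subsingleton _ i]; abel]
      refine (norm_sub_le _ _).trans ((add_le_add_left ((norm_sub_le _ _).trans (add_le_add_left
        ((norm_sub_le _ _).trans (add_le_add_left (norm_sub_le _ _) _)) _)) _).trans ?_)
      linarith
    have := t0 (some i)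
    refine le_of_sq_le_sq ((po _).trans ?_) (by positivity)
    rw [mul_pow, Real.sq_sqrt hC.le]
    refine mul_le_mul_of_nonneg_left ?_ hC.le
    nlinarith [pow_le_pow_left₀ (norm_nonneg _) b 2, mul_nonneg ((norm_nonneg _).trans b) this]
  have a6 : ‖sv‖ ≤ γ / δ * ‖f‖ := by
    rw [div_mul_eq_mul_div, le_div_iff₀' hδ]; linarith
  have a7 := (norm_sum_le _ _).trans (sum_le_sum fun i (_ : i ∈ univ) => a5 i)
  rw [← mul_sum, sum_add_distrib, sum_const, card_univ, nsmul_eq_mul] at a7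
  rw [Fintype.sum_option]
  refine (norm_add_le _ _).trans ((add_le_add_left (norm_add_le _ _) _).trans ?_)
  nlinarith [mul_nonneg (show 0 ≤ β + γ / δ + √C * (Fintype.card η * (4 * γ + α + δ * β)) by
    positivity) (sum_nonneg fun i (_ : i ∈ univ) => t0 (some i)),
    mul_nonneg (Real.sqrt_nonneg C) (norm_nonneg f)]

variable {F d W ν} {r c e δ : ℝ} {μ : ℝ → ℝ} {u : Y × ℝ → Cf (Option κ) K} {ξ : Y → HS K}

namespace ZZ
variable (h : ZZ F d W ν r c)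
include h

theorem pq : Pq F (sA (adw W)) fun y => d.g (y, 0) where
  smA a := sm_slice_fst (h.cp.con_adw.sm (some a)) 0
  sk a y := h.cp.skew_adw (some a) (y, 0)
  sm := sm_slice_fst h.cp.sg 0
  idem y := h.cp.ok.g.idem (y, 0)
  symm y := h.cp.ok.g.symm (y, 0)
  par a y := (congrArg (· + _) (D_some F.toPre h.cp.sg a (y, 0))).symm.trans (h.cp.g (some a) (y, 0))

theorem F_mem (hμ : ContDiff ℝ ∞ μ) (hu : u ∈ Sec (IC I) d.pC) : Fz F d W ν e μ u ∈ X I Y _ :=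
  add_mem (add_mem (h.A_mem hu) (h.sg_mem hμ hu))
    (h.sg_mem (contDiff_const.sub hμ) (h.P_mem hu none))

variable (hξ : Pl F (sA (adw W)) (fun y => d.g (y, 0)) ξ)
include hξ

theorem co_le (hμ : ContDiff ℝ ∞ μ) (hu : u ∈ Sec (IC I) d.pC) (i : Option η) :
    ContDiff ℝ ∞ (co F ν ξ i u) ∧ HasCompactSupport (co F ν ξ i u) ∧
      ∫ t, (deriv (co F ν ξ i u) t + i.elim e (fun _ => μ t) * co F ν ξ i u t) ^ 2 ≤
        (∫ y, ⟪ξ y, ξ y⟫_ℝ ∂F.μ) * ‖em F (Fz F d W ν e μ u)‖ ^ 2 := by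
  refine h.coef hξ hu (μ := fun t => i.elim e fun _ => μ t)
    (by cases i; exacts [contDiff_const, hμ]) (h.F_mem hμ hu) (fun x => ?_) rfl
  simp only [Fz, Pi.add_apply, add_assoc, add_sub_cancel_left, sg, inner_add_right,
    real_inner_smul_right, h.inner_σ (h.hv_mem (h.g_ξ hξ x)), inner_hv, hz, h.ct_hv, cz]
  cases i <;> simp [← add_mul]

theorem main [Subsingleton η] (n : 0 < ∫ y, ⟪ξ y, ξ y⟫_ℝ ∂F.μ)
    (sp : ∀ ζ, Pl F (sA (adw W)) (fun y => d.g (y, 0)) ζ → ∃ s : ℝ, s • ξ = ζ) (hδ : 0 < δ)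
    (h4 : 4 * δ ^ 2 ≤ min r c) : ∃ e₀ > 0, ∀ e ∈ Set.Ioc 0 e₀, ∃ C ≥ 0, ∀ μ u, ContDiff ℝ ∞ μ →
      (∀ t, 0 ≤ deriv μ t) → (∀ t, |μ t| ≤ δ) → u ∈ Sec (IC I) d.pC →
      ‖em F (sg F d W (fun _ => 1) u)‖ ≤ C * (‖em F (Fz F d W ν e μ u)‖ +
        ∑ i, √(∫ t, co F ν ξ (some i) u t ^ 2)) := by
  obtain ⟨C, hC, hp⟩ := poi h.pq (sm_slice_fst (h.cp.con_adw.sm none) 0) h.dim hξ n sp
  refine ⟨1 / (2 * δ * C), by positivity, fun e he => ?_⟩
  have e0 := he.1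
  obtain ⟨K, K0, hK⟩ := fin (η := η) (H := (cyl F).H 0 (triv _ (P2 (HS K) (Ef (Option κ) K)))) hC hδ e0
    (div_pos n (pow_pos e0 2))
  refine ⟨K, K0, fun μ u hμ m hb hu => ?_⟩
  have P := h.P_mem hu
  have po : ∀ i {χ}, ContDiff ℝ ∞ χ → ‖em F (sg F d W (fun _ => 1) (Pz ν i u))‖ ^ 2 ≤
      C * (‖em F (Az F d W (Pz ν i u)) + em F (sg F d W χ (Pz ν i u))‖ ^ 2 +
        √(∫ t, co F ν ξ i u t ^ 2) ^ 2) := fun i χ hχ => by
    rw [h.sq_sg (P i), Real.sq_sqrt (by positivity)]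
    simp only [hz, h.norm_hv]
    exact (hp _ (h.cz_mem hu i) fun x => by
      rw [← h.g]; exact h.ct_mem (hu.2.2 x)).trans (mul_le_mul_of_nonneg_left (add_le_add_left (h.en_le hχ hu) _) hC.le)
  have hn := sub_mem hu (P none)
  have o1 : cz ν none (u - Pz ν none u) = fun _ => 0 :=
    _root_.funext fun x => by simp [cz, ct_sub, hz, h.ct_hv]
  have hk := Submodule.sum_mem _ fun i (_ : i ∈ univ) => P i
  have hv := sub_mem hu hk
  have ov : ∀ i, cz ν i (u - ∑ j, Pz ν j u) = fun _ => 0 := fun i =>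
    _root_.funext fun x => by simp [cz, ct_sub, ct_sum, hz, h.ct_hv, -Fintype.sum_option]
  have p0 := po none (χ := fun _ => 0) contDiff_const
  have p1 := h.mono (i := none) (μ := fun _ => -1) contDiff_const (by simp) hu
  have p2 := fun i => h.nrm_sg hμ (P i) hb
  have p3 := h.nrm_sg hμ hv hb
  have p4 := h.B2 hv fun i => congrFun (ov i)
  have eF : em F (Fz F d W ν e μ u) = em F (Az F d W u) + em F (sg F d W μ u) +
      (e • em F (sg F d W (fun _ => 1) (Pz ν none u)) - em F (sg F d W μ (Pz ν none u))) := by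
    simp only [← map_smul, ← map_sub, ← map_add]
    exact congrArg _ (_root_.funext fun x => by simp [Fz, sg, sub_smul])
  rw [sg_c 0, zero_smul, add_zero] at p0
  rw [sg_c, inner_smul_right, real_inner_comm] at p1
  have q := stepA (η := e) (h.B0 hu hn o1) (h.perp hμ hμ hu hn o1).1 (h.perp hμ hμ hu hn o1).2
    (h.mono hμ m hu) (by linarith) (p2 none) e0.le hδ.le hC (by
      have := (le_div_iff₀ (by positivity)).1 he.2; linarith) p0
  have q' : ‖em F (sg F d W μ (u - ∑ j, Pz ν j u))‖ ≤ ‖em F (Az F d W (u - ∑ j, Pz ν j u))‖ / 2 ∧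
      δ * ‖em F (sg F d W (fun _ => 1) (u - ∑ j, Pz ν j u))‖ ≤
        ‖em F (Az F d W (u - ∑ j, Pz ν j u))‖ / 2 := by
    refine (fun k => ⟨p3.trans k, k⟩) (le_of_sq_le_sq ?_ (by positivity))
    nlinarith [mul_le_mul_of_nonneg_right h4 (sq_nonneg ‖em F (sg F d W (fun _ => 1) (u - ∑ j, Pz ν j u))‖)]
  have q1 := stepV (Ak := em F (Az F d W (∑ j, Pz ν j u))) (mk := em F (sg F d W μ (∑ j, Pz ν j u)))
    (by rw [h.A_sum P, sum_inner]; exact sum_eq_zero fun i _ => by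
          rw [real_inner_comm, h.B0 hu hv (ov i)])
    (by rw [h.A_sum P, sg_sum, sum_inner, sum_inner]; exact sum_congr rfl fun i _ => by
          rw [real_inner_comm, ← (h.perp hμ hμ hu hv (ov i)).1, real_inner_comm])
    (by rw [sg_sum, sum_inner]; exact sum_eq_zero fun i _ => by
          rw [real_inner_comm, (h.perp hμ hμ hu hv (ov i)).2]) q'.1
  have c0 := h.co_le hξ (e := e) hμ hu none
  have c1 := (ode0 c0.1 c0.2.1 e).trans c0.2.2
  have eA := h.A_sub hu hk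
  have eS := fun χ => sg_sub (F := F) (d := d) (W := W) (μ := χ) (u := u) (w := ∑ j, Pz ν j u)
  rw [← h.A_sub hu (P none), show ∀ x y z : (cyl F).H 0 (triv _ _), x + (y + z) = x +
    (em F (sg F d W μ (Pz ν none u)) + z) + (y - em F (sg F d W μ (Pz ν none u))) from
      fun _ _ _ => by abel, ← sg_sub, ← eF] at q
  rw [eA, eS] at eF
  rw [h.A_sum P, sg_sum] at eF q1
  rw [eS, sg_sum]
  refine hK _ _ _ _ _ _ _ (fun i => √(∫ t, co F ν ξ i u t ^ 2)) (fun _ => Real.sqrt_nonneg _) p2 p0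
    (po · hμ) ?_ q q'.1 q'.2 q1 eF
  rw [Real.sq_sqrt (by positivity), div_mul_eq_mul_div, le_div_iff₀' (by positivity)]
  exact c1

end ZZ

end Crest.Agent.X212.Sw.Zl
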